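import Mathlib

/-!
# Random colours: sparse sums without collisions (module RAND of P249)
-/

namespace Vale.Agent.Lib.P249

open Finset

section Rand

variable {A W : Type*} [Fintype A] [Fintype W] [DecidableEq A] [DecidableEq W]

/-- number of colourings in which all the points of `B` have colour `c` -/
theorem rand_count {R : ℕ} (c : Fin R) (B : Finset W) :
    ((univ.filter (fun om : W → Fin R => ∀ w ∈ B, om w = c)).card : ℝ) * (R : ℝ) ^ B.card =
      (R : ℝ) ^ Fintype.card W := by
  have h1 : (univ.filter (fun om : W → Fin R => ∀ w ∈ B, om w = c)) =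
      Fintype.piFinset (fun w => if w ∈ B then ({c} : Finset (Fin R)) else univ) := by
    ext om
    simp only [mem_filter, mem_univ, true_and, Fintype.mem_piFinset]
    constructor
    · intro h w
      by_cases hw : w ∈ B
      · simp [hw, h w hw]
      · simp [hw]
    · intro h w hw
      have := h w
      simpa [hw] using this
  have h2 : (univ.filter (fun om : W → Fin R => ∀ w ∈ B, om w = c)).card =
      R ^ (Fintype.card W - B.card) := by
    rw [h1, Fintype.card_piFinset]
    have : ∀ w, (if w ∈ B then ({c} : Finset (Fin R)) else univ).card =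
        if w ∈ B then 1 else R := by
      intro w; split_ifs <;> simp
    simp only [this]
    rw [prod_ite, prod_const_one, one_mul, prod_const]
    congr 1
    rw [filter_not, filter_mem_eq_inter, univ_inter, card_sdiff_of_subset (subset_univ _), card_univ]
  rw [h2]
  push_cast
  rw [← pow_add, Nat.sub_add_cancel (card_le_univ B)]

/-- the active points of colour `c` -/
noncomputable def randAct {R : ℕ} (c : Fin R) (y : A → W → ℝ) (a : A) (om : W → Fin R) : Finset W :=
  univ.filter (fun w => y a w ≠ 0 ∧ om w = c)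

/-- the colouring is good: no point has more than `q` active coordinates -/
def RandGood {R : ℕ} (c : Fin R) (q : ℕ) (y : A → W → ℝ) (om : W → Fin R) : Prop :=
  ∀ a, (randAct c y a om).card ≤ q

open Classical in
/-- the random function -/
noncomputable def randF {R : ℕ} (c : Fin R) (q : ℕ) (p : ℝ) (y : A → W → ℝ) (a : A)
    (om : W → Fin R) : ℝ :=
  if RandGood c q y om then (R : ℝ) ^ (1 / p) * ∑ w, (if om w = c then y a w else 0) else 0

omit [DecidableEq A] in
/-- few bad colourings -/
theorem rand_bad {R : ℕ} (hR : 0 < R) (c : Fin R) (q K : ℕ) (y : A → W → ℝ)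
    (hK : ∀ a, (univ.filter (fun w => y a w ≠ 0)).card ≤ K) :
    open Classical in
    ((univ.filter (fun om : W → Fin R => ¬ RandGood c q y om)).card : ℝ) ≤
      (Fintype.card A : ℝ) * ((K : ℝ) / R) ^ (q + 1) * (R : ℝ) ^ Fintype.card W := by
  classical
  have hRr : (0 : ℝ) < R := by exact_mod_cast hR
  have h1 : (univ.filter (fun om : W → Fin R => ¬ RandGood c q y om)) ⊆
      (univ : Finset A).biUnion (fun a => ((univ.filter (fun w => y a w ≠ 0)).powersetCard (q + 1)).biUnion
        (fun B => univ.filter (fun om : W → Fin R => ∀ w ∈ B, om w = c))) := by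
    intro om hom
    simp only [mem_filter, mem_univ, true_and, RandGood, not_forall, not_le] at hom
    obtain ⟨a, ha⟩ := hom
    obtain ⟨B, hB, hBc⟩ := exists_subset_card_eq (Nat.succ_le_of_lt ha)
    simp only [mem_biUnion, mem_univ, true_and, mem_powersetCard, mem_filter]
    refine ⟨a, B, ⟨?_, hBc⟩, ?_⟩
    · intro w hw
      have := hB hw
      simp only [randAct, mem_filter, mem_univ, true_and] at this
      simp [this.1]
    · intro w hw
      have := hB hw
      simp only [randAct, mem_filter, mem_univ, true_and] at this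
      exact this.2
  have h2 : ((univ.filter (fun om : W → Fin R => ¬ RandGood c q y om)).card : ℝ) ≤
      ∑ a : A, ∑ B ∈ (univ.filter (fun w => y a w ≠ 0)).powersetCard (q + 1),
        ((univ.filter (fun om : W → Fin R => ∀ w ∈ B, om w = c)).card : ℝ) := by
    have := (card_le_card h1).trans (card_biUnion_le.trans
      (sum_le_sum fun a _ => card_biUnion_le))
    exact_mod_cast this
  refine h2.trans ?_
  have h3 : ∀ a : A, ∑ B ∈ (univ.filter (fun w => y a w ≠ 0)).powersetCard (q + 1),
        ((univ.filter (fun om : W → Fin R => ∀ w ∈ B, om w = c)).card : ℝ) ≤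
      ((K : ℝ) / R) ^ (q + 1) * (R : ℝ) ^ Fintype.card W := by
    intro a
    have e : ∀ B ∈ (univ.filter (fun w => y a w ≠ 0)).powersetCard (q + 1),
        ((univ.filter (fun om : W → Fin R => ∀ w ∈ B, om w = c)).card : ℝ) =
          (R : ℝ) ^ Fintype.card W / (R : ℝ) ^ (q + 1) := by
      intro B hB
      rw [eq_div_iff (by positivity), ← (mem_powersetCard.mp hB).2, rand_count]
    rw [sum_congr rfl e, sum_const, card_powersetCard, nsmul_eq_mul]
    have h4 : (((univ.filter (fun w => y a w ≠ 0)).card.choose (q + 1) : ℕ) : ℝ) ≤ (K : ℝ) ^ (q + 1) := by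
      have h5 : (((univ.filter (fun w => y a w ≠ 0)).card.choose (q + 1) : ℕ) : ℝ) ≤
          ((K.choose (q + 1) : ℕ) : ℝ) := by
        exact_mod_cast Nat.choose_le_choose _ (hK a)
      refine h5.trans ((Nat.choose_le_pow_div (q + 1) K).trans ?_)
      exact div_le_self (by positivity) (by exact_mod_cast Nat.one_le_iff_ne_zero.mpr (Nat.factorial_ne_zero _))
    have h6 : 0 ≤ (R : ℝ) ^ Fintype.card W / (R : ℝ) ^ (q + 1) := by positivity
    refine (mul_le_mul_of_nonneg_right h4 h6).trans (le_of_eq ?_)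
    rw [div_pow]; field_simp
  refine (sum_le_sum fun a _ => h3 a).trans (le_of_eq ?_)
  rw [sum_const, card_univ, nsmul_eq_mul, mul_assoc]


omit [Fintype A] [DecidableEq A] [DecidableEq W] in
theorem rand_sum_T {R : ℕ} (c : Fin R) (v : W → ℝ) (om : W → Fin R) (g : ℝ → ℝ) (hg : g 0 = 0) :
    ∑ w, (if om w = c then g (v w) else 0) =
      ∑ w ∈ univ.filter (fun w => v w ≠ 0 ∧ om w = c), g (v w) := by
  classical
  rw [sum_filter]
  refine sum_congr rfl fun w _ => ?_
  by_cases h : v w = 0
  · simp [h, hg]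
  · simp [h]

omit [Fintype A] [DecidableEq A] in
theorem rand_T_card {R : ℕ} (c : Fin R) (y : A → W → ℝ) (a b : A) (om : W → Fin R) :
    (univ.filter (fun w => y a w - y b w ≠ 0 ∧ om w = c)).card ≤
      (randAct c y a om).card + (randAct c y b om).card := by
  classical
  have : univ.filter (fun w => y a w - y b w ≠ 0 ∧ om w = c) ⊆ randAct c y a om ∪ randAct c y b om := by
    intro w hw
    simp only [mem_filter, mem_univ, true_and] at hw
    simp only [randAct, mem_union, mem_filter, mem_univ, true_and]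
    by_contra h
    push Not at h
    by_cases ha : y a w = 0
    · by_cases hb : y b w = 0
      · exact hw.1 (by rw [ha, hb, sub_zero])
      · exact (h.2 hb) hw.2
    · exact (h.1 ha) hw.2
  exact (card_le_card this).trans (card_union_le _ _)

omit [Fintype A] [DecidableEq A] in
theorem rand_sub {R : ℕ} (c : Fin R) (q : ℕ) (p : ℝ) (y : A → W → ℝ) (a b : A) (om : W → Fin R)
    (h : RandGood c q y om) :
    randF c q p y a om - randF c q p y b om =
      (R : ℝ) ^ (1 / p) * ∑ w, (if om w = c then y a w - y b w else 0) := by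
  unfold randF
  rw [if_pos h, if_pos h, ← mul_sub, ← sum_sub_distrib]
  congr 1
  refine sum_congr rfl fun w _ => ?_
  split_ifs <;> simp

/-- pointwise Lipschitz bound -/
theorem rand_lip {R : ℕ} (c : Fin R) (q : ℕ) (p : ℝ) (y : A → W → ℝ) (a b : A) (om : W → Fin R)
    (L : ℝ) (hL0 : 0 ≤ L) (hL : ∀ w, |y a w - y b w| ≤ L) :
    |randF c q p y a om - randF c q p y b om| ≤ (R : ℝ) ^ (1 / p) * (2 * q * L) := by
  by_cases h : RandGood c q y om
  · rw [rand_sub c q p y a b om h, abs_mul, abs_of_nonneg (Real.rpow_nonneg (Nat.cast_nonneg R) _)]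
    refine mul_le_mul_of_nonneg_left ?_ (Real.rpow_nonneg (Nat.cast_nonneg R) _)
    rw [rand_sum_T c (fun w => y a w - y b w) om (fun t => t) rfl]
    refine (abs_sum_le_sum_abs _ _).trans ?_
    refine (sum_le_card_nsmul _ _ L fun w _ => hL w).trans ?_
    rw [nsmul_eq_mul]
    refine mul_le_mul_of_nonneg_right ?_ hL0
    have h1 := rand_T_card c y a b om
    have h2 := h a
    have h3 := h b
    have h4 : (univ.filter (fun w => y a w - y b w ≠ 0 ∧ om w = c)).card ≤ 2 * q := by omega
    exact_mod_cast h4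
  · unfold randF
    rw [if_neg h, if_neg h, sub_zero, abs_zero]
    have := Real.rpow_nonneg (Nat.cast_nonneg R : (0 : ℝ) ≤ R) (1 / p)
    positivity

omit [Fintype A] [DecidableEq A] in
/-- comparison for a good colouring -/
theorem rand_good {R : ℕ} (c : Fin R) (q : ℕ) (p : ℝ) (hp : 1 ≤ p) (y : A → W → ℝ)
    (a b : A) (om : W → Fin R) (h : RandGood c q y om) :
    |(|∑ w, (if om w = c then y a w - y b w else 0)| ^ p) -
      ∑ w, (if om w = c then |y a w - y b w| ^ p else 0)| ≤
      (2 * (q : ℝ)) ^ p * ∑ w, ∑ w', (if w' ≠ w ∧ y a w' - y b w' ≠ 0 ∧ om w = c ∧ om w' = c then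
        |y a w - y b w| ^ p else 0) := by
  classical
  set v : W → ℝ := fun w => y a w - y b w with hv
  have hp0 : (0 : ℝ) < p := by linarith
  have e1 : ∑ w, (if om w = c then y a w - y b w else 0) =
      ∑ w ∈ univ.filter (fun w => v w ≠ 0 ∧ om w = c), v w :=
    rand_sum_T c v om (fun t => t) rfl
  have e2 : ∑ w, (if om w = c then |y a w - y b w| ^ p else 0) =
      ∑ w ∈ univ.filter (fun w => v w ≠ 0 ∧ om w = c), |v w| ^ p :=
    rand_sum_T c v om (fun t => |t| ^ p) (by simp [hp0.ne'])
  rw [e1, e2]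
  set T := univ.filter (fun w => v w ≠ 0 ∧ om w = c) with hT
  have hTc : T.card ≤ 2 * q := by
    have h1 := rand_T_card c y a b om
    have h2 := h a
    have h3 := h b
    have : T.card = (univ.filter (fun w => y a w - y b w ≠ 0 ∧ om w = c)).card := rfl
    omega
  have hR0 : 0 ≤ ∑ w, ∑ w', (if w' ≠ w ∧ v w' ≠ 0 ∧ om w = c ∧ om w' = c then
        |v w| ^ p else 0) := by
    refine sum_nonneg fun w _ => sum_nonneg fun w' _ => ?_
    split_ifs
    · exact Real.rpow_nonneg (abs_nonneg _) _
    · exact le_refl _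
  rcases Nat.lt_or_ge T.card 2 with hlt | hge
  · have hz : (|∑ w ∈ T, v w| ^ p) - ∑ w ∈ T, |v w| ^ p = 0 := by
      rcases Nat.lt_or_ge T.card 1 with h0 | h1
      · have : T = ∅ := card_eq_zero.mp (by omega)
        rw [this]; simp [hp0.ne']
      · obtain ⟨w, hw⟩ := card_eq_one.mp (show T.card = 1 by omega)
        rw [hw]; simp
    rw [hz, abs_zero]
    exact mul_nonneg (Real.rpow_nonneg (by positivity) _) hR0
  · have hq : 1 ≤ q := by omega
    have hq1 : (1 : ℝ) ≤ 2 * (q : ℝ) := by
      have : (1 : ℝ) ≤ q := by exact_mod_cast hq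
      linarith
    have hh0 : 0 ≤ ∑ w ∈ T, |v w| ^ p := sum_nonneg fun w _ => Real.rpow_nonneg (abs_nonneg _) _
    have hg0 : 0 ≤ |∑ w ∈ T, v w| ^ p := Real.rpow_nonneg (abs_nonneg _) _
    have hone : (1 : ℝ) ≤ (2 * (q : ℝ)) ^ p := Real.one_le_rpow hq1 hp0.le
    have hg : |∑ w ∈ T, v w| ^ p ≤ (2 * (q : ℝ)) ^ p * ∑ w ∈ T, |v w| ^ p := by
      have g1 : |∑ w ∈ T, v w| ^ p ≤ (∑ w ∈ T, |v w|) ^ p :=
        Real.rpow_le_rpow (abs_nonneg _) (abs_sum_le_sum_abs _ _) hp0.le
      have g2 := Real.rpow_sum_le_const_mul_sum_rpow T v hp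
      have g3 : (T.card : ℝ) ^ (p - 1) ≤ (2 * (q : ℝ)) ^ p := by
        have g4 : (T.card : ℝ) ≤ 2 * (q : ℝ) := by exact_mod_cast hTc
        refine (Real.rpow_le_rpow (Nat.cast_nonneg _) g4 (by linarith)).trans ?_
        exact Real.rpow_le_rpow_of_exponent_le hq1 (by linarith)
      exact g1.trans (g2.trans (mul_le_mul_of_nonneg_right g3 hh0))
    have hh : ∑ w ∈ T, |v w| ^ p ≤ (2 * (q : ℝ)) ^ p * ∑ w ∈ T, |v w| ^ p := by
      nlinarith
    have hh2 : ∑ w ∈ T, |v w| ^ p ≤ ∑ w, ∑ w', (if w' ≠ w ∧ v w' ≠ 0 ∧ om w = c ∧ om w' = c then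
        |v w| ^ p else 0) := by
      have s1 : ∀ w ∈ T, |v w| ^ p ≤ ∑ w', (if w' ≠ w ∧ v w' ≠ 0 ∧ om w = c ∧ om w' = c then
        |v w| ^ p else 0) := by
        intro w hw
        obtain ⟨w', hw', hne⟩ := exists_mem_ne (show 1 < T.card by omega) w
        have hw2 : v w ≠ 0 ∧ om w = c := by simpa [hT] using hw
        have hw3 : v w' ≠ 0 ∧ om w' = c := by simpa [hT] using hw'
        have := single_le_sum (f := fun w' => if w' ≠ w ∧ v w' ≠ 0 ∧ om w = c ∧ om w' = c then
          |v w| ^ p else 0) (fun w' _ => by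
            show 0 ≤ (if w' ≠ w ∧ v w' ≠ 0 ∧ om w = c ∧ om w' = c then |v w| ^ p else 0)
            split_ifs
            · exact Real.rpow_nonneg (abs_nonneg _) _
            · exact le_refl _) (mem_univ w')
        beta_reduce at this
        rwa [if_pos ⟨hne, hw3.1, hw2.2, hw3.2⟩] at this
      refine (sum_le_sum s1).trans ?_
      exact sum_le_univ_sum_of_nonneg fun w => sum_nonneg fun w' _ => by
        split_ifs
        · exact Real.rpow_nonneg (abs_nonneg _) _
        · exact le_refl _
    have hfin : (2 * (q : ℝ)) ^ p * ∑ w ∈ T, |v w| ^ p ≤ (2 * (q : ℝ)) ^ p *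
        ∑ w, ∑ w', (if w' ≠ w ∧ v w' ≠ 0 ∧ om w = c ∧ om w' = c then |v w| ^ p else 0) :=
      mul_le_mul_of_nonneg_left hh2 (by linarith)
    rw [abs_le]
    constructor
    · linarith
    · linarith

/-- **Random colours.** The mean of `|F a - F b| ^ p` is close to the sum of `|y a w - y b w| ^ p`. -/
theorem rand_main {R : ℕ} (hR : 0 < R) (c : Fin R) (q K : ℕ) (p : ℝ) (hp : 1 ≤ p)
    (y : A → W → ℝ) (hK : ∀ a, (univ.filter (fun w => y a w ≠ 0)).card ≤ K) (a b : A) :
    |(∑ om : W → Fin R, |randF c q p y a om - randF c q p y b om| ^ p) / (R : ℝ) ^ Fintype.card W -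
      ∑ w, |y a w - y b w| ^ p| ≤
      ((2 * (q : ℝ)) ^ p * (2 * K / R) + R * (Fintype.card A : ℝ) * ((K : ℝ) / R) ^ (q + 1)) *
        ∑ w, |y a w - y b w| ^ p := by
  classical
  have hRr : (0 : ℝ) < R := by exact_mod_cast hR
  have hp0 : (0 : ℝ) < p := by linarith
  set v : W → ℝ := fun w => y a w - y b w with hv
  have hVe : ∑ w, |y a w - y b w| ^ p = ∑ w, |v w| ^ p := rfl
  rw [hVe]
  set N : ℝ := (R : ℝ) ^ Fintype.card W with hN
  have hN0 : 0 < N := by positivity
  -- the good part
  set D : (W → Fin R) → ℝ := fun om =>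
    if RandGood c q y om then |∑ w, (if om w = c then v w else 0)| ^ p else 0 with hD
  set hh : (W → Fin R) → ℝ := fun om => ∑ w, (if om w = c then |v w| ^ p else 0) with hhh
  have hF : ∀ om, |randF c q p y a om - randF c q p y b om| ^ p = R * D om := by
    intro om
    by_cases h : RandGood c q y om
    · rw [rand_sub c q p y a b om h, abs_mul, abs_of_nonneg (Real.rpow_nonneg hRr.le _),
        Real.mul_rpow (Real.rpow_nonneg hRr.le _) (abs_nonneg _), ← Real.rpow_mul hRr.le,
        one_div_mul_cancel hp0.ne', Real.rpow_one]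
      simp only [hD, if_pos h, hv]
    · unfold randF
      rw [if_neg h, if_neg h]
      simp [hD, h, hp0.ne']
  have hcount1 : ∀ w : W, ((univ.filter (fun om : W → Fin R => om w = c)).card : ℝ) = N / R := by
    intro w
    have := rand_count c ({w} : Finset W)
    simp only [mem_singleton, forall_eq, card_singleton, pow_one] at this
    rw [eq_div_iff hRr.ne', this]
  have hcount2 : ∀ w w' : W, w' ≠ w →
      ((univ.filter (fun om : W → Fin R => om w = c ∧ om w' = c)).card : ℝ) = N / R ^ 2 := by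
    intro w w' hne
    have := rand_count c ({w, w'} : Finset W)
    simp only [mem_insert, mem_singleton, forall_eq_or_imp, forall_eq] at this
    rw [card_pair hne.symm] at this
    rw [eq_div_iff (by positivity), this]
  have hsumh : ∑ om, hh om = N / R * ∑ w, |v w| ^ p := by
    simp only [hhh]
    rw [sum_comm, mul_sum]
    refine sum_congr rfl fun w _ => ?_
    rw [← sum_filter, sum_const, nsmul_eq_mul, hcount1 w]
  have hVnn : 0 ≤ ∑ w, |v w| ^ p := sum_nonneg fun w _ => Real.rpow_nonneg (abs_nonneg _) _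
  have hhnn : ∀ om, 0 ≤ hh om := by
    intro om
    refine sum_nonneg fun w _ => ?_
    split_ifs
    · exact Real.rpow_nonneg (abs_nonneg _) _
    · exact le_refl _
  have hpt : ∀ om, |D om - hh om| ≤ (2 * (q : ℝ)) ^ p * (∑ w, ∑ w', (if w' ≠ w ∧ v w' ≠ 0 ∧ om w = c ∧
      om w' = c then |v w| ^ p else 0)) +
      (if ¬ RandGood c q y om then ∑ w, |v w| ^ p else 0) := by
    intro om
    have hnn : 0 ≤ (2 * (q : ℝ)) ^ p * (∑ w, ∑ w', (if w' ≠ w ∧ v w' ≠ 0 ∧ om w = c ∧
      om w' = c then |v w| ^ p else 0)) := by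
      refine mul_nonneg (Real.rpow_nonneg (by positivity) _) (sum_nonneg fun w _ =>
        sum_nonneg fun w' _ => ?_)
      split_ifs
      · exact Real.rpow_nonneg (abs_nonneg _) _
      · exact le_refl _
    by_cases h : RandGood c q y om
    · have := rand_good c q p hp y a b om h
      simp only [hD, hhh, if_pos h, not_true_eq_false, if_false, add_zero, h]
      exact this
    · simp only [hD, if_neg h, h, not_false_eq_true, if_true]
      rw [zero_sub, abs_neg, abs_of_nonneg (hhnn om)]
      have : hh om ≤ ∑ w, |v w| ^ p := by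
        simp only [hhh]
        refine sum_le_sum fun w _ => ?_
        split_ifs
        · exact le_refl _
        · exact Real.rpow_nonneg (abs_nonneg _) _
      linarith
  have hS2 : ∑ om : W → Fin R, (∑ w, ∑ w', (if w' ≠ w ∧ v w' ≠ 0 ∧ om w = c ∧
      om w' = c then |v w| ^ p else 0)) ≤ (2 * K) * (N / R ^ 2) * ∑ w, |v w| ^ p := by
    rw [sum_comm, mul_sum]
    refine sum_le_sum fun w _ => ?_
    rw [sum_comm]
    have t1 : ∀ w' : W, ∑ om : W → Fin R, (if w' ≠ w ∧ v w' ≠ 0 ∧ om w = c ∧
        om w' = c then |v w| ^ p else 0) ≤ if v w' ≠ 0 then N / R ^ 2 * |v w| ^ p else 0 := by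
      intro w'
      by_cases h1 : w' ≠ w ∧ v w' ≠ 0
      · rw [if_pos h1.2]
        have : ∀ om : W → Fin R, (if w' ≠ w ∧ v w' ≠ 0 ∧ om w = c ∧ om w' = c then |v w| ^ p else 0) =
            if om w = c ∧ om w' = c then |v w| ^ p else 0 := by
          intro om
          simp [h1.1, h1.2]
        rw [sum_congr rfl fun om _ => this om, ← sum_filter, sum_const, nsmul_eq_mul,
          hcount2 w w' h1.1]
      · have : ∀ om : W → Fin R, (if w' ≠ w ∧ v w' ≠ 0 ∧ om w = c ∧ om w' = c then |v w| ^ p else 0) =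
            0 := by
          intro om
          rw [if_neg]
          rintro ⟨u1, u2, _⟩
          exact h1 ⟨u1, u2⟩
        rw [sum_congr rfl fun om _ => this om, sum_const_zero]
        split_ifs
        · exact mul_nonneg (by positivity) (Real.rpow_nonneg (abs_nonneg _) _)
        · exact le_refl _
    refine (sum_le_sum fun w' _ => t1 w').trans ?_
    rw [← sum_filter, sum_const, nsmul_eq_mul]
    have t2 : ((univ.filter (fun w' => v w' ≠ 0)).card : ℝ) ≤ 2 * K := by
      have : univ.filter (fun w => v w ≠ 0) ⊆ univ.filter (fun w => y a w ≠ 0) ∪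
          univ.filter (fun w => y b w ≠ 0) := by
        intro w hw
        simp only [mem_filter, mem_univ, true_and] at hw
        simp only [mem_union, mem_filter, mem_univ, true_and]
        by_contra hcon
        push Not at hcon
        exact hw (by simp only [hv]; rw [hcon.1, hcon.2, sub_zero])
      have h1 := (card_le_card this).trans (card_union_le _ _)
      have h2 := hK a
      have h3 := hK b
      have h4 : (univ.filter (fun w => v w ≠ 0)).card ≤ 2 * K := by omega
      exact_mod_cast h4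
    have t3 : 0 ≤ N / R ^ 2 * |v w| ^ p :=
      mul_nonneg (by positivity) (Real.rpow_nonneg (abs_nonneg _) _)
    refine (mul_le_mul_of_nonneg_right t2 t3).trans (le_of_eq ?_)
    ring
  have hS3 : ∑ om : W → Fin R, (if ¬ RandGood c q y om then ∑ w, |v w| ^ p else 0) ≤
      (Fintype.card A : ℝ) * ((K : ℝ) / R) ^ (q + 1) * N * ∑ w, |v w| ^ p := by
    rw [← sum_filter, sum_const, nsmul_eq_mul]
    exact mul_le_mul_of_nonneg_right (rand_bad hR c q K y hK) hVnn
  have hmain : |∑ om, D om - ∑ om, hh om| ≤ (2 * (q : ℝ)) ^ p * ((2 * K) * (N / R ^ 2) * ∑ w, |v w| ^ p) +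
      (Fintype.card A : ℝ) * ((K : ℝ) / R) ^ (q + 1) * N * ∑ w, |v w| ^ p := by
    rw [← sum_sub_distrib]
    refine (abs_sum_le_sum_abs _ _).trans ((sum_le_sum fun om _ => hpt om).trans ?_)
    rw [sum_add_distrib, ← mul_sum]
    exact add_le_add (mul_le_mul_of_nonneg_left hS2 (Real.rpow_nonneg (by positivity) _)) hS3
  have e0 : (∑ om : W → Fin R, |randF c q p y a om - randF c q p y b om| ^ p) / N - ∑ w, |v w| ^ p =
      R / N * (∑ om, D om - ∑ om, hh om) := by
    rw [sum_congr rfl fun om _ => hF om, ← mul_sum, hsumh]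
    field_simp
  rw [e0, abs_mul, abs_of_pos (by positivity)]
  refine (mul_le_mul_of_nonneg_left hmain (by positivity)).trans (le_of_eq ?_)
  generalize (∑ w, |v w| ^ p) = V
  field_simp

end Rand

/-- **Random colours**, in the form used by the assembly. -/
theorem rand {A W : Type*} [Fintype A] [Fintype W] {p : ℝ} (hp : 1 ≤ p) (y : A → W → ℝ)
    (D : A → A → ℝ) (hD : ∀ a b, 0 ≤ D a b) (L : ℝ) (hL0 : 0 ≤ L)
    (hL : ∀ a b w, |y a w - y b w| ≤ L * D a b) (K R q : ℕ) (hR : 0 < R)
    (hK : ∀ a, (univ.filter (fun w => y a w ≠ 0)).card ≤ K) (kap : ℝ)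
    (hkap : (2 * ((q : ℝ) + 1)) ^ p * (2 * K / R) + 2 * K / R +
      R * (Fintype.card A : ℝ) * ((K : ℝ) / R) ^ (q + 1) ≤ kap) :
    ∃ (n : ℕ) (_ : 0 < n) (F : A → Fin n → ℝ),
      (∀ a b w, |F a w - F b w| ^ p ≤ R * (2 * ((q : ℝ) + 1) * L) ^ p * D a b ^ p) ∧
      ∀ a b, |(∑ w, |F a w - F b w| ^ p) / n - ∑ w, |y a w - y b w| ^ p| ≤
        kap * ∑ w, |y a w - y b w| ^ p := by
  classical
  have hp0 : (0 : ℝ) < p := by linarith
  have hRr : (0 : ℝ) < R := by exact_mod_cast hR
  set c : Fin R := ⟨0, hR⟩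
  set n := Fintype.card (W → Fin R) with hn
  have hnR : (n : ℝ) = (R : ℝ) ^ Fintype.card W := by
    rw [hn, Fintype.card_fun, Fintype.card_fin]; push_cast; rfl
  have hn0 : 0 < n := by
    rw [hn]
    exact Fintype.card_pos_iff.mpr ⟨fun _ => c⟩
  let e : Fin n ≃ (W → Fin R) := (Fintype.equivFin (W → Fin R)).symm
  refine ⟨n, hn0, fun a w => randF c q p y a (e w), ?_, ?_⟩
  · intro a b w
    have h1 := rand_lip c q p y a b (e w) (L * D a b) (mul_nonneg hL0 (hD a b))
      (fun w => hL a b w)
    have h2 := Real.rpow_le_rpow (abs_nonneg _) h1 hp0.le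
    refine h2.trans ?_
    have h3 : 0 ≤ 2 * (q : ℝ) * (L * D a b) := by have := hD a b; positivity
    rw [Real.mul_rpow (Real.rpow_nonneg hRr.le _) h3, ← Real.rpow_mul hRr.le,
      one_div_mul_cancel hp0.ne', Real.rpow_one]
    rw [mul_assoc (R : ℝ)]
    refine mul_le_mul_of_nonneg_left ?_ hRr.le
    rw [← Real.mul_rpow (by positivity) (hD a b)]
    refine Real.rpow_le_rpow h3 ?_ hp0.le
    have h4 : 0 ≤ L * D a b := mul_nonneg hL0 (hD a b)
    nlinarith
  · intro a b
    have h1 := rand_main hR c q K p hp y hK a b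
    have h2 : ∑ w : Fin n, |randF c q p y a (e w) - randF c q p y b (e w)| ^ p =
        ∑ om : W → Fin R, |randF c q p y a om - randF c q p y b om| ^ p :=
      Equiv.sum_comp e (fun om => |randF c q p y a om - randF c q p y b om| ^ p)
    rw [h2, hnR]
    refine h1.trans (mul_le_mul_of_nonneg_right ?_
      (sum_nonneg fun w _ => Real.rpow_nonneg (abs_nonneg _) _))
    refine le_trans ?_ hkap
    have h5 : (2 * (q : ℝ)) ^ p ≤ (2 * ((q : ℝ) + 1)) ^ p :=
      Real.rpow_le_rpow (by positivity) (by linarith) hp0.le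
    have h6 : (0 : ℝ) ≤ 2 * K / R := by positivity
    have := mul_le_mul_of_nonneg_right h5 h6
    linarith

end Vale.Agent.Lib.P249
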