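import Vale.Agent.Lib.H20.Sampling

/-!
P249, module SAMP: sampling coordinates from a finite uniform space (Chernoff bound).
-/

namespace Vale.Agent.Lib.P249

open Finset

/-- derandomized additive Chernoff bound on a finite uniform space -/
theorem samp_gen {J Ω : Type*} [Fintype Ω] [Nonempty Ω] (T : Finset J) (g : J → Ω → ℝ)
    (h0 : ∀ j ∈ T, ∀ w, 0 ≤ g j w) (h1 : ∀ j ∈ T, ∀ w, g j w ≤ 1) (θ : J → ℝ)
    (hθ : ∀ j ∈ T, (∑ w, g j w) / (Fintype.card Ω : ℝ) = θ j) (c δ : ℝ)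
    (hc0 : 0 < c) (hc : ∀ j ∈ T, θ j ≤ c) (hδ : 0 < δ) (hδc : δ ≤ 2 * c) (m : ℕ)
    (hm : 4 * c * Real.log (2 * T.card + 1) ≤ δ ^ 2 * m) :
    ∃ ω : Fin m → Ω, ∀ j ∈ T, |∑ t, g j (ω t) - m * θ j| ≤ δ * m := by
  classical
  have hΩ : (0 : ℝ) < Fintype.card Ω := by exact_mod_cast Fintype.card_pos
  set l := δ / (2 * c) with hl
  have hl0 : 0 < l := by positivity
  have hl1 : l ≤ 1 := by
    rw [hl, div_le_one (by positivity)]
    exact hδc
  -- one step
  have hstep1 : ∀ j ∈ T, (∑ w, Real.exp (l * (g j w - θ j) - l ^ 2 * c)) ≤ Fintype.card Ω := by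
    intro j hj
    have e : ∀ w, Real.exp (l * (g j w - θ j) - l ^ 2 * c) =
        Real.exp (l * g j w) * Real.exp (-(l * θ j + l ^ 2 * c)) := by
      intro w; rw [← Real.exp_add]; congr 1; ring
    simp only [e]
    rw [← sum_mul]
    have h2 : ∑ w, Real.exp (l * g j w) ≤ ∑ w, (1 + (l + l ^ 2) * g j w) :=
      sum_le_sum fun w _ =>
        Vale.Agent.Lib.H20.exp_pos_bound hl0.le hl1 (h0 j hj w) (h1 j hj w)
    have h3 : ∑ w, (1 + (l + l ^ 2) * g j w) = Fintype.card Ω * (1 + (l + l ^ 2) * θ j) := by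
      rw [sum_add_distrib, ← mul_sum, ← hθ j hj]
      simp only [sum_const, card_univ, nsmul_eq_mul, mul_one]
      field_simp
    have h4 : 1 + (l + l ^ 2) * θ j ≤ Real.exp (l * θ j + l ^ 2 * c) := by
      have h5 := Real.add_one_le_exp (l * θ j + l ^ 2 * c)
      have h6 : l ^ 2 * θ j ≤ l ^ 2 * c := mul_le_mul_of_nonneg_left (hc j hj) (by positivity)
      linarith
    calc (∑ w, Real.exp (l * g j w)) * Real.exp (-(l * θ j + l ^ 2 * c)) ≤
          (Fintype.card Ω * Real.exp (l * θ j + l ^ 2 * c)) *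
            Real.exp (-(l * θ j + l ^ 2 * c)) := by
          refine mul_le_mul_of_nonneg_right ?_ (Real.exp_pos _).le
          exact (h2.trans h3.le).trans (mul_le_mul_of_nonneg_left h4 hΩ.le)
      _ = Fintype.card Ω := by
          rw [mul_assoc, ← Real.exp_add, add_neg_cancel, Real.exp_zero, mul_one]
  have hstep2 : ∀ j ∈ T, (∑ w, Real.exp (-(l * (g j w - θ j)) - l ^ 2 * c)) ≤
      Fintype.card Ω := by
    intro j hj
    have e : ∀ w, Real.exp (-(l * (g j w - θ j)) - l ^ 2 * c) =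
        Real.exp (-(l * g j w)) * Real.exp (-(-(l * θ j) + l ^ 2 * c)) := by
      intro w; rw [← Real.exp_add]; congr 1; ring
    simp only [e]
    rw [← sum_mul]
    have h2 : ∑ w, Real.exp (-(l * g j w)) ≤ ∑ w, (1 - (l - l ^ 2) * g j w) :=
      sum_le_sum fun w _ =>
        Vale.Agent.Lib.H20.exp_neg_bound hl0.le hl1 (h0 j hj w) (h1 j hj w)
    have h3 : ∑ w, (1 - (l - l ^ 2) * g j w) = Fintype.card Ω * (1 - (l - l ^ 2) * θ j) := by
      rw [sum_sub_distrib, ← mul_sum, ← hθ j hj]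
      simp only [sum_const, card_univ, nsmul_eq_mul, mul_one]
      field_simp
    have h4 : 1 - (l - l ^ 2) * θ j ≤ Real.exp (-(l * θ j) + l ^ 2 * c) := by
      have h5 := Real.add_one_le_exp (-(l * θ j) + l ^ 2 * c)
      have h6 : l ^ 2 * θ j ≤ l ^ 2 * c := mul_le_mul_of_nonneg_left (hc j hj) (by positivity)
      linarith
    calc (∑ w, Real.exp (-(l * g j w))) * Real.exp (-(-(l * θ j) + l ^ 2 * c)) ≤
          (Fintype.card Ω * Real.exp (-(l * θ j) + l ^ 2 * c)) *
            Real.exp (-(-(l * θ j) + l ^ 2 * c)) := by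
          refine mul_le_mul_of_nonneg_right ?_ (Real.exp_pos _).le
          exact (h2.trans h3.le).trans (mul_le_mul_of_nonneg_left h4 hΩ.le)
      _ = Fintype.card Ω := by
          rw [mul_assoc, ← Real.exp_add, add_neg_cancel, Real.exp_zero, mul_one]
  -- potential argument
  have key : ∀ k : ℕ, ∃ ω : Fin k → Ω,
      ∑ j ∈ T, (Real.exp (l * (∑ t, g j (ω t) - k * θ j) - k * (l ^ 2 * c))
        + Real.exp (-(l * (∑ t, g j (ω t) - k * θ j)) - k * (l ^ 2 * c))) ≤ 2 * T.card := by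
    intro k
    induction k with
    | zero =>
      refine ⟨Fin.elim0, le_of_eq ?_⟩
      simp
      ring
    | succ k ih =>
      obtain ⟨ω, hω⟩ := ih
      set a : J → ℝ := fun j =>
        Real.exp (l * (∑ t, g j (ω t) - k * θ j) - k * (l ^ 2 * c)) with ha
      set b : J → ℝ := fun j =>
        Real.exp (-(l * (∑ t, g j (ω t) - k * θ j)) - k * (l ^ 2 * c)) with hb
      have ha0 : ∀ j, 0 ≤ a j := fun j => (Real.exp_pos _).le
      have hb0 : ∀ j, 0 ≤ b j := fun j => (Real.exp_pos _).le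
      have htot : ∑ x : Ω, ∑ j ∈ T, (a j * Real.exp (l * (g j x - θ j) - l ^ 2 * c) +
          b j * Real.exp (-(l * (g j x - θ j)) - l ^ 2 * c)) ≤
          ∑ _x : Ω, (2 * (T.card : ℝ)) := by
        rw [sum_comm]
        calc ∑ j ∈ T, ∑ x : Ω, (a j * Real.exp (l * (g j x - θ j) - l ^ 2 * c) +
              b j * Real.exp (-(l * (g j x - θ j)) - l ^ 2 * c)) ≤
              ∑ j ∈ T, (a j + b j) * Fintype.card Ω := by
              refine sum_le_sum fun j hj => ?_
              rw [sum_add_distrib, ← mul_sum, ← mul_sum]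
              have := mul_le_mul_of_nonneg_left (hstep1 j hj) (ha0 j)
              have := mul_le_mul_of_nonneg_left (hstep2 j hj) (hb0 j)
              linarith
          _ = (∑ j ∈ T, (a j + b j)) * Fintype.card Ω := by rw [sum_mul]
          _ ≤ (2 * T.card) * Fintype.card Ω := mul_le_mul_of_nonneg_right hω hΩ.le
          _ = ∑ _x : Ω, (2 * (T.card : ℝ)) := by
              rw [sum_const, card_univ, nsmul_eq_mul]; ring
      obtain ⟨x, -, hx⟩ := exists_le_of_sum_le (univ_nonempty) htot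
      refine ⟨Fin.snoc ω x, le_trans (le_of_eq ?_) hx⟩
      refine sum_congr rfl fun j _ => ?_
      have e2 : ∑ t : Fin (k + 1), g j ((Fin.snoc ω x : Fin (k + 1) → Ω) t)
          = ∑ t, g j (ω t) + g j x := by
        rw [Fin.sum_univ_castSucc]
        simp
      rw [e2, ha, hb]
      simp only
      rw [← Real.exp_add, ← Real.exp_add]
      congr 1
      · congr 1; push_cast; ring
      · congr 1; push_cast; ring
  obtain ⟨ω, hω⟩ := key m
  refine ⟨ω, fun j hj => ?_⟩
  have hpos : (0 : ℝ) < 2 * T.card + 1 := by positivity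
  have hterm : Real.exp (l * (∑ t, g j (ω t) - m * θ j) - m * (l ^ 2 * c))
        + Real.exp (-(l * (∑ t, g j (ω t) - m * θ j)) - m * (l ^ 2 * c)) ≤ 2 * T.card := by
    refine le_trans ?_ hω
    exact Finset.single_le_sum
      (f := fun j => Real.exp (l * (∑ t, g j (ω t) - m * θ j) - m * (l ^ 2 * c))
        + Real.exp (-(l * (∑ t, g j (ω t) - m * θ j)) - m * (l ^ 2 * c)))
      (fun i _ => by positivity) hj
  have t1 : Real.exp (l * (∑ t, g j (ω t) - m * θ j) - m * (l ^ 2 * c)) ≤ 2 * T.card + 1 := by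
    have := (Real.exp_pos (-(l * (∑ t, g j (ω t) - m * θ j)) - m * (l ^ 2 * c))).le
    linarith
  have t2 : Real.exp (-(l * (∑ t, g j (ω t) - m * θ j)) - m * (l ^ 2 * c)) ≤
      2 * T.card + 1 := by
    have := (Real.exp_pos (l * (∑ t, g j (ω t) - m * θ j) - m * (l ^ 2 * c))).le
    linarith
  have s1 := (Real.le_log_iff_exp_le hpos).mpr t1
  have s2 := (Real.le_log_iff_exp_le hpos).mpr t2
  have e4 : δ = 2 * c * l := by rw [hl]; field_simp
  have hm' : Real.log (2 * T.card + 1) ≤ c * l ^ 2 * m := by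
    rw [e4] at hm
    have h9 : (2 * c * l) ^ 2 * (m : ℝ) = 4 * c * (c * l ^ 2 * m) := by ring
    rw [h9] at hm
    exact le_of_mul_le_mul_left hm (by positivity)
  rw [abs_le]
  constructor
  · have h7 : l * (-(δ * m)) ≤ l * (∑ t, g j (ω t) - m * θ j) := by
      rw [e4]; nlinarith
    exact le_of_mul_le_mul_left h7 hl0
  · have h7 : l * (∑ t, g j (ω t) - m * θ j) ≤ l * (δ * m) := by
      rw [e4]; nlinarith
    exact le_of_mul_le_mul_left h7 hl0

/-- **Sampling coordinates.** -/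
theorem samp {A Ω : Type*} [Fintype A] [Fintype Ω] [Nonempty Ω] {p : ℝ}
    (F : A → Ω → ℝ) (D : A → A → ℝ) (hD : ∀ a b, 0 ≤ D a b) (B C0 ε : ℝ) (hB : 0 < B)
    (hC0 : 0 < C0) (hε : 0 < ε) (hε1 : ε ≤ 2 * C0)
    (h1 : ∀ a b w, |F a w - F b w| ^ p ≤ B * D a b ^ p)
    (h2 : ∀ a b, (∑ w, |F a w - F b w| ^ p) / (Fintype.card Ω : ℝ) ≤ C0 * D a b ^ p)
    (m : ℕ) (hm : 4 * C0 * B * Real.log (2 * (Fintype.card A : ℝ) ^ 2 + 1) ≤ ε ^ 2 * m)
    (hm0 : 0 < m) :
    ∃ ω : Fin m → Ω, ∀ a b, |(∑ t, |F a (ω t) - F b (ω t)| ^ p) / (m : ℝ) -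
      (∑ w, |F a w - F b w| ^ p) / (Fintype.card Ω : ℝ)| ≤ ε * D a b ^ p := by
  classical
  have hm0' : (0 : ℝ) < m := by exact_mod_cast hm0
  have hDp : ∀ a b, 0 ≤ D a b ^ p := fun a b => Real.rpow_nonneg (hD a b) p
  obtain ⟨ω, hω⟩ := samp_gen (univ : Finset (A × A))
    (fun j w => |F j.1 w - F j.2 w| ^ p / (B * D j.1 j.2 ^ p))
    (fun j _ w => div_nonneg (Real.rpow_nonneg (abs_nonneg _) _) (mul_nonneg hB.le (hDp _ _)))
    (fun j _ w => div_le_one_of_le₀ (h1 _ _ _) (mul_nonneg hB.le (hDp _ _)))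
    (fun j => (∑ w, |F j.1 w - F j.2 w| ^ p) / (Fintype.card Ω : ℝ) / (B * D j.1 j.2 ^ p))
    (fun j _ => by rw [← sum_div]; ring)
    (C0 / B) (ε / B) (by positivity)
    (fun j _ => by
      rcases (hDp j.1 j.2).lt_or_eq with h | h
      · rw [div_le_div_iff₀ (mul_pos hB h) hB]
        have := mul_le_mul_of_nonneg_right (h2 j.1 j.2) hB.le
        linarith
      · rw [← h, mul_zero, div_zero]
        positivity)
    (by positivity) (by rw [← mul_div_assoc]; exact div_le_div_of_nonneg_right hε1 hB.le) m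
    (by
      rw [card_univ, Fintype.card_prod]
      have e : ((Fintype.card A * Fintype.card A : ℕ) : ℝ) = (Fintype.card A : ℝ) ^ 2 := by
        push_cast; ring
      rw [e]
      have e2 : (ε / B) ^ 2 * (m : ℝ) = (ε ^ 2 * m) / B ^ 2 := by field_simp
      have e3 : 4 * (C0 / B) * Real.log (2 * (Fintype.card A : ℝ) ^ 2 + 1) =
          (4 * C0 * B * Real.log (2 * (Fintype.card A : ℝ) ^ 2 + 1)) / B ^ 2 := by field_simp
      rw [e2, e3]
      exact div_le_div_of_nonneg_right hm (by positivity))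
  refine ⟨ω, fun a b => ?_⟩
  rcases (hDp a b).lt_or_eq with h | h
  · have h3 := hω (a, b) (mem_univ _)
    simp only at h3
    have hBD : 0 < B * D a b ^ p := mul_pos hB h
    have e : (∑ t, |F a (ω t) - F b (ω t)| ^ p) / (m : ℝ) -
        (∑ w, |F a w - F b w| ^ p) / (Fintype.card Ω : ℝ) =
        (B * D a b ^ p / m) * (∑ t, |F a (ω t) - F b (ω t)| ^ p / (B * D a b ^ p) -
          m * ((∑ w, |F a w - F b w| ^ p) / (Fintype.card Ω : ℝ) / (B * D a b ^ p))) := by
      rw [← sum_div]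
      field_simp
    rw [e, abs_mul, abs_of_pos (by positivity : 0 < B * D a b ^ p / (m : ℝ))]
    calc B * D a b ^ p / (m : ℝ) * |∑ t, |F a (ω t) - F b (ω t)| ^ p / (B * D a b ^ p) -
          m * ((∑ w, |F a w - F b w| ^ p) / (Fintype.card Ω : ℝ) / (B * D a b ^ p))| ≤
          B * D a b ^ p / (m : ℝ) * (ε / B * m) := mul_le_mul_of_nonneg_left h3 (by positivity)
      _ = ε * D a b ^ p := by field_simp
  · have h4 : ∀ w, |F a w - F b w| ^ p = 0 := by
      intro w
      have := h1 a b w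
      rw [← h, mul_zero] at this
      exact le_antisymm this (Real.rpow_nonneg (abs_nonneg _) _)
    simp only [h4, sum_const_zero, zero_div, sub_zero, abs_zero]
    rw [← h]
    simp

end Vale.Agent.Lib.P249
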