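import Mathlib

/-!
# Truncation of a scalar function along a Hajlasz gradient  (module TRUNC of P249)
-/

namespace Vale.Agent.Lib.P249

open Finset

section McShane

variable {A : Type*} [Fintype A]

/-- McShane extension of the restriction of `u` to `{h ≤ τ}`. -/
noncomputable def mc (d : A → A → ℝ) (u h : A → ℝ) (τ : ℝ) (a : A) : ℝ := by
  classical
  exact if hS : (Finset.univ.filter fun b => h b ≤ τ).Nonempty then
    (Finset.univ.filter fun b => h b ≤ τ).inf' hS (fun b => u b + 2 * τ * d a b) else 0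

variable {d : A → A → ℝ} {u h : A → ℝ}

theorem mc_eq (hd0 : ∀ a b, 0 ≤ d a b) (hself : ∀ a, d a a = 0)
    (hh : ∀ a, 0 ≤ h a) (hH : ∀ a b, |u a - u b| ≤ d a b * (h a + h b))
    {τ : ℝ} {a : A} (ha : h a ≤ τ) : mc d u h τ a = u a := by
  classical
  have hτ : 0 ≤ τ := (hh a).trans ha
  have hmem : a ∈ (Finset.univ.filter fun b => h b ≤ τ) := by simp [ha]
  have hne : (Finset.univ.filter fun b => h b ≤ τ).Nonempty := ⟨a, hmem⟩
  unfold mc
  rw [dif_pos hne]
  apply le_antisymm
  · refine (Finset.inf'_le _ hmem).trans ?_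
    rw [hself a]; simp
  · apply Finset.le_inf'
    intro b hb
    have hb' : h b ≤ τ := by simpa using hb
    have h1 := (abs_le.1 (hH a b)).2
    have h2 : d a b * (h a + h b) ≤ d a b * (2 * τ) :=
      mul_le_mul_of_nonneg_left (by linarith) (hd0 a b)
    linarith

theorem mc_lip_aux (hcomm : ∀ a b, d a b = d b a)
    (htri : ∀ a b c, d a c ≤ d a b + d b c) {τ : ℝ} (hτ : 0 ≤ τ) (a b : A) :
    mc d u h τ a ≤ mc d u h τ b + 2 * τ * d a b := by
  classical
  unfold mc
  by_cases hne : (Finset.univ.filter fun b => h b ≤ τ).Nonempty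
  · rw [dif_pos hne, dif_pos hne]
    obtain ⟨c, hc, hmin⟩ := Finset.exists_mem_eq_inf' hne (fun c => u c + 2 * τ * d b c)
    rw [hmin]
    refine (Finset.inf'_le _ hc).trans ?_
    have h1 := htri a b c
    have h2 : 2 * τ * d a c ≤ 2 * τ * (d a b + d b c) :=
      mul_le_mul_of_nonneg_left h1 (by positivity)
    linarith
  · rw [dif_neg hne, dif_neg hne]
    have h1 := htri a b a
    have h2 := htri a a b
    have h3 : 0 ≤ d a b := by
      have := htri a a b
      have h4 := htri a b a
      have h5 := hcomm b a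
      linarith
    have : 0 ≤ 2 * τ * d a b := by positivity
    linarith

theorem mc_lip (hcomm : ∀ a b, d a b = d b a)
    (htri : ∀ a b c, d a c ≤ d a b + d b c) {τ : ℝ} (hτ : 0 ≤ τ) (a b : A) :
    |mc d u h τ a - mc d u h τ b| ≤ 2 * τ * d a b := by
  rw [abs_le]
  have h1 := mc_lip_aux (u := u) (h := h) hcomm htri hτ a b
  have h2 := mc_lip_aux (u := u) (h := h) hcomm htri hτ b a
  rw [hcomm b a] at h2
  constructor <;> linarith

end McShane

section Window

variable {A : Type*} [Fintype A]

/-- Average of the truncations over the window of levels `s, ..., s + N - 1`. -/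
noncomputable def gw (d : A → A → ℝ) (u h : A → ℝ) (T : ℝ) (N s : ℕ) (a : A) : ℝ :=
  (1 / (N:ℝ)) * ∑ i ∈ Finset.range N, mc d u h (T / 2 ^ (s + i)) a

/-- Proportion of the levels of the window that are at least `m`. -/
noncomputable def th (T m : ℝ) (N s : ℕ) : ℝ := by
  classical
  exact (1 / (N:ℝ)) * ∑ i ∈ Finset.range N, (if m ≤ T / 2 ^ (s + i) then (1:ℝ) else 0)

/-- Error of the window. -/
noncomputable def er (T m : ℝ) (N s : ℕ) : ℝ := by
  classical
  exact (1 / (N:ℝ)) * ∑ i ∈ Finset.range N, (if m ≤ T / 2 ^ (s + i) then (0:ℝ) else T / 2 ^ (s + i))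

theorem geom_cut (m : ℝ) (hm : 0 ≤ m) : ∀ (M : ℕ) (T : ℝ), 0 ≤ T →
    ∑ i ∈ Finset.range M, (if m ≤ T / 2 ^ i then (0:ℝ) else T / 2 ^ i) ≤ 2 * min T m := by
  intro M
  induction M with
  | zero => intro T hT; simp; exact ⟨hT, hm⟩
  | succ M ih =>
    intro T hT
    rw [Finset.sum_range_succ']
    have h1 : ∀ i : ℕ, T / 2 ^ (i + 1) = T / 2 / 2 ^ i := by
      intro i; rw [pow_succ]; field_simp
    simp only [h1]
    have h2 := ih (T / 2) (by positivity)
    simp only [pow_zero, div_one]
    split_ifs with hc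
    · have h3 : min (T / 2) m ≤ m := min_le_right _ _
      have h4 : min T m = m := min_eq_right hc
      rw [h4]
      linarith
    · push Not at hc
      have h3 : min (T / 2) m ≤ T / 2 := min_le_left _ _
      have h4 : min T m = T := min_eq_left hc.le
      rw [h4]
      linarith

theorem er_nonneg {T : ℝ} (hT : 0 ≤ T) (m : ℝ) (N s : ℕ) : 0 ≤ er T m N s := by
  unfold er
  apply mul_nonneg (by positivity)
  apply Finset.sum_nonneg
  intro i _
  split_ifs
  · exact le_rfl
  · positivity

theorem block_sum (f : ℕ → ℝ) (hf : ∀ i, 0 ≤ f i) (s0 N Q : ℕ) (hNQ : N ≤ Q) (J : ℕ) :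
    ∑ j ∈ Finset.range J, ∑ i ∈ Finset.range N, f (s0 + j * Q + i) ≤
      ∑ i ∈ Finset.range (s0 + J * Q), f i := by
  induction J with
  | zero => simpa using Finset.sum_nonneg fun i _ => hf i
  | succ J ih =>
    rw [Finset.sum_range_succ]
    have h1 : s0 + (J + 1) * Q = (s0 + J * Q) + Q := by ring
    rw [h1, Finset.sum_range_add]
    have h2 : ∑ i ∈ Finset.range N, f (s0 + J * Q + i) ≤
        ∑ i ∈ Finset.range Q, f (s0 + J * Q + i) :=
      Finset.sum_le_sum_of_subset_of_nonneg (Finset.range_mono hNQ) fun i _ _ => hf _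
    linarith

/-- The errors of disjoint windows add up to at most `2 m / N`. -/
theorem er_sum {T m : ℝ} (hT : 0 ≤ T) (hm : 0 ≤ m) (N Q s0 J : ℕ) (hNQ : N ≤ Q) :
    ∑ j ∈ Finset.range J, er T m N (s0 + j * Q) ≤ 2 * m / N := by
  classical
  unfold er
  rw [← Finset.mul_sum]
  have h1 := block_sum (fun i => if m ≤ T / 2 ^ i then (0:ℝ) else T / 2 ^ i)
    (fun i => by split_ifs; exacts [le_rfl, by positivity]) s0 N Q hNQ J
  have h2 := geom_cut m hm (s0 + J * Q) T hT
  have h3 : min T m ≤ m := min_le_right _ _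
  have h4 : ∑ j ∈ Finset.range J, ∑ i ∈ Finset.range N,
      (if m ≤ T / 2 ^ (s0 + j * Q + i) then (0:ℝ) else T / 2 ^ (s0 + j * Q + i)) ≤ 2 * m := by
    linarith
  calc (1 / (N:ℝ)) * ∑ j ∈ Finset.range J, ∑ i ∈ Finset.range N,
      (if m ≤ T / 2 ^ (s0 + j * Q + i) then (0:ℝ) else T / 2 ^ (s0 + j * Q + i))
      ≤ (1 / (N:ℝ)) * (2 * m) := mul_le_mul_of_nonneg_left h4 (by positivity)
    _ = 2 * m / N := by ring

theorem th_anti {T m : ℝ} (hT : 0 ≤ T) (N : ℕ) {s s' : ℕ} (h : s ≤ s') :
    th T m N s' ≤ th T m N s := by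
  classical
  unfold th
  apply mul_le_mul_of_nonneg_left _ (by positivity)
  apply Finset.sum_le_sum
  intro i _
  by_cases h1 : m ≤ T / 2 ^ (s' + i)
  · have h2 : m ≤ T / 2 ^ (s + i) := h1.trans (div_le_div_of_nonneg_left hT (by positivity)
      (pow_le_pow_right₀ one_le_two (by omega)))
    simp [h1, h2]
  · simp only [h1, if_false]
    split_ifs <;> norm_num

theorem th_nonneg (T m : ℝ) (N s : ℕ) : 0 ≤ th T m N s := by
  classical
  unfold th
  apply mul_nonneg (by positivity)
  exact Finset.sum_nonneg fun i _ => by split_ifs <;> norm_num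

theorem th_le_one (T m : ℝ) {N : ℕ} (hN : 0 < N) (s : ℕ) : th T m N s ≤ 1 := by
  classical
  unfold th
  have h1 : ∑ i ∈ Finset.range N, (if m ≤ T / 2 ^ (s + i) then (1:ℝ) else 0) ≤
      ∑ i ∈ Finset.range N, (1:ℝ) := Finset.sum_le_sum fun i _ => by split_ifs <;> norm_num
  have hN' : (0:ℝ) < N := by exact_mod_cast hN
  calc (1 / (N:ℝ)) * ∑ i ∈ Finset.range N, (if m ≤ T / 2 ^ (s + i) then (1:ℝ) else 0)
      ≤ (1 / (N:ℝ)) * ∑ i ∈ Finset.range N, (1:ℝ) := mul_le_mul_of_nonneg_left h1 (by positivity)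
    _ = 1 := by simp [hN'.ne']

theorem th_eq_one {T m : ℝ} (hT : 0 ≤ T) {N : ℕ} (hN : 0 < N) (s : ℕ)
    (h : m ≤ T / 2 ^ (s + N)) : th T m N s = 1 := by
  classical
  unfold th
  have h1 : ∀ i ∈ Finset.range N, (if m ≤ T / 2 ^ (s + i) then (1:ℝ) else 0) = 1 := by
    intro i hi
    rw [if_pos]
    exact h.trans (div_le_div_of_nonneg_left hT (by positivity)
      (pow_le_pow_right₀ one_le_two (by have := Finset.mem_range.1 hi; omega)))
  rw [Finset.sum_congr rfl h1]
  have hN' : (0:ℝ) < N := by exact_mod_cast hN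
  simp [hN'.ne']

theorem th_eq_zero {T m : ℝ} (hT : 0 ≤ T) (N : ℕ) (s : ℕ)
    (h : T / 2 ^ s < m) : th T m N s = 0 := by
  classical
  unfold th
  have h1 : ∀ i ∈ Finset.range N, (if m ≤ T / 2 ^ (s + i) then (1:ℝ) else 0) = 0 := by
    intro i hi
    rw [if_neg]
    push Not
    exact lt_of_le_of_lt (div_le_div_of_nonneg_left hT (by positivity)
      (pow_le_pow_right₀ one_le_two (by omega))) h
  rw [Finset.sum_congr rfl h1]
  simp

variable {d : A → A → ℝ} {u h : A → ℝ}

theorem gw_eq (hd0 : ∀ a b, 0 ≤ d a b) (hself : ∀ a, d a a = 0)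
    (hh : ∀ a, 0 ≤ h a) (hH : ∀ a b, |u a - u b| ≤ d a b * (h a + h b))
    {T : ℝ} (hT : 0 ≤ T) {N : ℕ} (hN : 0 < N) (s : ℕ) {a : A} (ha : h a ≤ T / 2 ^ (s + N)) :
    gw d u h T N s a = u a := by
  unfold gw
  have h1 : ∀ i ∈ Finset.range N, mc d u h (T / 2 ^ (s + i)) a = u a := by
    intro i hi
    apply mc_eq hd0 hself hh hH
    exact ha.trans (div_le_div_of_nonneg_left hT (by positivity)
      (pow_le_pow_right₀ one_le_two (by have := Finset.mem_range.1 hi; omega)))
  rw [Finset.sum_congr rfl h1]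
  have hN' : (0:ℝ) < N := by exact_mod_cast hN
  simp
  field_simp

theorem gw_lip (hcomm : ∀ a b, d a b = d b a) (hd0 : ∀ a b, 0 ≤ d a b)
    (htri : ∀ a b c, d a c ≤ d a b + d b c) {T : ℝ} (hT : 0 ≤ T) {N : ℕ} (hN : 0 < N) (s : ℕ)
    (a b : A) : |gw d u h T N s a - gw d u h T N s b| ≤ 2 * (T / 2 ^ s) * d a b := by
  have hN' : (0:ℝ) < N := by exact_mod_cast hN
  unfold gw
  rw [← mul_sub, ← Finset.sum_sub_distrib, abs_mul, abs_of_nonneg (by positivity : (0:ℝ) ≤ 1 / N)]
  have h1 : |∑ i ∈ Finset.range N, (mc d u h (T / 2 ^ (s + i)) a - mc d u h (T / 2 ^ (s + i)) b)| ≤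
      ∑ i ∈ Finset.range N, 2 * (T / 2 ^ s) * d a b := by
    refine (Finset.abs_sum_le_sum_abs _ _).trans (Finset.sum_le_sum fun i _ => ?_)
    refine (mc_lip hcomm htri (by positivity) a b).trans ?_
    apply mul_le_mul_of_nonneg_right _ (hd0 a b)
    apply mul_le_mul_of_nonneg_left _ (by norm_num)
    exact div_le_div_of_nonneg_left hT (by positivity) (pow_le_pow_right₀ one_le_two (by omega))
  calc (1 / (N:ℝ)) * |∑ i ∈ Finset.range N,
        (mc d u h (T / 2 ^ (s + i)) a - mc d u h (T / 2 ^ (s + i)) b)|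
      ≤ (1 / (N:ℝ)) * ∑ i ∈ Finset.range N, 2 * (T / 2 ^ s) * d a b :=
        mul_le_mul_of_nonneg_left h1 (by positivity)
    _ = 2 * (T / 2 ^ s) * d a b := by
        rw [Finset.sum_const, Finset.card_range, nsmul_eq_mul]
        field_simp

/-- The difference of a window average is a proportion of the difference of `u`, up to the
window error. -/
theorem gw_decomp (hcomm : ∀ a b, d a b = d b a) (hd0 : ∀ a b, 0 ≤ d a b)
    (hself : ∀ a, d a a = 0) (htri : ∀ a b c, d a c ≤ d a b + d b c)
    (hh : ∀ a, 0 ≤ h a) (hH : ∀ a b, |u a - u b| ≤ d a b * (h a + h b))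
    {T : ℝ} (hT : 0 ≤ T) (N s : ℕ) (a b : A) :
    |(gw d u h T N s a - gw d u h T N s b) - th T (max (h a) (h b)) N s * (u a - u b)| ≤
      2 * er T (max (h a) (h b)) N s * d a b := by
  classical
  unfold gw th er
  set m := max (h a) (h b) with hm
  have h0 : (1 / (N:ℝ)) * ∑ i ∈ Finset.range N, mc d u h (T / 2 ^ (s + i)) a -
      (1 / (N:ℝ)) * ∑ i ∈ Finset.range N, mc d u h (T / 2 ^ (s + i)) b -
      ((1 / (N:ℝ)) * ∑ i ∈ Finset.range N, (if m ≤ T / 2 ^ (s + i) then (1:ℝ) else 0)) * (u a - u b)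
      = (1 / (N:ℝ)) * ∑ i ∈ Finset.range N, (mc d u h (T / 2 ^ (s + i)) a -
        mc d u h (T / 2 ^ (s + i)) b - (if m ≤ T / 2 ^ (s + i) then (1:ℝ) else 0) * (u a - u b)) := by
    rw [Finset.sum_sub_distrib, Finset.sum_sub_distrib, ← Finset.sum_mul]
    ring
  rw [h0, abs_mul, abs_of_nonneg (by positivity : (0:ℝ) ≤ 1 / N)]
  have h1 : |∑ i ∈ Finset.range N, (mc d u h (T / 2 ^ (s + i)) a -
        mc d u h (T / 2 ^ (s + i)) b - (if m ≤ T / 2 ^ (s + i) then (1:ℝ) else 0) * (u a - u b))| ≤
      ∑ i ∈ Finset.range N, 2 * (if m ≤ T / 2 ^ (s + i) then (0:ℝ) else T / 2 ^ (s + i)) * d a b := by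
    refine (Finset.abs_sum_le_sum_abs _ _).trans (Finset.sum_le_sum fun i _ => ?_)
    by_cases hc : m ≤ T / 2 ^ (s + i)
    · rw [mc_eq hd0 hself hh hH ((le_max_left _ _).trans hc),
        mc_eq hd0 hself hh hH ((le_max_right _ _).trans hc)]
      simp [hc]
    · simp only [hc, if_false, zero_mul, sub_zero]
      exact mc_lip hcomm htri (by positivity) a b
  calc (1 / (N:ℝ)) * |∑ i ∈ Finset.range N, (mc d u h (T / 2 ^ (s + i)) a -
        mc d u h (T / 2 ^ (s + i)) b - (if m ≤ T / 2 ^ (s + i) then (1:ℝ) else 0) * (u a - u b))|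
      ≤ (1 / (N:ℝ)) * ∑ i ∈ Finset.range N,
        2 * (if m ≤ T / 2 ^ (s + i) then (0:ℝ) else T / 2 ^ (s + i)) * d a b :=
        mul_le_mul_of_nonneg_left h1 (by positivity)
    _ = _ := by
        rw [← Finset.sum_mul, ← Finset.mul_sum]
        ring

end Window

section Pieces

variable {A : Type*} [Fintype A] {d : A → A → ℝ} {u h : A → ℝ}

/-- **Truncation theorem (scalar form).** `Hm` bounds `h`; the levels are
`T / 2 ^ i`, `T = Hm * 2 ^ ((P + 1) * N)`; the windows with offset `o` start at
`(o + j P) N` and have length `N`. -/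
theorem trunc (hcomm : ∀ a b, d a b = d b a) (hd0 : ∀ a b, 0 ≤ d a b)
    (hself : ∀ a, d a a = 0) (htri : ∀ a b c, d a c ≤ d a b + d b c)
    (hh : ∀ a, 0 ≤ h a) (hH : ∀ a b, |u a - u b| ≤ d a b * (h a + h b))
    {Hm : ℝ} (hHm0 : 0 ≤ Hm) (hHm : ∀ a, h a ≤ Hm) {N P : ℕ} (hN : 0 < N) (hP : 0 < P) (J : ℕ)
    (hJ : 0 < J) (T : ℝ) (hTdef : T = Hm * 2 ^ ((P + 1) * N)) :
    ∃ Y : ℕ → ℕ → A → ℝ,
      (∀ o j a, h a ≤ T / 2 ^ ((o + (j + 1) * P) * N + N) → Y o j a = 0) ∧
      (∀ o j a b, |Y o j a - Y o j b| ≤ 4 * (T / 2 ^ ((o + j * P) * N)) * d a b) ∧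
      (∀ o a b, ∑ j ∈ Finset.range J, |Y o j a - Y o j b| ≤
        |u a - u b| + 8 / N * max (h a) (h b) * d a b) ∧
      (∀ o < P, ∀ a b, |u a - u b| ≤ ∑ j ∈ Finset.range J, |Y o j a - Y o j b| +
        2 * (T / 2 ^ ((o + J * P) * N)) * d a b) ∧
      (∀ a b, ∃ o' : ℕ, ∀ o < P, o ≠ o' → ∃ j ∈ Finset.range J,
        |u a - u b| ≤ |Y o j a - Y o j b| + 8 / N * max (h a) (h b) * d a b +
          2 * (T / 2 ^ (J * P * N)) * d a b) := by
  have hT : 0 ≤ T := by rw [hTdef]; positivity
  have hN' : (0:ℝ) < N := by exact_mod_cast hN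
  -- the pieces
  set g : ℕ → A → ℝ := fun s a => gw d u h T N s a with hg
  set S : ℕ → ℕ → ℕ := fun o j => (o + j * P) * N with hS
  have hSsucc : ∀ o j, S o (j + 1) = S o j + P * N := by
    intro o j; simp only [hS]; ring
  have hSlin : ∀ o j, S o j = o * N + j * (P * N) := by
    intro o j; simp only [hS]; ring
  have hNQ : N ≤ P * N := Nat.le_mul_of_pos_left N hP
  refine ⟨fun o j a => g (S o j) a - g (S o (j + 1)) a, ?_, ?_, ?_, ?_, ?_⟩
  · -- support
    intro o j a ha
    have h1 : g (S o (j + 1)) a = u a := by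
      apply gw_eq hd0 hself hh hH hT hN
      exact ha
    have h2 : g (S o j) a = u a := by
      apply gw_eq hd0 hself hh hH hT hN
      refine ha.trans (div_le_div_of_nonneg_left hT (by positivity)
        (pow_le_pow_right₀ one_le_two ?_))
      have := hSsucc o j
      simp only [hS] at this ⊢
      omega
    simp only [h1, h2, sub_self]
  · -- Lipschitz
    intro o j a b
    have h1 := gw_lip (u := u) (h := h) hcomm hd0 htri hT hN (S o j) a b
    have h2 := gw_lip (u := u) (h := h) hcomm hd0 htri hT hN (S o (j + 1)) a b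
    have h3 : T / 2 ^ (S o (j + 1)) ≤ T / 2 ^ (S o j) :=
      div_le_div_of_nonneg_left hT (by positivity)
        (pow_le_pow_right₀ one_le_two (by rw [hSsucc]; omega))
    have h4 : 2 * (T / 2 ^ (S o (j + 1))) * d a b ≤ 2 * (T / 2 ^ (S o j)) * d a b :=
      mul_le_mul_of_nonneg_right (mul_le_mul_of_nonneg_left h3 (by norm_num)) (hd0 a b)
    have h5 : g (S o j) a - g (S o (j + 1)) a - (g (S o j) b - g (S o (j + 1)) b) =
        (g (S o j) a - g (S o j) b) - (g (S o (j + 1)) a - g (S o (j + 1)) b) := by ring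
    rw [h5]
    refine (abs_sub _ _).trans ?_
    have h6 : 4 * (T / 2 ^ ((o + j * P) * N)) * d a b = 2 * (T / 2 ^ (S o j)) * d a b +
        2 * (T / 2 ^ (S o j)) * d a b := by simp only [hS]; ring
    rw [h6]
    linarith
  · -- upper bound
    intro o a b
    set m := max (h a) (h b) with hm
    have hm0 : 0 ≤ m := (hh a).trans (le_max_left _ _)
    have hdec : ∀ j, |(g (S o j) a - g (S o j) b) - th T m N (S o j) * (u a - u b)| ≤
        2 * er T m N (S o j) * d a b := fun j =>
      gw_decomp hcomm hd0 hself htri hh hH hT N (S o j) a b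
    have h1 : ∀ j, |g (S o j) a - g (S o (j + 1)) a - (g (S o j) b - g (S o (j + 1)) b)| ≤
        (th T m N (S o j) - th T m N (S o (j + 1))) * |u a - u b| +
          2 * er T m N (S o j) * d a b + 2 * er T m N (S o (j + 1)) * d a b := by
      intro j
      have ha := hdec j
      have hb := hdec (j + 1)
      have hth : 0 ≤ th T m N (S o j) - th T m N (S o (j + 1)) := by
        have := th_anti (m := m) hT N (show S o j ≤ S o (j + 1) by rw [hSsucc]; omega)
        linarith
      have h5 : g (S o j) a - g (S o (j + 1)) a - (g (S o j) b - g (S o (j + 1)) b) =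
          (th T m N (S o j) - th T m N (S o (j + 1))) * (u a - u b) +
          ((g (S o j) a - g (S o j) b) - th T m N (S o j) * (u a - u b)) -
          ((g (S o (j + 1)) a - g (S o (j + 1)) b) - th T m N (S o (j + 1)) * (u a - u b)) := by
        ring
      rw [h5]
      refine (abs_sub _ _).trans ?_
      refine (add_le_add (abs_add_le _ _) le_rfl).trans ?_
      rw [abs_mul, abs_of_nonneg hth]
      linarith
    refine (Finset.sum_le_sum fun j _ => h1 j).trans ?_
    rw [Finset.sum_add_distrib, Finset.sum_add_distrib, ← Finset.sum_mul,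
      Finset.sum_range_sub' (fun j => th T m N (S o j))]
    have h2 : (th T m N (S o 0) - th T m N (S o J)) * |u a - u b| ≤ |u a - u b| := by
      have h3 := th_le_one T m hN (S o 0)
      have h4 := th_nonneg T m N (S o J)
      have h5 := abs_nonneg (u a - u b)
      nlinarith
    have h3 : ∑ j ∈ Finset.range J, 2 * er T m N (S o j) * d a b ≤ 2 * (2 * m / N) * d a b := by
      rw [← Finset.sum_mul, ← Finset.mul_sum]
      apply mul_le_mul_of_nonneg_right _ (hd0 a b)
      apply mul_le_mul_of_nonneg_left _ (by norm_num)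
      have := er_sum hT hm0 N (P * N) (o * N) J hNQ
      simpa only [hSlin] using this
    have h4 : ∑ j ∈ Finset.range J, 2 * er T m N (S o (j + 1)) * d a b ≤
        2 * (2 * m / N) * d a b := by
      rw [← Finset.sum_mul, ← Finset.mul_sum]
      apply mul_le_mul_of_nonneg_right _ (hd0 a b)
      apply mul_le_mul_of_nonneg_left _ (by norm_num)
      have := er_sum hT hm0 N (P * N) (o * N + P * N) J hNQ
      have he : ∀ j, S o (j + 1) = o * N + P * N + j * (P * N) := by
        intro j; rw [hSlin]; ring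
      simpa only [he] using this
    have h5 : 8 / (N:ℝ) * m * d a b = 2 * (2 * m / N) * d a b + 2 * (2 * m / N) * d a b := by ring
    rw [h5]
    linarith
  · -- lower bound by telescoping
    intro o ho a b
    have h0 : ∀ a, g (S o 0) a = u a := by
      intro a
      apply gw_eq hd0 hself hh hH hT hN
      refine (hHm a).trans ?_
      rw [hTdef, le_div_iff₀ (by positivity)]
      apply mul_le_mul_of_nonneg_left _ hHm0
      apply pow_le_pow_right₀ one_le_two
      simp only [hS]
      nlinarith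
    have h1 : u a - u b = ∑ j ∈ Finset.range J,
        (g (S o j) a - g (S o (j + 1)) a - (g (S o j) b - g (S o (j + 1)) b)) +
        (g (S o J) a - g (S o J) b) := by
      rw [Finset.sum_sub_distrib, Finset.sum_range_sub' (fun j => g (S o j) a),
        Finset.sum_range_sub' (fun j => g (S o j) b), h0 a, h0 b]
      ring
    have h2 := gw_lip (u := u) (h := h) hcomm hd0 htri hT hN (S o J) a b
    calc |u a - u b| = |∑ j ∈ Finset.range J,
        (g (S o j) a - g (S o (j + 1)) a - (g (S o j) b - g (S o (j + 1)) b)) +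
        (g (S o J) a - g (S o J) b)| := by rw [← h1]
      _ ≤ |∑ j ∈ Finset.range J,
        (g (S o j) a - g (S o (j + 1)) a - (g (S o j) b - g (S o (j + 1)) b))| +
        |g (S o J) a - g (S o J) b| := abs_add_le _ _
      _ ≤ _ := add_le_add (Finset.abs_sum_le_sum_abs _ _) h2
  · -- lower bound off the windows
    intro a b
    set m := max (h a) (h b) with hm
    have hm0 : 0 ≤ m := (hh a).trans (le_max_left _ _)
    by_cases hsmall : m ≤ T / 2 ^ (J * P * N)
    · refine ⟨P, fun o _ _ => ⟨0, Finset.mem_range.2 hJ, ?_⟩⟩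
      have h1 := hH a b
      have h2 : d a b * (h a + h b) ≤ d a b * (2 * (T / 2 ^ (J * P * N))) := by
        apply mul_le_mul_of_nonneg_left _ (hd0 a b)
        have h3 : h a ≤ m := le_max_left _ _
        have h4 : h b ≤ m := le_max_right _ _
        linarith
      have h3 : 0 ≤ 8 / (N:ℝ) * m * d a b := by
        have := hd0 a b
        positivity
      have h4 := abs_nonneg (g (S o 0) a - g (S o (0 + 1)) a - (g (S o 0) b - g (S o (0 + 1)) b))
      have h5 : 2 * (T / 2 ^ (J * P * N)) * d a b = d a b * (2 * (T / 2 ^ (J * P * N))) := by ring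
      rw [h5]
      linarith
    · push Not at hsmall
      -- position of m
      have hex : ∃ k : ℕ, T / 2 ^ k < m := ⟨J * P * N, hsmall⟩
      classical
      set k := Nat.find hex with hk
      have hk1 : T / 2 ^ k < m := Nat.find_spec hex
      have hk2 : ∀ i < k, m ≤ T / 2 ^ i := fun i hi => by
        have := Nat.find_min hex hi
        push Not at this
        exact this
      have hkJ : k ≤ J * P * N := Nat.find_min' hex hsmall
      have hkP : (P + 1) * N < k := by
        by_contra hcon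
        push Not at hcon
        have h1 : T / 2 ^ ((P + 1) * N) ≤ T / 2 ^ k := div_le_div_of_nonneg_left hT (by positivity)
          (pow_le_pow_right₀ one_le_two hcon)
        have h2 : T / 2 ^ ((P + 1) * N) = Hm := by
          rw [hTdef]; field_simp
        have h3 : m ≤ Hm := max_le (hHm a) (hHm b)
        linarith
      -- block of k - 1
      set q := (k - 1) / N with hq
      have hq1 : q * N ≤ k - 1 := Nat.div_mul_le_self _ _
      have hq2 : k - 1 < (q + 1) * N := Nat.lt_mul_of_div_lt (Nat.lt_succ_self _) hN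
      refine ⟨q % P, fun o ho hne => ?_⟩
      have hqP : P < q + 1 := by
        by_contra hcon
        push Not at hcon
        have h1 : (q + 1) * N ≤ P * N := Nat.mul_le_mul_right N hcon
        have h2 : (P + 1) * N = P * N + N := by ring
        omega
      have hoq : o ≤ q := by omega
      set j := (q - o) / P with hj
      have hj1 : j * P ≤ q - o := Nat.div_mul_le_self _ _
      have hj2 : q - o < (j + 1) * P := Nat.lt_mul_of_div_lt (Nat.lt_succ_self _) hP
      have hjne : o + j * P ≠ q := by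
        intro he
        apply hne
        rw [← he, Nat.add_mul_mod_self_right, Nat.mod_eq_of_lt ho]
      have hj3 : o + j * P + 1 ≤ q := by omega
      have hj4 : q + 1 ≤ o + (j + 1) * P := by omega
      have hjJ : j < J := by
        by_contra hcon
        push Not at hcon
        have h1 : J * P ≤ j * P := Nat.mul_le_mul_right P hcon
        have h2 : J * P * N ≤ j * P * N := Nat.mul_le_mul_right N h1
        have h3 : (o + j * P + 1) * N ≤ q * N := Nat.mul_le_mul_right N hj3
        have h4 : j * P * N + N ≤ (o + j * P + 1) * N := by nlinarith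
        omega
      refine ⟨j, Finset.mem_range.2 hjJ, ?_⟩
      -- theta at the two windows
      have hA : th T m N (S o j) = 1 := by
        apply th_eq_one hT hN
        apply hk2
        have h1 : (o + j * P + 1) * N ≤ q * N := Nat.mul_le_mul_right N hj3
        have h2 : S o j + N = (o + j * P + 1) * N := by simp only [hS]; ring
        omega
      have hB : th T m N (S o (j + 1)) = 0 := by
        apply th_eq_zero hT N
        refine lt_of_le_of_lt (div_le_div_of_nonneg_left hT (by positivity)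
          (pow_le_pow_right₀ one_le_two ?_)) hk1
        have h1 : (q + 1) * N ≤ (o + (j + 1) * P) * N := Nat.mul_le_mul_right N hj4
        simp only [hS]
        omega
      have ha := gw_decomp hcomm hd0 hself htri hh hH hT N (S o j) a b
      have hb := gw_decomp hcomm hd0 hself htri hh hH hT N (S o (j + 1)) a b
      rw [← hm, hA, one_mul] at ha
      rw [← hm, hB, zero_mul, sub_zero] at hb
      have hea : er T m N (S o j) ≤ 2 * m / N := by
        have := er_sum hT hm0 N (P * N) (S o j) 1 hNQ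
        simpa using this
      have heb : er T m N (S o (j + 1)) ≤ 2 * m / N := by
        have := er_sum hT hm0 N (P * N) (S o (j + 1)) 1 hNQ
        simpa using this
      have h5 : u a - u b = (g (S o j) a - g (S o (j + 1)) a - (g (S o j) b - g (S o (j + 1)) b))
          - ((g (S o j) a - g (S o j) b) - (u a - u b)) +
          (g (S o (j + 1)) a - g (S o (j + 1)) b) := by ring
      have h6 : |u a - u b| ≤
          |g (S o j) a - g (S o (j + 1)) a - (g (S o j) b - g (S o (j + 1)) b)| +
          |(g (S o j) a - g (S o j) b) - (u a - u b)| + |g (S o (j + 1)) a - g (S o (j + 1)) b| := by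
        have h55 := congrArg (fun t => |t|) h5
        refine h55.le.trans ((abs_add_le _ _).trans (add_le_add (abs_sub _ _) le_rfl))
      have h7 : 2 * er T m N (S o j) * d a b ≤ 2 * (2 * m / N) * d a b :=
        mul_le_mul_of_nonneg_right (mul_le_mul_of_nonneg_left hea (by norm_num)) (hd0 a b)
      have h8 : 2 * er T m N (S o (j + 1)) * d a b ≤ 2 * (2 * m / N) * d a b :=
        mul_le_mul_of_nonneg_right (mul_le_mul_of_nonneg_left heb (by norm_num)) (hd0 a b)
      have h9 : 8 / (N:ℝ) * m * d a b = 2 * (2 * m / N) * d a b + 2 * (2 * m / N) * d a b := by ring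
      have h10 : 0 ≤ 2 * (T / 2 ^ (J * P * N)) * d a b := by
        have := hd0 a b
        positivity
      rw [h9]
      linarith

end Pieces

end Vale.Agent.Lib.P249
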