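import Vale.Agent.Lib.P249.HG
import Vale.Agent.Lib.P249.Trunc
import Vale.Agent.Lib.P249.Samp
import Vale.Agent.Lib.P249.RandCol

/-!
# Assembly: truncation pieces, random colours, sampling  (module ASM1 of P249)
-/

namespace Vale.Agent.Lib.P249

open Finset

theorem rand' {A W : Type*} [Fintype A] [Fintype W] {p : ℝ} (hp : 1 ≤ p) (y : A → W → ℝ)
    (D : A → A → ℝ) (hD : ∀ a b, 0 ≤ D a b) (L : ℝ) (hL0 : 0 ≤ L)
    (hL : ∀ a b w, |y a w - y b w| ≤ L * D a b) (K R q : ℕ) (hR : 0 < R)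
    (hK : ∀ a, (Finset.univ.filter fun w => y a w ≠ 0).card ≤ K) (κ : ℝ)
    (hκ : (2 * (q:ℝ)) ^ p * (2 * K / R) + 2 * K / R +
      R * Fintype.card A * ((K:ℝ) / R) ^ (q + 1) ≤ κ) :
    ∃ (n : ℕ) (_ : 0 < n) (F : A → Fin n → ℝ),
      (∀ a b t, |F a t - F b t| ^ p ≤ R * (2 * q * L) ^ p * D a b ^ p) ∧
      ∀ a b, |(∑ t, |F a t - F b t| ^ p) / n - ∑ w, |y a w - y b w| ^ p| ≤
        κ * ∑ w, |y a w - y b w| ^ p := by
  classical
  have hp0 : (0 : ℝ) < p := by linarith
  have hRr : (0 : ℝ) < R := by exact_mod_cast hR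
  set c : Fin R := ⟨0, hR⟩
  set n := Fintype.card (W → Fin R) with hn
  have hnR : (n : ℝ) = (R : ℝ) ^ Fintype.card W := by
    rw [hn, Fintype.card_fun, Fintype.card_fin]; push_cast; rfl
  have hn0 : 0 < n := by
    rw [hn]
    exact Fintype.card_pos_iff.mpr ⟨fun _ => c⟩
  let e : Fin n ≃ (W → Fin R) := (Fintype.equivFin (W → Fin R)).symm
  refine ⟨n, hn0, fun a w => randF c q p y a (e w), ?_, ?_⟩
  · intro a b w
    have h1 := rand_lip c q p y a b (e w) (L * D a b) (mul_nonneg hL0 (hD a b))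
      (fun w => hL a b w)
    have h2 := Real.rpow_le_rpow (abs_nonneg _) h1 hp0.le
    refine h2.trans ?_
    have h3 : 0 ≤ 2 * (q : ℝ) * (L * D a b) := by have := hD a b; positivity
    rw [Real.mul_rpow (Real.rpow_nonneg hRr.le _) h3, ← Real.rpow_mul hRr.le,
      one_div_mul_cancel hp0.ne', Real.rpow_one]
    rw [mul_assoc (R : ℝ)]
    refine mul_le_mul_of_nonneg_left ?_ hRr.le
    rw [← Real.mul_rpow (by positivity) (hD a b)]
    refine Real.rpow_le_rpow h3 ?_ hp0.le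
    exact le_of_eq (by ring)
  · intro a b
    have h1 := rand_main hR c q K p hp y hK a b
    have h2 : ∑ w : Fin n, |randF c q p y a (e w) - randF c q p y b (e w)| ^ p =
        ∑ om : W → Fin R, |randF c q p y a om - randF c q p y b om| ^ p :=
      Equiv.sum_comp e (fun om => |randF c q p y a om - randF c q p y b om| ^ p)
    rw [h2, hnR]
    refine h1.trans (mul_le_mul_of_nonneg_right ?_
      (sum_nonneg fun w _ => Real.rpow_nonneg (abs_nonneg _) _))
    refine le_trans ?_ hκ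
    have h6 : (0 : ℝ) ≤ 2 * K / R := by positivity
    linarith

section Piece

variable {A W : Type*} [Fintype A] [Fintype W] {p : ℝ}

theorem piece (hp : 1 ≤ p) (y : A → W → ℝ)
    (D : A → A → ℝ) (hD : ∀ a b, 0 ≤ D a b) (L : ℝ) (hL0 : 0 ≤ L)
    (hL : ∀ a b w, |y a w - y b w| ≤ L * D a b) (K R q : ℕ) (hR : 0 < R)
    (hK : ∀ a, (Finset.univ.filter fun w => y a w ≠ 0).card ≤ K) (κ : ℝ)
    (hκ : (2 * (q:ℝ)) ^ p * (2 * K / R) + 2 * K / R +
      R * Fintype.card A * ((K:ℝ) / R) ^ (q + 1) ≤ κ) (hκ0 : 0 ≤ κ) (hκ1 : κ ≤ 1) (C1 : ℝ)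
    (hC1 : 0 < C1) (hy : ∀ a b, ∑ w, |y a w - y b w| ^ p ≤ C1 * D a b ^ p) (e : ℝ) (he : 0 < e)
    (he1 : e ≤ 4 * C1) (B : ℝ) (hB : R * (2 * q * L) ^ p ≤ B) (hB0 : 0 < B) (M : ℕ) (hM0 : 0 < M)
    (hM : 4 * (2 * C1) * B * Real.log (2 * (Fintype.card A : ℝ) ^ 2 + 1) ≤ e ^ 2 * M) :
    ∃ F : A → Fin M → ℝ, ∀ a b, |(∑ t, |F a t - F b t| ^ p) / M - ∑ w, |y a w - y b w| ^ p| ≤
      (κ * C1 + e) * D a b ^ p := by
  obtain ⟨n, hn, F, hF1, hF2⟩ := rand' hp y D hD L hL0 hL K R q hR hK κ hκ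
  haveI : Nonempty (Fin n) := ⟨⟨0, hn⟩⟩
  have hDp : ∀ a b, 0 ≤ D a b ^ p := fun a b => Real.rpow_nonneg (hD a b) p
  have hS : ∀ a b, 0 ≤ ∑ w, |y a w - y b w| ^ p := fun a b =>
    Finset.sum_nonneg fun w _ => Real.rpow_nonneg (abs_nonneg _) _
  obtain ⟨ω, hω⟩ := samp F D hD B (2 * C1) e hB0 (by positivity) he (by linarith)
    (fun a b t => (hF1 a b t).trans (mul_le_mul_of_nonneg_right hB (hDp a b)))
    (fun a b => by
      have h1 := (abs_le.1 (hF2 a b)).2
      rw [Fintype.card_fin]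
      have h2 := hy a b
      have h3 : κ * ∑ w, |y a w - y b w| ^ p ≤ 1 * ∑ w, |y a w - y b w| ^ p :=
        mul_le_mul_of_nonneg_right hκ1 (hS a b)
      nlinarith [hDp a b]) M hM hM0
  refine ⟨fun a t => F a (ω t), fun a b => ?_⟩
  have h1 := hω a b
  rw [Fintype.card_fin] at h1
  have h2 := hF2 a b
  have h3 : κ * ∑ w, |y a w - y b w| ^ p ≤ κ * (C1 * D a b ^ p) :=
    mul_le_mul_of_nonneg_left (hy a b) hκ0
  calc |(∑ t, |F a (ω t) - F b (ω t)| ^ p) / M - ∑ w, |y a w - y b w| ^ p|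
      ≤ |(∑ t, |F a (ω t) - F b (ω t)| ^ p) / M - (∑ w, |F a w - F b w| ^ p) / n| +
        |(∑ w, |F a w - F b w| ^ p) / n - ∑ w, |y a w - y b w| ^ p| := abs_sub_le _ _ _
    _ ≤ e * D a b ^ p + κ * (C1 * D a b ^ p) := add_le_add h1 (h2.trans h3)
    _ = (κ * C1 + e) * D a b ^ p := by ring

end Piece

section Assembly

variable {A W : Type*} [Fintype A] [Nonempty A] [Fintype W] {p : ℝ}

/-- Sum of `p`-th powers over a finite set is at most the `p`-th power of the sum. -/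
theorem sum_rpow_le {I : Type*} (hp : 1 ≤ p) (s : Finset I) (f : I → ℝ) (hf : ∀ i ∈ s, 0 ≤ f i) :
    ∑ i ∈ s, f i ^ p ≤ (∑ i ∈ s, f i) ^ p := by
  classical
  induction s using Finset.induction_on with
  | empty => simp [Real.zero_rpow (by linarith : p ≠ 0)]
  | insert i s hi ih =>
    rw [Finset.sum_insert hi, Finset.sum_insert hi]
    have h1 := ih (fun j hj => hf j (Finset.mem_insert_of_mem hj))
    have h2 : 0 ≤ f i := hf i (Finset.mem_insert_self _ _)
    have h3 : 0 ≤ ∑ j ∈ s, f j := Finset.sum_nonneg fun j hj => hf j (Finset.mem_insert_of_mem hj)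
    have h4 := Real.add_rpow_le_rpow_add h2 h3 hp
    linarith

/-- Number of coordinates where the gradient exceeds a threshold. -/
theorem card_active_le (hp : 1 ≤ p) (v : W → ℝ) (hv : ∀ w, 0 ≤ v w) {H τ : ℝ} (hH : nrm p v ≤ H)
    (hτ : 0 < τ) (s : Finset W) (hs : ∀ w ∈ s, τ < v w) : (s.card : ℝ) ≤ (H / τ) ^ p := by
  have hp0 : 0 < p := lt_of_lt_of_le one_pos hp
  have hH0 : 0 ≤ H := (nrm_nonneg p v).trans hH
  rw [Real.div_rpow hH0 hτ.le, le_div_iff₀ (Real.rpow_pos_of_pos hτ p)]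
  have h1 : (s.card : ℝ) * τ ^ p ≤ ∑ w ∈ s, |v w| ^ p := by
    rw [← nsmul_eq_mul]
    apply Finset.card_nsmul_le_sum
    intro w hw
    rw [abs_of_nonneg (hv w)]
    exact Real.rpow_le_rpow hτ.le (hs w hw).le hp0.le
  have h2 : ∑ w ∈ s, |v w| ^ p ≤ ∑ w, |v w| ^ p :=
    Finset.sum_le_sum_of_subset_of_nonneg (Finset.subset_univ _)
      fun w _ _ => Real.rpow_nonneg (abs_nonneg _) _
  rw [← nrm_rpow hp0] at h2
  have h3 : nrm p v ^ p ≤ H ^ p := Real.rpow_le_rpow (nrm_nonneg p v) hH hp0.le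
  linarith

/-- Mean square type bound: the norm of `|x a - x b| + c max(h a, h b) d`. -/
theorem nrm_upper (hp : 1 ≤ p) (x h : A → W → ℝ) (h0 : ∀ a w, 0 ≤ h a w) {H : ℝ}
    (hn : ∀ a, nrm p (h a) ≤ H) {c : ℝ} (hc : 0 ≤ c) (a b : A) :
    nrm p (fun w => |x a w - x b w| + c * max (h a w) (h b w) * dd p x a b) ≤
      (1 + 2 * c * H) * dd p x a b := by
  have hp0 : 0 < p := lt_of_lt_of_le one_pos hp
  have hd := dd_nonneg p x a b
  have h1 : nrm p (fun w => |x a w - x b w| + c * max (h a w) (h b w) * dd p x a b) ≤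
      nrm p (fun w => |x a w - x b w|) + nrm p (fun w => c * max (h a w) (h b w) * dd p x a b) :=
    nrm_add_le hp _ _
  have h2 : nrm p (fun w => |x a w - x b w|) = dd p x a b := by
    rw [dd]; exact nrm_congr_abs _ _ fun w => abs_abs _
  have h3 : nrm p (fun w => c * max (h a w) (h b w) * dd p x a b) ≤
      c * dd p x a b * (H + H) := by
    have h4 : (fun w => c * max (h a w) (h b w) * dd p x a b) =
        fun w => (c * dd p x a b) * max (h a w) (h b w) := by funext w; ring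
    rw [h4, nrm_smul hp0, abs_of_nonneg (by positivity)]
    apply mul_le_mul_of_nonneg_left _ (by positivity)
    have h5 : nrm p (fun w => max (h a w) (h b w)) ≤ nrm p (fun w => h a w + h b w) := by
      apply nrm_mono hp0
      intro w
      rw [abs_of_nonneg ((h0 a w).trans (le_max_left _ _)),
        abs_of_nonneg (add_nonneg (h0 a w) (h0 b w))]
      exact max_le (by linarith [h0 b w]) (by linarith [h0 a w])
    have h6 : nrm p (fun w => h a w + h b w) ≤ nrm p (h a) + nrm p (h b) :=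
      nrm_add_le hp _ _
    linarith [hn a, hn b]
  calc _ ≤ _ := h1
    _ ≤ dd p x a b + c * dd p x a b * (H + H) := by rw [h2]; linarith
    _ = _ := by ring

theorem nrm_const (hp : 0 < p) (c : ℝ) (hc : 0 ≤ c) :
    nrm p (fun _ : W => c) = c * (Fintype.card W : ℝ) ^ (1 / p) := by
  unfold nrm
  simp only [abs_of_nonneg hc]
  rw [Finset.sum_const, Finset.card_univ, nsmul_eq_mul,
    Real.mul_rpow (by positivity) (Real.rpow_nonneg hc p), ← Real.rpow_mul hc,
    mul_one_div_cancel hp.ne', Real.rpow_one]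
  ring

/-- The pieces and their realisations in dimension `M`. -/
theorem asm_pieces (hp : 1 ≤ p) (x : A → W → ℝ) (h : A → W → ℝ) (h0 : ∀ a w, 0 ≤ h a w)
    (hH : ∀ a b w, |x a w - x b w| ≤ dd p x a b * (h a w + h b w)) (H : ℝ) (hH0 : 0 < H)
    (hn : ∀ a, nrm p (h a) ≤ H) (N P J q M : ℕ) (hN : 0 < N) (hP : 0 < P) (hJ : 0 < J)
    (hM0 : 0 < M) (Rf k e : ℝ) (hRf : 1 ≤ Rf)
    (hk : (2 * (q:ℝ)) ^ p * (2 / Rf) + 2 / Rf +
      Fintype.card W * Fintype.card A / Rf ^ q ≤ k) (hk1 : k ≤ 1) (he : 0 < e) (he1 : e ≤ 1)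
    (hM : 8 * (1 + 16 * H / N) ^ p * (2 * Rf * (8 * (q + 1) * H * 2 ^ ((P + 1) * N)) ^ p) *
      Real.log (2 * (Fintype.card A : ℝ) ^ 2 + 1) ≤ e ^ 2 * M) :
    ∃ (Y : W → ℕ → ℕ → A → ℝ) (F : ℕ → ℕ → A → Fin M → ℝ),
      (∀ o a b, ∑ j ∈ Finset.range J, ∑ w, |Y w o j a - Y w o j b| ^ p ≤
        (1 + 16 * H / N) ^ p * dd p x a b ^ p) ∧
      (∀ o j, j < J → ∀ a b,
        |(∑ t, |F o j a t - F o j b t| ^ p) / M - ∑ w, |Y w o j a - Y w o j b| ^ p| ≤
        (k * (1 + 16 * H / N) ^ p + e) * dd p x a b ^ p) ∧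
      (∀ w, ∀ o < P, ∀ a b, |x a w - x b w| ≤
        ∑ j ∈ Finset.range J, |Y w o j a - Y w o j b| +
        2 * (H * 2 ^ ((P + 1) * N) / 2 ^ ((o + J * P) * N)) * dd p x a b) ∧
      (∀ w a b, ∃ o' : ℕ, ∀ o < P, o ≠ o' → ∃ j ∈ Finset.range J,
        |x a w - x b w| ≤ |Y w o j a - Y w o j b| + 8 / N * max (h a w) (h b w) * dd p x a b +
          2 * (H * 2 ^ ((P + 1) * N) / 2 ^ (J * P * N)) * dd p x a b) := by
  classical
  have hp0 : 0 < p := lt_of_lt_of_le one_pos hp
  have hN' : (0:ℝ) < N := by exact_mod_cast hN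
  have hP' : (0:ℝ) < P := by exact_mod_cast hP
  have hM' : (0:ℝ) < M := by exact_mod_cast hM0
  have hRf0 : 0 < Rf := lt_of_lt_of_le one_pos hRf
  have hk0 : 0 ≤ k := by
    refine le_trans ?_ hk
    positivity
  set T : ℝ := H * 2 ^ ((P + 1) * N) with hT
  set C1 : ℝ := (1 + 16 * H / N) ^ p with hC1
  have hC1' : 1 ≤ C1 := by
    apply Real.one_le_rpow _ hp0.le
    have : 0 ≤ 16 * H / N := by positivity
    linarith
  set D : A → A → ℝ := dd p x with hD
  have hD0 : ∀ a b, 0 ≤ D a b := dd_nonneg p x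
  have hDp : ∀ a b, 0 ≤ D a b ^ p := fun a b => Real.rpow_nonneg (hD0 a b) p
  have hhH : ∀ a w, h a w ≤ H := fun a w => by
    have h1 := abs_le_nrm hp0 (h a) w
    rw [abs_of_nonneg (h0 a w)] at h1
    exact h1.trans (hn a)
  -- the pieces
  have htr := fun w : W => trunc (d := D) (u := fun a => x a w) (h := fun a => h a w)
    (dd_comm p x) hD0 (dd_self hp0 x) (dd_tri hp x) (fun a => h0 a w) (fun a b => hH a b w)
    hH0.le (fun a => hhH a w) hN hP J hJ T rfl
  choose Y hY1 hY2 hY3 hY4 hY5 using htr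
  -- bound of all the pieces of one offset
  have hsumY : ∀ o a b, ∑ j ∈ Finset.range J, ∑ w, |Y w o j a - Y w o j b| ^ p ≤
      C1 * D a b ^ p := by
    intro o a b
    rw [Finset.sum_comm]
    have h1 : ∀ w, ∑ j ∈ Finset.range J, |Y w o j a - Y w o j b| ^ p ≤
        |(|x a w - x b w| + 8 / N * max (h a w) (h b w) * D a b)| ^ p := by
      intro w
      refine (sum_rpow_le hp _ _ (fun j _ => abs_nonneg _)).trans ?_
      apply Real.rpow_le_rpow (Finset.sum_nonneg fun j _ => abs_nonneg _) _ hp0.le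
      exact (hY3 w o a b).trans (le_abs_self _)
    refine (Finset.sum_le_sum fun w _ => h1 w).trans ?_
    rw [← nrm_rpow hp0 (fun w => |x a w - x b w| + 8 / N * max (h a w) (h b w) * D a b)]
    have h2 := nrm_upper hp x h h0 hn (c := 8 / (N:ℝ)) (by positivity) a b
    have h3 : (1 + 2 * (8 / (N:ℝ)) * H) = 1 + 16 * H / N := by ring
    rw [h3] at h2
    calc nrm p (fun w => |x a w - x b w| + 8 / N * max (h a w) (h b w) * D a b) ^ p
        ≤ ((1 + 16 * H / N) * D a b) ^ p := Real.rpow_le_rpow (nrm_nonneg _ _) h2 hp0.le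
      _ = C1 * D a b ^ p := by
        rw [Real.mul_rpow (by positivity) (hD0 a b)]
  -- each piece is realised in dimension M
  have hpiece : ∀ (o : ℕ) (j : ℕ), j < J → ∃ F : A → Fin M → ℝ, ∀ a b,
      |(∑ t, |F a t - F b t| ^ p) / M - ∑ w, |Y w o j a - Y w o j b| ^ p| ≤
        (k * C1 + e) * D a b ^ p := by
    intro o j hj
    set G : ℝ := 2 ^ ((o + j * P) * N) with hG
    have hG1 : 1 ≤ G := one_le_pow₀ one_le_two
    have hG0 : 0 < G := by positivity
    have hGp : 1 ≤ G ^ p := Real.one_le_rpow hG1 hp0.le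
    set K : ℕ := min ⌊G ^ p⌋₊ (Fintype.card W) with hK
    set R : ℕ := ⌈Rf * G ^ p⌉₊ with hR
    have hR1 : Rf * G ^ p ≤ R := Nat.le_ceil _
    have hRpos : 0 < R := by
      have : (0:ℝ) < R := lt_of_lt_of_le (by positivity) hR1
      exact_mod_cast this
    have hRpos' : (0:ℝ) < R := by exact_mod_cast hRpos
    have hR2 : (R:ℝ) ≤ 2 * Rf * G ^ p := by
      have h1 := Nat.ceil_lt_add_one (a := Rf * G ^ p) (by positivity)
      have h2 : 1 ≤ Rf * G ^ p := by nlinarith
      have h3 : (R:ℝ) < Rf * G ^ p + 1 := h1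
      linarith
    have hKG : (K:ℝ) ≤ G ^ p := by
      have h1 : (K:ℝ) ≤ (⌊G ^ p⌋₊ : ℝ) := by exact_mod_cast min_le_left _ _
      exact h1.trans (Nat.floor_le (by positivity))
    have hKW : (K:ℝ) ≤ Fintype.card W := by exact_mod_cast min_le_right _ _
    have hKR : (K:ℝ) / R ≤ 1 / Rf := by
      rw [div_le_div_iff₀ hRpos' hRf0]
      nlinarith
    have hKR0 : 0 ≤ (K:ℝ) / R := by positivity
    apply piece hp (fun a w => Y w o j a) D hD0 (4 * (T / 2 ^ ((o + j * P) * N)))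
      (by positivity) (fun a b w => hY2 w o j a b) K R q hRpos _ k _ hk0 hk1 C1
      (by linarith) _ e he (by linarith) (2 * Rf * (8 * (q + 1) * H * 2 ^ ((P + 1) * N)) ^ p) _
      (by positivity) M hM0
    · -- numeric condition
      calc 4 * (2 * C1) * (2 * Rf * (8 * (q + 1) * H * 2 ^ ((P + 1) * N)) ^ p) *
            Real.log (2 * (Fintype.card A : ℝ) ^ 2 + 1)
          = 8 * C1 * (2 * Rf * (8 * (q + 1) * H * 2 ^ ((P + 1) * N)) ^ p) *
            Real.log (2 * (Fintype.card A : ℝ) ^ 2 + 1) := by ring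
        _ ≤ e ^ 2 * M := hM
    · -- active coordinates
      intro a
      have h1 : ((Finset.univ.filter fun w => Y w o j a ≠ 0).card : ℝ) ≤ G ^ p := by
        have h2 := card_active_le hp (h a) (h0 a) (hn a)
          (τ := T / 2 ^ ((o + (j + 1) * P) * N + N)) (by positivity)
          (Finset.univ.filter fun w => Y w o j a ≠ 0) (by
            intro w hw
            have hw' : Y w o j a ≠ 0 := by simpa using hw
            by_contra hcon
            push Not at hcon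
            exact hw' (hY1 w o j a hcon))
        have h3 : H / (T / 2 ^ ((o + (j + 1) * P) * N + N)) = G := by
          rw [hT, hG]
          have h4 : (o + (j + 1) * P) * N + N = (o + j * P) * N + (P + 1) * N := by ring
          rw [h4, pow_add]
          field_simp
        rw [h3] at h2
        exact h2
      rw [hK]
      apply le_min
      · exact Nat.le_floor h1
      · exact Finset.card_le_univ _
    · -- kappa condition
      refine le_trans ?_ hk
      have e1 : 2 * (K:ℝ) / R ≤ 2 / Rf := by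
        have : 2 * (K:ℝ) / R = 2 * (K / R) := by ring
        rw [this]
        have : 2 / Rf = 2 * (1 / Rf) := by ring
        rw [this]
        linarith
      have e2 : (2 * (q:ℝ)) ^ p * (2 * K / R) ≤ (2 * (q:ℝ)) ^ p * (2 / Rf) :=
        mul_le_mul_of_nonneg_left e1 (by positivity)
      have e3 : (R:ℝ) * Fintype.card A * ((K:ℝ) / R) ^ (q + 1) ≤
          Fintype.card W * Fintype.card A / Rf ^ q := by
        have h1 : (R:ℝ) * Fintype.card A * ((K:ℝ) / R) ^ (q + 1) =
            K * Fintype.card A * ((K:ℝ) / R) ^ q := by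
          rw [pow_succ]
          field_simp
        rw [h1]
        have h2 : ((K:ℝ) / R) ^ q ≤ (1 / Rf) ^ q := pow_le_pow_left₀ hKR0 hKR q
        have h3 : (1 / Rf) ^ q = 1 / Rf ^ q := by rw [one_div, one_div, inv_pow]
        rw [h3] at h2
        calc (K:ℝ) * Fintype.card A * ((K:ℝ) / R) ^ q
            ≤ (Fintype.card W * Fintype.card A) * (1 / Rf ^ q) :=
              mul_le_mul (mul_le_mul_of_nonneg_right hKW (by positivity)) h2 (by positivity)
                (by positivity)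
          _ = _ := by ring
      linarith
    · -- size of the piece
      intro a b
      refine le_trans ?_ (hsumY o a b)
      exact Finset.single_le_sum (f := fun j => ∑ w, |Y w o j a - Y w o j b| ^ p)
        (fun j _ => Finset.sum_nonneg fun w _ => Real.rpow_nonneg (abs_nonneg _) _)
        (Finset.mem_range.2 hj)
    · -- sup bound
      have h1 : (2 * (q:ℝ) * (4 * (T / 2 ^ ((o + j * P) * N)))) = (8 * q * T) / G := by
        rw [hG]; ring
      rw [h1, Real.div_rpow (by positivity) hG0.le]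
      have h2 : (8 * (q:ℝ) * T) ^ p ≤ (8 * (q + 1) * H * 2 ^ ((P + 1) * N)) ^ p := by
        apply Real.rpow_le_rpow (by positivity) _ hp0.le
        rw [hT]
        have : (q:ℝ) ≤ q + 1 := by linarith
        calc 8 * (q:ℝ) * (H * 2 ^ ((P + 1) * N)) ≤ 8 * ((q:ℝ) + 1) * (H * 2 ^ ((P + 1) * N)) :=
              mul_le_mul_of_nonneg_right (by linarith) (by positivity)
          _ = _ := by ring
      calc (R:ℝ) * ((8 * (q:ℝ) * T) ^ p / G ^ p)
          ≤ (2 * Rf * G ^ p) * ((8 * (q + 1) * H * 2 ^ ((P + 1) * N)) ^ p / G ^ p) :=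
            mul_le_mul hR2 (div_le_div_of_nonneg_right h2 (by positivity)) (by positivity)
              (by positivity)
        _ = 2 * Rf * (8 * (q + 1) * H * 2 ^ ((P + 1) * N)) ^ p := by
            field_simp
  -- choose the maps
  have hpiece' : ∀ (o : ℕ) (j : ℕ), ∃ F : A → Fin M → ℝ, j < J → ∀ a b,
      |(∑ t, |F a t - F b t| ^ p) / M - ∑ w, |Y w o j a - Y w o j b| ^ p| ≤
        (k * C1 + e) * D a b ^ p := by
    intro o j
    by_cases hj : j < J
    · obtain ⟨F, hF⟩ := hpiece o j hj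
      exact ⟨F, fun _ => hF⟩
    · exact ⟨fun _ _ => 0, fun h => absurd h hj⟩
  choose F hF using hpiece'
  exact ⟨Y, F, hsumY, hF, hY4, hY5⟩

/-- Lower bound off the windows. -/
theorem asm_lowB (hp : 1 ≤ p) (x : A → W → ℝ) (h : A → W → ℝ) (h0 : ∀ a w, 0 ≤ h a w)
    (H : ℝ) (hH0 : 0 < H) (hn : ∀ a, nrm p (h a) ≤ H) (N P J : ℕ) (hN : 0 < N) (hP : 0 < P)
    (Y : W → ℕ → ℕ → A → ℝ) (T : ℝ) (hT0 : 0 ≤ T)
    (hY5 : ∀ w a b, ∃ o' : ℕ, ∀ o < P, o ≠ o' → ∃ j ∈ Finset.range J,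
        |x a w - x b w| ≤ |Y w o j a - Y w o j b| + 8 / N * max (h a w) (h b w) * dd p x a b +
          2 * (T / 2 ^ (J * P * N)) * dd p x a b) (a b : A) (z : ℝ) (hz0 : 0 ≤ z)
    (hz : z ≤ 1 - 16 * H / N - 2 * (T / 2 ^ (J * P * N)) * (Fintype.card W : ℝ) ^ (1 / p)) :
    (P - 1) * (z ^ p * dd p x a b ^ p) ≤ ∑ o ∈ Finset.range P, ∑ j ∈ Finset.range J,
        ∑ w, |Y w o j a - Y w o j b| ^ p := by
  classical
  have hp0 : 0 < p := lt_of_lt_of_le one_pos hp
  have hN' : (0:ℝ) < N := by exact_mod_cast hN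
  set D : A → A → ℝ := dd p x with hD
  have hD0 : ∀ a b, 0 ≤ D a b := dd_nonneg p x
  set η : ℝ := 2 * (T / 2 ^ (J * P * N)) with hη
  have hη0 : 0 ≤ η := by positivity
  -- coordinatewise lower bound
  set v : W → ℝ := fun w =>
    max 0 (|x a w - x b w| - 8 / N * max (h a w) (h b w) * D a b - η * D a b) with hv
  have hv0 : ∀ w, 0 ≤ v w := fun w => le_max_left _ _
  have hvw : ∀ w, (P - 1) * v w ^ p ≤ ∑ o ∈ Finset.range P, ∑ j ∈ Finset.range J,
      |Y w o j a - Y w o j b| ^ p := by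
    intro w
    obtain ⟨o', ho'⟩ := hY5 w a b
    have h1 : ∀ o ∈ (Finset.range P).erase o', v w ^ p ≤ ∑ j ∈ Finset.range J,
        |Y w o j a - Y w o j b| ^ p := by
      intro o ho
      obtain ⟨hne, hoP⟩ := Finset.mem_erase.1 ho
      obtain ⟨j, hj, hj2⟩ := ho' o (Finset.mem_range.1 hoP) hne
      have h2 : v w ≤ |Y w o j a - Y w o j b| := by
        apply max_le (abs_nonneg _)
        have h3 : η * D a b = 2 * (T / 2 ^ (J * P * N)) * D a b := by rw [hη]
        rw [h3]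
        linarith
      refine (Real.rpow_le_rpow (hv0 w) h2 hp0.le).trans ?_
      exact Finset.single_le_sum (f := fun j => |Y w o j a - Y w o j b| ^ p)
        (fun j _ => Real.rpow_nonneg (abs_nonneg _) _) hj
    have h2 : ((Finset.range P).erase o').card • (v w ^ p) ≤
        ∑ o ∈ (Finset.range P).erase o', ∑ j ∈ Finset.range J, |Y w o j a - Y w o j b| ^ p :=
      Finset.card_nsmul_le_sum _ _ _ h1
    have h3 : ∑ o ∈ (Finset.range P).erase o', ∑ j ∈ Finset.range J,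
        |Y w o j a - Y w o j b| ^ p ≤ ∑ o ∈ Finset.range P, ∑ j ∈ Finset.range J,
        |Y w o j a - Y w o j b| ^ p :=
      Finset.sum_le_sum_of_subset_of_nonneg (Finset.erase_subset _ _)
        fun o _ _ => Finset.sum_nonneg fun j _ => Real.rpow_nonneg (abs_nonneg _) _
    have h4 : (P:ℝ) - 1 ≤ ((Finset.range P).erase o').card := by
      have h5 := Finset.pred_card_le_card_erase (s := Finset.range P) (a := o')
      rw [Finset.card_range] at h5
      have h6 : P ≤ ((Finset.range P).erase o').card + 1 := by omega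
      have h7 : (P:ℝ) ≤ (((Finset.range P).erase o').card + 1 : ℕ) := by exact_mod_cast h6
      push_cast at h7
      linarith
    rw [nsmul_eq_mul] at h2
    have h5 : (P - 1) * v w ^ p ≤ ((Finset.range P).erase o').card * v w ^ p :=
      mul_le_mul_of_nonneg_right h4 (Real.rpow_nonneg (hv0 w) p)
    linarith
  -- norm of v
  have hvn : z * D a b ≤ nrm p v := by
    have h1 : D a b ≤ nrm p v + (16 * H / N) * D a b + η * D a b *
        (Fintype.card W : ℝ) ^ (1 / p) := by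
      have h2 : D a b ≤ nrm p (fun w => (v w + 8 / N * max (h a w) (h b w) * D a b) +
          η * D a b) := by
        rw [hD, dd]
        apply nrm_mono hp0
        intro w
        have h3 : |x a w - x b w| ≤ v w + 8 / N * max (h a w) (h b w) * D a b + η * D a b := by
          have := le_max_right 0
            (|x a w - x b w| - 8 / N * max (h a w) (h b w) * D a b - η * D a b)
          simp only [hv]
          linarith
        exact h3.trans (le_abs_self _)
      have h3 : nrm p (fun w => (v w + 8 / N * max (h a w) (h b w) * D a b) + η * D a b) ≤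
          nrm p (fun w => v w + 8 / N * max (h a w) (h b w) * D a b) +
            nrm p (fun _ : W => η * D a b) := nrm_add_le hp _ _
      have h4 : nrm p (fun w => v w + 8 / N * max (h a w) (h b w) * D a b) ≤
          nrm p v + nrm p (fun w => 8 / N * max (h a w) (h b w) * D a b) := nrm_add_le hp _ _
      have h5 : nrm p (fun w => 8 / N * max (h a w) (h b w) * D a b) ≤
          (16 * H / N) * D a b := by
        have h6 : (fun w => 8 / N * max (h a w) (h b w) * D a b) =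
            fun w => (8 / N * D a b) * max (h a w) (h b w) := by funext w; ring
        have hd0 := hD0 a b
        rw [h6, nrm_smul hp0, abs_of_nonneg (by positivity)]
        have h7 : nrm p (fun w => max (h a w) (h b w)) ≤ nrm p (fun w => h a w + h b w) := by
          apply nrm_mono hp0
          intro w
          rw [abs_of_nonneg ((h0 a w).trans (le_max_left _ _)),
            abs_of_nonneg (add_nonneg (h0 a w) (h0 b w))]
          exact max_le (by linarith [h0 b w]) (by linarith [h0 a w])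
        have h8 : nrm p (fun w => h a w + h b w) ≤ nrm p (h a) + nrm p (h b) :=
          nrm_add_le hp _ _
        have h9 : nrm p (fun w => max (h a w) (h b w)) ≤ 2 * H := by
          linarith [hn a, hn b]
        calc 8 / N * D a b * nrm p (fun w => max (h a w) (h b w))
            ≤ 8 / N * D a b * (2 * H) := mul_le_mul_of_nonneg_left h9 (by positivity)
          _ = _ := by ring
      have h6 := nrm_const (W := W) hp0 (η * D a b) (mul_nonneg hη0 (hD0 a b))
      rw [h6] at h3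
      linarith
    have h2 : z * D a b ≤ (1 - 16 * H / N - η * (Fintype.card W : ℝ) ^ (1 / p)) * D a b :=
      mul_le_mul_of_nonneg_right hz (hD0 a b)
    nlinarith
  have hzD : z ^ p * D a b ^ p ≤ ∑ w, v w ^ p := by
    rw [← Real.mul_rpow hz0 (hD0 a b)]
    have h1 : (z * D a b) ^ p ≤ nrm p v ^ p :=
      Real.rpow_le_rpow (mul_nonneg hz0 (hD0 a b)) hvn hp0.le
    rw [nrm_rpow hp0] at h1
    refine h1.trans (le_of_eq ?_)
    exact Finset.sum_congr rfl fun w _ => by rw [abs_of_nonneg (hv0 w)]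
  -- all offsets
  have hall : (P - 1) * (z ^ p * D a b ^ p) ≤ ∑ o ∈ Finset.range P, ∑ j ∈ Finset.range J,
      ∑ w, |Y w o j a - Y w o j b| ^ p := by
    have hP1 : (0:ℝ) ≤ P - 1 := by
      have : (1:ℝ) ≤ P := by exact_mod_cast hP
      linarith
    have h1 : (P - 1) * (z ^ p * D a b ^ p) ≤ (P - 1) * ∑ w, v w ^ p :=
      mul_le_mul_of_nonneg_left hzD hP1
    have h2 : (P - 1) * ∑ w, v w ^ p ≤ ∑ w, ∑ o ∈ Finset.range P, ∑ j ∈ Finset.range J,
        |Y w o j a - Y w o j b| ^ p := by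
      rw [Finset.mul_sum]
      exact Finset.sum_le_sum fun w _ => hvw w
    have h3 : ∑ w, ∑ o ∈ Finset.range P, ∑ j ∈ Finset.range J, |Y w o j a - Y w o j b| ^ p =
        ∑ o ∈ Finset.range P, ∑ j ∈ Finset.range J, ∑ w, |Y w o j a - Y w o j b| ^ p := by
      rw [Finset.sum_comm]
      apply Finset.sum_congr rfl
      intro o _
      rw [Finset.sum_comm]
    linarith
  exact hall

/-- Lower bound by the power mean. -/
theorem asm_lowC (hp : 1 ≤ p) (x : A → W → ℝ) (N P J : ℕ) (hJ : 0 < J)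
    (Y : W → ℕ → ℕ → A → ℝ) (T : ℝ) (hT0 : 0 ≤ T)
    (hY4 : ∀ w, ∀ o < P, ∀ a b, |x a w - x b w| ≤
        ∑ j ∈ Finset.range J, |Y w o j a - Y w o j b| +
        2 * (T / 2 ^ ((o + J * P) * N)) * dd p x a b) (a b : A) (z : ℝ) (hz0 : 0 ≤ z)
    (hz : z ≤ 1 - 2 * (T / 2 ^ (J * P * N)) * (Fintype.card W : ℝ) ^ (1 / p)) :
    ∀ o ∈ Finset.range P, z ^ p / J ^ (p - 1) * dd p x a b ^ p ≤
        ∑ j ∈ Finset.range J, ∑ w, |Y w o j a - Y w o j b| ^ p := by
  classical
  have hp0 : 0 < p := lt_of_lt_of_le one_pos hp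
  have hJ' : (0:ℝ) < J := by exact_mod_cast hJ
  set D : A → A → ℝ := dd p x with hD
  have hD0 : ∀ a b, 0 ≤ D a b := dd_nonneg p x
  set η : ℝ := 2 * (T / 2 ^ (J * P * N)) with hη
  have hη0 : 0 ≤ η := by positivity
  have hlow1 : ∀ o ∈ Finset.range P, z ^ p / J ^ (p - 1) * D a b ^ p ≤
      ∑ j ∈ Finset.range J, ∑ w, |Y w o j a - Y w o j b| ^ p := by
    intro o ho
    set v : W → ℝ := fun w => ∑ j ∈ Finset.range J, |Y w o j a - Y w o j b| with hv
    have hv0 : ∀ w, 0 ≤ v w := fun w => Finset.sum_nonneg fun j _ => abs_nonneg _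
    have h1 : D a b ≤ nrm p v + η * D a b * (Fintype.card W : ℝ) ^ (1 / p) := by
      have h2 : D a b ≤ nrm p (fun w => v w + η * D a b) := by
        rw [hD, dd]
        apply nrm_mono hp0
        intro w
        have h3 := hY4 w o (Finset.mem_range.1 ho) a b
        have h4 : 2 * (T / 2 ^ ((o + J * P) * N)) * D a b ≤ η * D a b := by
          apply mul_le_mul_of_nonneg_right _ (hD0 a b)
          rw [hη]
          apply mul_le_mul_of_nonneg_left _ (by norm_num)
          apply div_le_div_of_nonneg_left (by positivity) (by positivity)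
          apply pow_le_pow_right₀ one_le_two
          exact Nat.mul_le_mul_right N (by omega)
        exact (h3.trans (add_le_add le_rfl h4)).trans (le_abs_self _)
      have h3 : nrm p (fun w => v w + η * D a b) ≤ nrm p v + nrm p (fun _ : W => η * D a b) :=
        nrm_add_le hp _ _
      rw [nrm_const (W := W) hp0 (η * D a b) (mul_nonneg hη0 (hD0 a b))] at h3
      linarith
    have h2 : z * D a b ≤ nrm p v := by
      have h3 : z * D a b ≤ (1 - η * (Fintype.card W : ℝ) ^ (1 / p)) * D a b :=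
        mul_le_mul_of_nonneg_right hz (hD0 a b)
      nlinarith
    have h3 : z ^ p * D a b ^ p ≤ ∑ w, v w ^ p := by
      rw [← Real.mul_rpow hz0 (hD0 a b)]
      have h4 : (z * D a b) ^ p ≤ nrm p v ^ p :=
        Real.rpow_le_rpow (mul_nonneg hz0 (hD0 a b)) h2 hp0.le
      rw [nrm_rpow hp0] at h4
      refine h4.trans (le_of_eq ?_)
      exact Finset.sum_congr rfl fun w _ => by rw [abs_of_nonneg (hv0 w)]
    have h4 : ∀ w, v w ^ p ≤ (J:ℝ) ^ (p - 1) * ∑ j ∈ Finset.range J,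
        |Y w o j a - Y w o j b| ^ p := by
      intro w
      have h5 := Real.rpow_sum_le_const_mul_sum_rpow (Finset.range J)
        (fun j => Y w o j a - Y w o j b) hp
      rw [Finset.card_range] at h5
      exact h5
    have h5 : ∑ w, v w ^ p ≤ (J:ℝ) ^ (p - 1) * ∑ j ∈ Finset.range J, ∑ w,
        |Y w o j a - Y w o j b| ^ p := by
      rw [Finset.sum_comm, Finset.mul_sum]
      exact Finset.sum_le_sum fun w _ => h4 w
    have hJp : 0 < (J:ℝ) ^ (p - 1) := Real.rpow_pos_of_pos hJ' _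
    rw [div_mul_eq_mul_div, div_le_iff₀ hJp]
    linarith
  exact hlow1

theorem asm1_full (hp : 1 ≤ p) (x : A → W → ℝ) (h : A → W → ℝ) (h0 : ∀ a w, 0 ≤ h a w)
    (hH : ∀ a b w, |x a w - x b w| ≤ dd p x a b * (h a w + h b w)) (H : ℝ) (hH0 : 0 < H)
    (hn : ∀ a, nrm p (h a) ≤ H) (N P J q M : ℕ) (hN : 0 < N) (hP : 0 < P) (hJ : 0 < J)
    (hM0 : 0 < M) (Rf k e : ℝ) (hRf : 1 ≤ Rf)
    (hk : (2 * (q:ℝ)) ^ p * (2 / Rf) + 2 / Rf +
      Fintype.card W * Fintype.card A / Rf ^ q ≤ k) (hk1 : k ≤ 1) (he : 0 < e) (he1 : e ≤ 1)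
    (hM : 8 * (1 + 16 * H / N) ^ p * (2 * Rf * (8 * (q + 1) * H * 2 ^ ((P + 1) * N)) ^ p) *
      Real.log (2 * (Fintype.card A : ℝ) ^ 2 + 1) ≤ e ^ 2 * M) :
    ∃ F : A → (Fin P × Fin J × Fin M) → ℝ, ∀ a b,
      ∑ i, |F a i - F b i| ^ p ≤
        ((1 + 16 * H / N) ^ p + J * (k * (1 + 16 * H / N) ^ p + e)) * dd p x a b ^ p ∧
      (∀ z : ℝ, 0 ≤ z → z ≤ 1 - 16 * H / N - 2 * (H * 2 ^ ((P + 1) * N) / 2 ^ (J * P * N)) *
          (Fintype.card W : ℝ) ^ (1 / p) →
        ((1 - 1 / P) * z ^ p - J * (k * (1 + 16 * H / N) ^ p + e)) * dd p x a b ^ p ≤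
          ∑ i, |F a i - F b i| ^ p) ∧
      ∀ z : ℝ, 0 ≤ z → z ≤ 1 - 2 * (H * 2 ^ ((P + 1) * N) / 2 ^ (J * P * N)) *
          (Fintype.card W : ℝ) ^ (1 / p) →
        (z ^ p / J ^ (p - 1) - J * (k * (1 + 16 * H / N) ^ p + e)) * dd p x a b ^ p ≤
          ∑ i, |F a i - F b i| ^ p := by
  classical
  have hp0 : 0 < p := lt_of_lt_of_le one_pos hp
  have hN' : (0:ℝ) < N := by exact_mod_cast hN
  have hP' : (0:ℝ) < P := by exact_mod_cast hP
  have hM' : (0:ℝ) < M := by exact_mod_cast hM0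
  obtain ⟨Y, F, hsumY, hF, hY4, hY5⟩ := asm_pieces hp x h h0 hH H hH0 hn N P J q M hN hP hJ
    hM0 Rf k e hRf hk hk1 he he1 hM
  set T : ℝ := H * 2 ^ ((P + 1) * N) with hT
  have hT0 : 0 ≤ T := by positivity
  set C1 : ℝ := (1 + 16 * H / N) ^ p with hC1
  set D : A → A → ℝ := dd p x with hD
  have hD0 : ∀ a b, 0 ≤ D a b := dd_nonneg p x
  set c : ℝ := (1 / (P * M : ℝ)) ^ (1 / p) with hc
  have hcp : |c| ^ p = 1 / (P * M : ℝ) := by
    rw [abs_of_nonneg (by positivity), hc, ← Real.rpow_mul (by positivity),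
      one_div_mul_cancel hp0.ne', Real.rpow_one]
  refine ⟨fun a i => c * F i.1 i.2.1 a i.2.2, fun a b => ?_⟩
  have hsum : ∑ i : Fin P × Fin J × Fin M, |c * F i.1 i.2.1 a i.2.2 - c * F i.1 i.2.1 b i.2.2| ^ p
      = (1 / P) * ∑ o ∈ Finset.range P, ∑ j ∈ Finset.range J,
        (∑ t, |F o j a t - F o j b t| ^ p) / M := by
    rw [Fintype.sum_prod_type, Finset.mul_sum, ← Fin.sum_univ_eq_sum_range
      (fun o => 1 / (P:ℝ) * ∑ j ∈ Finset.range J, (∑ t, |F o j a t - F o j b t| ^ p) / M)]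
    apply Finset.sum_congr rfl
    intro o _
    rw [Fintype.sum_prod_type, Finset.mul_sum, ← Fin.sum_univ_eq_sum_range
      (fun j => 1 / (P:ℝ) * ((∑ t, |F o j a t - F o j b t| ^ p) / M))]
    apply Finset.sum_congr rfl
    intro j _
    rw [Finset.sum_div, Finset.mul_sum]
    apply Finset.sum_congr rfl
    intro t _
    rw [← mul_sub, abs_mul, Real.mul_rpow (abs_nonneg _) (abs_nonneg _), hcp]
    field_simp
  rw [hsum]
  -- one offset
  have hoff : ∀ o, |∑ j ∈ Finset.range J, (∑ t, |F o j a t - F o j b t| ^ p) / M -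
      ∑ j ∈ Finset.range J, ∑ w, |Y w o j a - Y w o j b| ^ p| ≤
        J * ((k * C1 + e) * D a b ^ p) := by
    intro o
    rw [← Finset.sum_sub_distrib]
    refine (Finset.abs_sum_le_sum_abs _ _).trans ?_
    have h1 : ∑ j ∈ Finset.range J, |(∑ t, |F o j a t - F o j b t| ^ p) / M -
        ∑ w, |Y w o j a - Y w o j b| ^ p| ≤ ∑ _j ∈ Finset.range J, (k * C1 + e) * D a b ^ p :=
      Finset.sum_le_sum fun j hj => hF o j (Finset.mem_range.1 hj) a b
    simpa using h1
  refine ⟨?_, ?_, ?_⟩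
  · -- upper bound
    have h1 : ∀ o ∈ Finset.range P, ∑ j ∈ Finset.range J, (∑ t, |F o j a t - F o j b t| ^ p) / M ≤
        C1 * D a b ^ p + J * ((k * C1 + e) * D a b ^ p) := by
      intro o _
      have h2 := (abs_le.1 (hoff o)).2
      have h3 := hsumY o a b
      linarith
    have h2 := Finset.sum_le_sum h1
    rw [Finset.sum_const, Finset.card_range, nsmul_eq_mul] at h2
    calc (1 / (P:ℝ)) * ∑ o ∈ Finset.range P, ∑ j ∈ Finset.range J,
          (∑ t, |F o j a t - F o j b t| ^ p) / M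
        ≤ (1 / (P:ℝ)) * (P * (C1 * D a b ^ p + J * ((k * C1 + e) * D a b ^ p))) :=
          mul_le_mul_of_nonneg_left h2 (by positivity)
      _ = _ := by field_simp
  · -- lower bound
    intro z hz0 hz
    have hall := asm_lowB hp x h h0 H hH0 hn N P J hN hP Y T hT0 hY5 a b z hz0 hz
    have hlow : ∀ o ∈ Finset.range P, ∑ j ∈ Finset.range J, ∑ w, |Y w o j a - Y w o j b| ^ p -
        J * ((k * C1 + e) * D a b ^ p) ≤
        ∑ j ∈ Finset.range J, (∑ t, |F o j a t - F o j b t| ^ p) / M := by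
      intro o _
      have h2 := (abs_le.1 (hoff o)).1
      linarith
    have h2 := Finset.sum_le_sum hlow
    rw [Finset.sum_sub_distrib, Finset.sum_const, Finset.card_range, nsmul_eq_mul] at h2
    have h3 : (P - 1) * (z ^ p * D a b ^ p) - P * (J * ((k * C1 + e) * D a b ^ p)) ≤
        ∑ o ∈ Finset.range P, ∑ j ∈ Finset.range J,
          (∑ t, |F o j a t - F o j b t| ^ p) / M := by linarith
    calc ((1 - 1 / (P:ℝ)) * z ^ p - J * (k * C1 + e)) * D a b ^ p
        = (1 / (P:ℝ)) * ((P - 1) * (z ^ p * D a b ^ p) - P * (J * ((k * C1 + e) * D a b ^ p))) := by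
          field_simp
      _ ≤ _ := mul_le_mul_of_nonneg_left h3 (by positivity)
  · -- lower bound by the power mean
    intro z hz0 hz
    have hlow1 := asm_lowC hp x N P J hJ Y T hT0 hY4 a b z hz0 hz
    have hlow : ∀ o ∈ Finset.range P, z ^ p / J ^ (p - 1) * D a b ^ p -
        J * ((k * C1 + e) * D a b ^ p) ≤
        ∑ j ∈ Finset.range J, (∑ t, |F o j a t - F o j b t| ^ p) / M := by
      intro o ho
      have h2 := (abs_le.1 (hoff o)).1
      have h3 := hlow1 o ho
      linarith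
    have h2 := Finset.card_nsmul_le_sum _ _ _ hlow
    rw [Finset.card_range, nsmul_eq_mul] at h2
    calc (z ^ p / J ^ (p - 1) - J * (k * C1 + e)) * D a b ^ p
        = (1 / (P:ℝ)) * (P * (z ^ p / J ^ (p - 1) * D a b ^ p -
            J * ((k * C1 + e) * D a b ^ p))) := by
          field_simp
      _ ≤ _ := mul_le_mul_of_nonneg_left h2 (by positivity)

theorem asm1 (hp : 1 ≤ p) (x : A → W → ℝ) (h : A → W → ℝ) (h0 : ∀ a w, 0 ≤ h a w)
    (hH : ∀ a b w, |x a w - x b w| ≤ dd p x a b * (h a w + h b w)) (H : ℝ) (hH0 : 0 < H)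
    (hn : ∀ a, nrm p (h a) ≤ H) (N P J q M : ℕ) (hN : 0 < N) (hP : 0 < P) (hJ : 0 < J)
    (hM0 : 0 < M) (Rf k e : ℝ) (hRf : 1 ≤ Rf)
    (hk : (2 * (q:ℝ)) ^ p * (2 / Rf) + 2 / Rf +
      Fintype.card W * Fintype.card A / Rf ^ q ≤ k) (hk1 : k ≤ 1) (he : 0 < e) (he1 : e ≤ 1)
    (hM : 8 * (1 + 16 * H / N) ^ p * (2 * Rf * (8 * (q + 1) * H * 2 ^ ((P + 1) * N)) ^ p) *
      Real.log (2 * (Fintype.card A : ℝ) ^ 2 + 1) ≤ e ^ 2 * M) :
    ∃ F : A → (Fin P × Fin J × Fin M) → ℝ, ∀ a b,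
      ∑ i, |F a i - F b i| ^ p ≤
        ((1 + 16 * H / N) ^ p + J * (k * (1 + 16 * H / N) ^ p + e)) * dd p x a b ^ p ∧
      ∀ z : ℝ, 0 ≤ z → z ≤ 1 - 16 * H / N - 2 * (H * 2 ^ ((P + 1) * N) / 2 ^ (J * P * N)) *
          (Fintype.card W : ℝ) ^ (1 / p) →
        ((1 - 1 / P) * z ^ p - J * (k * (1 + 16 * H / N) ^ p + e)) * dd p x a b ^ p ≤
          ∑ i, |F a i - F b i| ^ p := by
  obtain ⟨F, hF⟩ := asm1_full hp x h h0 hH H hH0 hn N P J q M hN hP hJ hM0 Rf k e hRf hk hk1
    he he1 hM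
  exact ⟨F, fun a b => ⟨(hF a b).1, (hF a b).2.1⟩⟩

end Assembly

end Vale.Agent.Lib.P249
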