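import Vale.Agent.Lib.P249.Num

/-!
# Choice of parameters without asymptotics (module ASM2 of P249)
-/

open Filter Topology

namespace Vale.Agent.Lib.P249

/-- truncation error -/
theorem num2B (p η H : ℝ) (n w N P K : ℕ) (hp : 1 ≤ p) (hn : 1 ≤ n) (hH : 0 < H) (hη0 : 0 < η)
    (hw : (w : ℝ) ≤ (n : ℝ) ^ 3) (hN : 32 * H / η ≤ N) (hP : 1 ≤ P)
    (hK : 6 * Real.log n ≤ K) :
    2 * (H * 2 ^ ((P + 1) * N) / 2 ^ ((K + 3) * P * N)) * (w : ℝ) ^ (1 / p) ≤ η / 2 := by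
  have hp0 : (0 : ℝ) < p := by linarith
  have hn0 : (0 : ℝ) < n := by exact_mod_cast hn
  have hn1 : (1 : ℝ) ≤ n := by exact_mod_cast hn
  have hN0 : (0 : ℝ) < N := lt_of_lt_of_le (by positivity) hN
  have hN1 : 1 ≤ N := by
    have : 0 < N := by exact_mod_cast hN0
    omega
  have e1 : (P + 1) * N + (N + K) ≤ (K + 3) * P * N := by
    have h1 : N + K ≤ (K + 1) * N := by nlinarith
    have h2 : (P + 1) * N + (K + 1) * N ≤ (K + 3) * P * N := by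
      rw [← Nat.add_mul]
      apply Nat.mul_le_mul_right
      nlinarith
    omega
  have e2 : (2 : ℝ) ^ ((P + 1) * N) * (2 ^ N * 2 ^ K) ≤ 2 ^ ((K + 3) * P * N) := by
    rw [← pow_add, ← pow_add]
    exact pow_le_pow_right₀ (by norm_num) e1
  have e3 : (n : ℝ) ^ 3 ≤ (2 : ℝ) ^ K := by
    have h1 : (2 : ℝ) ^ K = Real.exp (Real.log 2 * (K : ℝ)) := by
      rw [Real.exp_mul, Real.exp_log (by norm_num), Real.rpow_natCast]
    have h2 : (n : ℝ) ^ 3 = Real.exp (3 * Real.log n) := by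
      rw [mul_comm, Real.exp_mul, Real.exp_log hn0]; norm_num
    rw [h1, h2]
    apply Real.exp_le_exp.2
    have h3 := Real.log_two_gt_d9
    have h4 : 0 ≤ Real.log n := Real.log_nonneg hn1
    nlinarith
  have e4 : (w : ℝ) ^ (1 / p) ≤ (n : ℝ) ^ 3 := by
    have h0 : (1 : ℝ) ≤ (n : ℝ) ^ 3 := one_le_pow₀ hn1
    calc (w : ℝ) ^ (1 / p) ≤ ((n : ℝ) ^ 3) ^ (1 / p) :=
          Real.rpow_le_rpow (by positivity) hw (by positivity)
      _ ≤ ((n : ℝ) ^ 3) ^ (1 : ℝ) := by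
          apply Real.rpow_le_rpow_of_exponent_le h0
          rw [div_le_one hp0]; exact hp
      _ = _ := Real.rpow_one _
  have e5 : (N : ℝ) ≤ 2 ^ N := by
    exact_mod_cast (Nat.lt_two_pow_self (n := N)).le
  have e6 : 4 * H / η ≤ 2 ^ N := by
    have : 4 * H / η ≤ 32 * H / η := by
      apply div_le_div_of_nonneg_right _ hη0.le
      linarith
    linarith
  have e7 : 4 * H * (n : ℝ) ^ 3 ≤ η * (2 ^ N * 2 ^ K) := by
    rw [div_le_iff₀ hη0] at e6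
    calc 4 * H * (n : ℝ) ^ 3 ≤ (2 ^ N * η) * 2 ^ K := mul_le_mul e6 e3 (by positivity) (by positivity)
      _ = _ := by ring
  have e8 : 2 * (H * 2 ^ ((P + 1) * N) / 2 ^ ((K + 3) * P * N)) * (n : ℝ) ^ 3 ≤ η / 2 := by
    have hx : (0 : ℝ) < 2 ^ ((K + 3) * P * N) := by positivity
    have h1 : 2 * (H * 2 ^ ((P + 1) * N) / 2 ^ ((K + 3) * P * N)) * (n : ℝ) ^ 3 =
        (4 * H * (n : ℝ) ^ 3) * 2 ^ ((P + 1) * N) / 2 / 2 ^ ((K + 3) * P * N) := by ring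
    rw [h1, div_le_iff₀ hx]
    have h2 : (4 * H * (n : ℝ) ^ 3) * 2 ^ ((P + 1) * N) ≤
        η * (2 ^ N * 2 ^ K) * 2 ^ ((P + 1) * N) := mul_le_mul_of_nonneg_right e7 (by positivity)
    have h3 : η * ((2 : ℝ) ^ ((P + 1) * N) * (2 ^ N * 2 ^ K)) ≤ η * 2 ^ ((K + 3) * P * N) :=
      mul_le_mul_of_nonneg_left e2 hη0.le
    linarith
  refine le_trans ?_ e8
  exact mul_le_mul_of_nonneg_left e4 (by positivity)

/-- the collision error -/
theorem num2C (p η : ℝ) (n w J : ℕ) (hp : 1 ≤ p) (hη0 : 0 < η) (hη1 : η ≤ 1 / 2) (hn : 1 ≤ n)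
    (hw : (w : ℝ) ≤ (n : ℝ) ^ 3) (hJ : 3 + 6 * Real.log n ≤ J) (Rf : ℝ)
    (hRf : Rf = 16 * (2 ^ (p + 1) + 3) * 2 ^ (p + 1) / η * (J : ℝ) ^ (p + 1)) :
    1 ≤ Rf ∧ (2 * (J : ℝ)) ^ p * (2 / Rf) + 2 / Rf + (w : ℝ) * n / Rf ^ J ≤
      η / (2 ^ (p + 1) * J) := by
  have hp0 : (0 : ℝ) < p := by linarith
  have hn0 : (0 : ℝ) < n := by exact_mod_cast hn
  have hn1 : (1 : ℝ) ≤ n := by exact_mod_cast hn
  have hlog : 0 ≤ Real.log n := Real.log_nonneg hn1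
  have hJ3 : (3 : ℝ) ≤ J := by linarith
  have hJ1 : (1 : ℝ) ≤ J := by linarith
  have hJ0 : (0 : ℝ) < J := by linarith
  have h2 : (1 : ℝ) ≤ 2 ^ (p + 1) := Real.one_le_rpow (by norm_num) (by linarith)
  have hJp1 : (1 : ℝ) ≤ (J : ℝ) ^ (p + 1) := Real.one_le_rpow hJ1 (by linarith)
  have hJp : (1 : ℝ) ≤ (J : ℝ) ^ p := Real.one_le_rpow hJ1 (by linarith)
  obtain ⟨g, hg⟩ : ∃ g : ℝ, g = (2 : ℝ) ^ (p + 1) := ⟨_, rfl⟩
  rw [← hg] at h2 hRf ⊢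
  have hη2 : 1 ≤ 1 / η := by rw [le_div_iff₀ hη0]; linarith
  have hR16 : 16 ≤ Rf := by
    rw [hRf]
    have a1 : (1 : ℝ) ≤ (g + 3) * g := by nlinarith
    have a2 : (1 : ℝ) ≤ (g + 3) * g * (1 / η) := by nlinarith
    have a3 : (1 : ℝ) ≤ (g + 3) * g * (1 / η) * (J : ℝ) ^ (p + 1) := by nlinarith
    calc (16 : ℝ) ≤ 16 * ((g + 3) * g * (1 / η) * (J : ℝ) ^ (p + 1)) := by linarith
      _ = _ := by ring
  have hR0 : 0 < Rf := by linarith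
  refine ⟨by linarith, ?_⟩
  have e1 : (w : ℝ) * n / Rf ^ J ≤ 1 / Rf := by
    obtain ⟨j, hj⟩ : ∃ j : ℕ, J = j + 1 := ⟨J - 1, by
      have : 0 < J := by exact_mod_cast hJ0
      omega⟩
    have hj' : 6 * Real.log n ≤ j := by
      have : (J : ℝ) = j + 1 := by rw [hj]; push_cast; ring
      linarith
    have h4 : (w : ℝ) * n ≤ Rf ^ j := by
      have b1 : (w : ℝ) * n ≤ (n : ℝ) ^ 4 := by
        calc (w : ℝ) * n ≤ (n : ℝ) ^ 3 * n := mul_le_mul_of_nonneg_right hw hn0.le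
          _ = _ := by ring
      have b2 : (n : ℝ) ^ 4 = Real.exp (4 * Real.log n) := by
        rw [mul_comm, Real.exp_mul, Real.exp_log hn0]; norm_num
      have b3 : Real.exp (j : ℝ) ≤ Rf ^ j := by
        have : Real.exp (j : ℝ) = Real.exp 1 ^ j := by
          rw [← Real.exp_nat_mul, mul_one]
        rw [this]
        apply pow_le_pow_left₀ (Real.exp_pos _).le
        have := Real.exp_one_lt_d9
        linarith
      have b4 : Real.exp (4 * Real.log n) ≤ Real.exp (j : ℝ) := by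
        apply Real.exp_le_exp.2; linarith
      linarith
    rw [hj, pow_succ, div_le_div_iff₀ (by positivity) hR0]
    have := mul_le_mul_of_nonneg_right h4 hR0.le
    linarith
  have e2 : (2 * (J : ℝ)) ^ p * 2 = g * (J : ℝ) ^ p := by
    rw [Real.mul_rpow (by norm_num) hJ0.le, hg, Real.rpow_add (by norm_num), Real.rpow_one]; ring
  have e3 : (2 * (J : ℝ)) ^ p * (2 / Rf) + 2 / Rf + (w : ℝ) * n / Rf ^ J ≤
      ((g + 3) * (J : ℝ) ^ p) / Rf := by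
    have : (2 * (J : ℝ)) ^ p * (2 / Rf) + 2 / Rf + 1 / Rf = (g * (J : ℝ) ^ p + 3) / Rf := by
      rw [← e2]; ring
    have h5 : (g * (J : ℝ) ^ p + 3) / Rf ≤ ((g + 3) * (J : ℝ) ^ p) / Rf := by
      apply div_le_div_of_nonneg_right _ hR0.le
      nlinarith
    linarith
  refine e3.trans ?_
  rw [div_le_div_iff₀ hR0 (by positivity)]
  have e4 : (J : ℝ) ^ (p + 1) = (J : ℝ) ^ p * J := by
    rw [Real.rpow_add hJ0, Real.rpow_one]
  have e5 : η * Rf = 16 * ((g + 3) * (J : ℝ) ^ p * (g * J)) := by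
    rw [hRf, e4]; field_simp
  rw [e5]
  have e6 : 0 ≤ (g + 3) * (J : ℝ) ^ p * (g * J) := by positivity
  linarith

/-- the number of samples -/
theorem num2D (p η H G : ℝ) (n N P J : ℕ) (hp : 1 ≤ p) (hη0 : 0 < η)
    (hn : 1 ≤ n) (hH : 1 ≤ H) (hN : (N : ℝ) ≤ 32 * H / η + 1) (hG0 : 0 ≤ G) (hG1 : G ≤ 1)
    (hJ1 : 1 ≤ J) (hJ : (J : ℝ) ≤ 6 * (1 + Real.log n)) (Rf : ℝ)
    (hRf : Rf = 16 * (2 ^ (p + 1) + 3) * 2 ^ (p + 1) / η * (J : ℝ) ^ (p + 1)) :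
    8 * (1 + G) ^ p * (2 * Rf * (8 * ((J : ℝ) + 1) * H * 2 ^ ((P + 1) * N)) ^ p) *
        Real.log (2 * (n : ℝ) ^ 2 + 1) / (η / (2 * J)) ^ 2 ≤
      (8 * 2 ^ p * (2 * (16 * (2 ^ (p + 1) + 3) * 2 ^ (p + 1) / η)) * (16 : ℝ) ^ p * 2 *
        (4 / η ^ 2) * 6 ^ (2 * p + 3)) * (1 + Real.log n) ^ (2 * p + 4) *
        Real.exp ((p + ((P : ℝ) + 1) * p * (32 / η + 1)) * H) := by
  have hp0 : (0 : ℝ) < p := by linarith
  have hn0 : (0 : ℝ) < n := by exact_mod_cast hn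
  have hn1 : (1 : ℝ) ≤ n := by exact_mod_cast hn
  have hlog : 0 ≤ Real.log n := Real.log_nonneg hn1
  have hJ1' : (1 : ℝ) ≤ J := by exact_mod_cast hJ1
  have hJ0 : (0 : ℝ) < J := by linarith
  obtain ⟨T, hT⟩ : ∃ T : ℝ, T = 1 + Real.log n := ⟨_, rfl⟩
  have hT1 : 1 ≤ T := by linarith
  have hT0 : 0 < T := by linarith
  have e1 : Real.log (2 * (n : ℝ) ^ 2 + 1) ≤ 2 * T := by
    have h1 : 2 * (n : ℝ) ^ 2 + 1 ≤ Real.exp (2 * T) := by
      have : (2 : ℝ) * T = 2 * Real.log n + 2 := by rw [hT]; ring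
      rw [this, Real.exp_add]
      have h2 : Real.exp (2 * Real.log n) = (n : ℝ) ^ 2 := by
        rw [mul_comm, Real.exp_mul, Real.exp_log hn0]; norm_num
      have h3 : (3 : ℝ) ≤ Real.exp 2 := by
        have := Real.add_one_le_exp (2 : ℝ)
        linarith
      rw [h2]
      nlinarith [one_le_pow₀ (n := 2) hn1]
    calc Real.log (2 * (n : ℝ) ^ 2 + 1) ≤ Real.log (Real.exp (2 * T)) :=
          Real.log_le_log (by positivity) h1
      _ = _ := Real.log_exp _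
  have e1' : 0 ≤ Real.log (2 * (n : ℝ) ^ 2 + 1) := Real.log_nonneg (by nlinarith [sq_nonneg (n : ℝ)])
  have e2 : ((2 : ℝ) ^ ((P + 1) * N)) ^ p ≤ Real.exp (((P : ℝ) + 1) * p * (32 / η + 1) * H) := by
    have h1 : (2 : ℝ) ^ ((P + 1) * N) ≤ Real.exp (((P : ℝ) + 1) * ((32 / η + 1) * H)) := by
      calc (2 : ℝ) ^ ((P + 1) * N) ≤ (Real.exp 1) ^ ((P + 1) * N) := by
            apply pow_le_pow_left₀ (by norm_num)
            have := Real.add_one_le_exp (1 : ℝ)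
            linarith
        _ = Real.exp ((((P + 1) * N : ℕ) : ℝ) * 1) := (Real.exp_nat_mul _ _).symm
        _ ≤ _ := by
            apply Real.exp_le_exp.2
            push_cast
            rw [mul_one]
            apply mul_le_mul_of_nonneg_left _ (by positivity)
            have : 32 * H / η + 1 ≤ (32 / η + 1) * H := by
              have : (32 / η + 1) * H = 32 * H / η + H := by ring
              linarith
            linarith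
    calc ((2 : ℝ) ^ ((P + 1) * N)) ^ p ≤ (Real.exp (((P : ℝ) + 1) * ((32 / η + 1) * H))) ^ p :=
          Real.rpow_le_rpow (by positivity) h1 hp0.le
      _ = Real.exp ((((P : ℝ) + 1) * ((32 / η + 1) * H)) * p) := by rw [← Real.exp_mul]
      _ = _ := by congr 1; ring
  have e3 : H ^ p ≤ Real.exp (p * H) := by
    have : H ≤ Real.exp H := by
      have := Real.add_one_le_exp H
      linarith
    calc H ^ p ≤ (Real.exp H) ^ p := Real.rpow_le_rpow (by linarith) this hp0.le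
      _ = Real.exp (H * p) := by rw [← Real.exp_mul]
      _ = _ := by rw [mul_comm]
  have e4 : (8 * ((J : ℝ) + 1) * H * 2 ^ ((P + 1) * N)) ^ p ≤
      (16 : ℝ) ^ p * (J : ℝ) ^ p * Real.exp ((p + ((P : ℝ) + 1) * p * (32 / η + 1)) * H) := by
    have h1 : 8 * ((J : ℝ) + 1) * H * 2 ^ ((P + 1) * N) ≤ 16 * J * H * 2 ^ ((P + 1) * N) := by
      apply mul_le_mul_of_nonneg_right _ (by positivity)
      apply mul_le_mul_of_nonneg_right _ (by linarith)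
      linarith
    have h2 : (16 * (J : ℝ) * H * 2 ^ ((P + 1) * N)) ^ p =
        (16 : ℝ) ^ p * (J : ℝ) ^ p * (H ^ p * ((2 : ℝ) ^ ((P + 1) * N)) ^ p) := by
      rw [Real.mul_rpow (by positivity) (by positivity), Real.mul_rpow (by positivity) (by positivity),
        Real.mul_rpow (by positivity) (by positivity)]
      ring
    have h3 : H ^ p * ((2 : ℝ) ^ ((P + 1) * N)) ^ p ≤
        Real.exp ((p + ((P : ℝ) + 1) * p * (32 / η + 1)) * H) := by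
      rw [add_mul p _ H, Real.exp_add]
      exact mul_le_mul e3 e2 (by positivity) (Real.exp_pos _).le
    calc _ ≤ (16 * (J : ℝ) * H * 2 ^ ((P + 1) * N)) ^ p :=
          Real.rpow_le_rpow (by positivity) h1 hp0.le
      _ = _ := h2
      _ ≤ _ := mul_le_mul_of_nonneg_left h3 (by positivity)
  have e5 : (1 + G) ^ p ≤ 2 ^ p := Real.rpow_le_rpow (by linarith) (by linarith) hp0.le
  obtain ⟨E, hE⟩ : ∃ E : ℝ, E = Real.exp ((p + ((P : ℝ) + 1) * p * (32 / η + 1)) * H) := ⟨_, rfl⟩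
  have hE0 : 0 < E := by rw [hE]; exact Real.exp_pos _
  rw [← hE] at e4 ⊢
  rw [← hT] at hJ ⊢
  obtain ⟨c, hc⟩ : ∃ c : ℝ, c = 16 * ((2:ℝ) ^ (p + 1) + 3) * 2 ^ (p + 1) / η := ⟨_, rfl⟩
  have hc0 : 0 < c := by rw [hc]; positivity
  rw [← hc] at hRf ⊢
  obtain ⟨Z, hZ⟩ : ∃ Z : ℝ, Z = (8 * ((J : ℝ) + 1) * H * 2 ^ ((P + 1) * N)) ^ p := ⟨_, rfl⟩
  have hZ0 : 0 ≤ Z := by rw [hZ]; positivity
  rw [← hZ] at e4 ⊢
  obtain ⟨Lg, hLg⟩ : ∃ Lg : ℝ, Lg = Real.log (2 * (n : ℝ) ^ 2 + 1) := ⟨_, rfl⟩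
  rw [← hLg] at e1 e1' ⊢
  have e6 : (J : ℝ) ^ (2 * p + 3) ≤ 6 ^ (2 * p + 3) * T ^ (2 * p + 3) := by
    rw [← Real.mul_rpow (by norm_num) hT0.le]
    exact Real.rpow_le_rpow hJ0.le hJ (by linarith)
  have e7 : (J : ℝ) ^ (2 * p + 3) = (J : ℝ) ^ (p + 1) * (J : ℝ) ^ p * (J : ℝ) ^ 2 := by
    rw [← Real.rpow_natCast, ← Real.rpow_add hJ0, ← Real.rpow_add hJ0]
    congr 1
    push_cast
    ring
  have e8 : T ^ (2 * p + 4) = T ^ (2 * p + 3) * T := by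
    rw [← Real.rpow_add_one hT0.ne']
    congr 1
    ring
  have e9 : 8 * (1 + G) ^ p * (2 * Rf * Z) * Lg / (η / (2 * J)) ^ 2 =
      (8 * (1 + G) ^ p * (2 * Rf) * (4 / η ^ 2) * (J : ℝ) ^ 2) * (Z * Lg) := by
    field_simp
    ring
  have e10 : Z * Lg ≤ (16 : ℝ) ^ p * (J : ℝ) ^ p * E * (2 * T) :=
    mul_le_mul e4 e1 e1' (by positivity)
  have e11 : 8 * (1 + G) ^ p * (2 * Rf) * (4 / η ^ 2) * (J : ℝ) ^ 2 ≤
      8 * 2 ^ p * (2 * Rf) * (4 / η ^ 2) * (J : ℝ) ^ 2 := by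
    have hR0 : 0 ≤ Rf := by rw [hRf]; positivity
    apply mul_le_mul_of_nonneg_right _ (by positivity)
    apply mul_le_mul_of_nonneg_right _ (by positivity)
    apply mul_le_mul_of_nonneg_right _ (by positivity)
    linarith
  have hR0 : 0 ≤ Rf := by rw [hRf]; positivity
  rw [e9]
  calc (8 * (1 + G) ^ p * (2 * Rf) * (4 / η ^ 2) * (J : ℝ) ^ 2) * (Z * Lg)
      ≤ (8 * 2 ^ p * (2 * Rf) * (4 / η ^ 2) * (J : ℝ) ^ 2) *
        ((16 : ℝ) ^ p * (J : ℝ) ^ p * E * (2 * T)) :=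
        mul_le_mul e11 e10 (by positivity) (by positivity)
    _ = (8 * 2 ^ p * (2 * c) * (16 : ℝ) ^ p * 2 * (4 / η ^ 2)) * (J : ℝ) ^ (2 * p + 3) * T * E := by
        rw [e7, hRf]; ring
    _ ≤ (8 * 2 ^ p * (2 * c) * (16 : ℝ) ^ p * 2 * (4 / η ^ 2)) *
        (6 ^ (2 * p + 3) * T ^ (2 * p + 3)) * T * E := by
        apply mul_le_mul_of_nonneg_right _ hE0.le
        apply mul_le_mul_of_nonneg_right _ hT0.le
        exact mul_le_mul_of_nonneg_left e6 (by positivity)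
    _ = _ := by rw [e8]; ring

/-- the number of samples, as a natural number -/
theorem num2M (p η H G : ℝ) (n N P J : ℕ) (hp : 1 ≤ p) (hη0 : 0 < η)
    (hn : 1 ≤ n) (hH : 1 ≤ H) (hN : (N : ℝ) ≤ 32 * H / η + 1) (hG0 : 0 ≤ G) (hG1 : G ≤ 1)
    (hJ1 : 1 ≤ J) (hJ : (J : ℝ) ≤ 6 * (1 + Real.log n)) (Rf c K : ℝ)
    (hRf : Rf = 16 * (2 ^ (p + 1) + 3) * 2 ^ (p + 1) / η * (J : ℝ) ^ (p + 1))
    (hc : c = 8 * 2 ^ p * (2 * (16 * (2 ^ (p + 1) + 3) * 2 ^ (p + 1) / η)) * (16 : ℝ) ^ p * 2 *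
        (4 / η ^ 2) * 6 ^ (2 * p + 3))
    (hK : K = 6 * P * (c + 1) + (2 * p + 5) + (p + ((P : ℝ) + 1) * p * (32 / η + 1))) :
    ∃ M : ℕ, 0 < M ∧
      8 * (1 + G) ^ p * (2 * Rf * (8 * ((J : ℝ) + 1) * H * 2 ^ ((P + 1) * N)) ^ p) *
        Real.log (2 * (n : ℝ) ^ 2 + 1) ≤ (η / (2 * J)) ^ 2 * M ∧
      ((P * J * M : ℕ) : ℝ) ≤ K * (1 + Real.log n) ^ K * Real.exp (K * H) := by
  have hp0 : (0 : ℝ) < p := by linarith
  have hn0 : (0 : ℝ) < n := by exact_mod_cast hn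
  have hn1 : (1 : ℝ) ≤ n := by exact_mod_cast hn
  have hlog : 0 ≤ Real.log n := Real.log_nonneg hn1
  have hJ1' : (1 : ℝ) ≤ J := by exact_mod_cast hJ1
  have hJ0 : (0 : ℝ) < J := by linarith
  have hR0 : 0 < Rf := by rw [hRf]; positivity
  have hD := num2D p η H G n N P J hp hη0 hn hH hN hG0 hG1 hJ1 hJ Rf hRf
  rw [← hc] at hD
  have hc0 : 0 < c := by rw [hc]; positivity
  obtain ⟨X, hX⟩ : ∃ X : ℝ, X = 8 * (1 + G) ^ p *
    (2 * Rf * (8 * ((J : ℝ) + 1) * H * 2 ^ ((P + 1) * N)) ^ p) *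
        Real.log (2 * (n : ℝ) ^ 2 + 1) / (η / (2 * J)) ^ 2 := ⟨_, rfl⟩
  rw [← hX] at hD
  have hlogpos : 0 < Real.log (2 * (n : ℝ) ^ 2 + 1) :=
    Real.log_pos (by nlinarith [sq_nonneg (n : ℝ), hn0])
  have hX0 : 0 < X := by rw [hX]; positivity
  have hXe : 8 * (1 + G) ^ p * (2 * Rf * (8 * ((J : ℝ) + 1) * H * 2 ^ ((P + 1) * N)) ^ p) *
        Real.log (2 * (n : ℝ) ^ 2 + 1) = (η / (2 * J)) ^ 2 * X := by
    rw [hX, mul_div_cancel₀ _ (by positivity)]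
  rw [hXe]
  clear hXe hX
  refine ⟨⌈X⌉₊, Nat.ceil_pos.2 hX0, mul_le_mul_of_nonneg_left (Nat.le_ceil _) (by positivity), ?_⟩
  have hM2 : ((⌈X⌉₊ : ℕ) : ℝ) ≤ X + 1 := (Nat.ceil_lt_add_one hX0.le).le
  push_cast
  obtain ⟨T, hT⟩ : ∃ T : ℝ, T = 1 + Real.log n := ⟨_, rfl⟩
  rw [← hT] at hJ hD ⊢
  have hT1 : 1 ≤ T := by linarith
  have hT0 : 0 < T := by linarith
  obtain ⟨c4, hc4⟩ : ∃ c4 : ℝ, c4 = p + ((P : ℝ) + 1) * p * (32 / η + 1) := ⟨_, rfl⟩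
  have hc40 : 0 < c4 := by rw [hc4]; positivity
  rw [← hc4] at hD hK
  have hE1 : 1 ≤ Real.exp (c4 * H) := Real.one_le_exp (by positivity)
  have hTp : 1 ≤ T ^ (2 * p + 4) := Real.one_le_rpow hT1 (by linarith)
  have h1 : ((⌈X⌉₊ : ℕ) : ℝ) ≤ (c + 1) * T ^ (2 * p + 4) * Real.exp (c4 * H) := by
    have : 1 ≤ T ^ (2 * p + 4) * Real.exp (c4 * H) := by nlinarith
    nlinarith
  have h2 : T ^ (2 * p + 5) = T ^ (2 * p + 4) * T := by
    rw [← Real.rpow_add_one hT0.ne']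
    congr 1
    ring
  have hKc : 6 * P * (c + 1) ≤ K := by rw [hK]; linarith
  have hKp : 2 * p + 5 ≤ K := by rw [hK]; have : 0 ≤ 6 * P * (c + 1) := by positivity
                                 linarith
  have hK4 : c4 ≤ K := by rw [hK]; have : 0 ≤ 6 * P * (c + 1) := by positivity
                          linarith
  have hK0 : 0 < K := by linarith
  calc (P : ℝ) * J * (⌈X⌉₊ : ℕ) ≤ (P : ℝ) * (6 * T) * ((c + 1) * T ^ (2 * p + 4) * Real.exp (c4 * H)) := by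
        apply mul_le_mul _ h1 (by positivity) (by positivity)
        exact mul_le_mul_of_nonneg_left hJ (by positivity)
    _ = (6 * P * (c + 1)) * T ^ (2 * p + 5) * Real.exp (c4 * H) := by rw [h2]; ring
    _ ≤ K * T ^ K * Real.exp (K * H) := by
        apply mul_le_mul _ _ (Real.exp_pos _).le (by positivity)
        · apply mul_le_mul hKc _ (by positivity) hK0.le
          exact Real.rpow_le_rpow_of_exponent_le hT1 hKp
        · apply Real.exp_le_exp.2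
          exact mul_le_mul_of_nonneg_right hK4 (by linarith)

/-- **Choice of the parameters, without asymptotics.** -/
theorem num2 (p D : ℝ) (hp : 1 ≤ p) (hD : 1 < D) :
    ∃ (K : ℝ) (P : ℕ), 0 < K ∧ 0 < P ∧ ∀ (n w : ℕ) (H : ℝ), 1 ≤ n → (w : ℝ) ≤ (n : ℝ) ^ 3 →
      1 ≤ H →
      ∃ (N J q M : ℕ) (Rf k e z : ℝ), 0 < N ∧ 0 < J ∧ 0 < M ∧ 1 ≤ Rf ∧
        (2 * (q : ℝ)) ^ p * (2 / Rf) + 2 / Rf + (w : ℝ) * n / Rf ^ q ≤ k ∧ k ≤ 1 ∧
        0 < e ∧ e ≤ 1 ∧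
        8 * (1 + 16 * H / N) ^ p * (2 * Rf * (8 * ((q : ℝ) + 1) * H * 2 ^ ((P + 1) * N)) ^ p) *
          Real.log (2 * (n : ℝ) ^ 2 + 1) ≤ e ^ 2 * M ∧
        ((P * J * M : ℕ) : ℝ) ≤ K * (1 + Real.log n) ^ K * Real.exp (K * H) ∧
        0 ≤ z ∧
        z ≤ 1 - 16 * H / N - 2 * (H * 2 ^ ((P + 1) * N) / 2 ^ (J * P * N)) * (w : ℝ) ^ (1 / p) ∧
        0 < (1 - 1 / (P : ℝ)) * z ^ p - J * (k * (1 + 16 * H / N) ^ p + e) ∧
        (1 + 16 * H / N) ^ p + J * (k * (1 + 16 * H / N) ^ p + e) ≤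
          D * ((1 - 1 / (P : ℝ)) * z ^ p - J * (k * (1 + 16 * H / N) ^ p + e)) := by
  have hp0 : (0 : ℝ) < p := by linarith
  have hD' : 1 < D ^ (1 / p) := Real.one_lt_rpow hD (by positivity)
  have hDp : (D ^ (1 / p)) ^ p = D := by
    rw [← Real.rpow_mul (by linarith), one_div_mul_cancel hp0.ne', Real.rpow_one]
  obtain ⟨η, hη0, hη1, hη⟩ := eta_exists p (D ^ (1 / p)) hp hD'
  obtain ⟨P, hPdef⟩ : ∃ P : ℕ, P = ⌈1 / η⌉₊ := ⟨_, rfl⟩
  have hPη : 1 / η ≤ P := by rw [hPdef]; exact Nat.le_ceil _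
  have hP0 : 0 < P := by rw [hPdef]; exact Nat.ceil_pos.2 (by positivity)
  have hP0' : (0 : ℝ) < P := by exact_mod_cast hP0
  have hPinv : 1 / (P : ℝ) ≤ η := by
    rw [div_le_iff₀ hP0']
    rw [div_le_iff₀ hη0] at hPη
    linarith
  obtain ⟨c, hc⟩ : ∃ c : ℝ, c = 8 * 2 ^ p * (2 * (16 * (2 ^ (p + 1) + 3) * 2 ^ (p + 1) / η)) *
    (16 : ℝ) ^ p * 2 * (4 / η ^ 2) * 6 ^ (2 * p + 3) := ⟨_, rfl⟩
  have hc0 : 0 < c := by rw [hc]; positivity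
  obtain ⟨K, hK⟩ : ∃ K : ℝ, K = 6 * P * (c + 1) + (2 * p + 5) +
    (p + ((P : ℝ) + 1) * p * (32 / η + 1)) := ⟨_, rfl⟩
  have hK0 : 0 < K := by rw [hK]; positivity
  refine ⟨K, P, hK0, hP0, fun n w H hn hw hH => ?_⟩
  have hn0 : (0 : ℝ) < n := by exact_mod_cast hn
  have hn1 : (1 : ℝ) ≤ n := by exact_mod_cast hn
  have hlog : 0 ≤ Real.log n := Real.log_nonneg hn1
  have hH0 : 0 < H := by linarith
  obtain ⟨N, hNdef⟩ : ∃ N : ℕ, N = ⌈32 * H / η⌉₊ := ⟨_, rfl⟩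
  have hN1 : 32 * H / η ≤ N := by rw [hNdef]; exact Nat.le_ceil _
  have hN2 : (N : ℝ) ≤ 32 * H / η + 1 := by
    rw [hNdef]; exact (Nat.ceil_lt_add_one (by positivity)).le
  have hN0 : 0 < N := by rw [hNdef]; exact Nat.ceil_pos.2 (by positivity)
  have hN0' : (0 : ℝ) < N := by exact_mod_cast hN0
  obtain ⟨K2, hK2def⟩ : ∃ K2 : ℕ, K2 = ⌈6 * Real.log n⌉₊ := ⟨_, rfl⟩
  have hK21 : 6 * Real.log n ≤ K2 := by rw [hK2def]; exact Nat.le_ceil _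
  have hK22 : (K2 : ℝ) ≤ 6 * Real.log n + 1 := by
    rw [hK2def]; exact (Nat.ceil_lt_add_one (by positivity)).le
  obtain ⟨J, hJdef⟩ : ∃ J : ℕ, J = K2 + 3 := ⟨_, rfl⟩
  have hJr : (J : ℝ) = K2 + 3 := by rw [hJdef]; push_cast; ring
  have hJ1 : 1 ≤ J := by omega
  have hJ3 : 3 + 6 * Real.log n ≤ J := by linarith
  have hJ6 : (J : ℝ) ≤ 6 * (1 + Real.log n) := by linarith
  have hJ0 : (0 : ℝ) < J := by exact_mod_cast hJ1
  obtain ⟨G, hGdef⟩ : ∃ G : ℝ, G = 16 * H / N := ⟨_, rfl⟩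
  have hG0 : 0 ≤ G := by rw [hGdef]; positivity
  have hGη : G ≤ η / 2 := by
    rw [hGdef, div_le_iff₀ hN0']
    rw [div_le_iff₀ hη0] at hN1
    linarith
  have hG1 : G ≤ 1 := by linarith
  have hB := num2B p η H n w N P K2 hp hn hH0 hη0 hw hN1 hP0 hK21
  rw [← hJdef] at hB
  obtain ⟨Rf, hRf⟩ : ∃ Rf : ℝ,
    Rf = 16 * (2 ^ (p + 1) + 3) * 2 ^ (p + 1) / η * (J : ℝ) ^ (p + 1) := ⟨_, rfl⟩
  obtain ⟨hRf1, hC⟩ := num2C p η n w J hp hη0 hη1 hn hw hJ3 Rf hRf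
  obtain ⟨M, hM0, hM1, hM2⟩ := num2M p η H G n N P J hp hη0 hn hH hN2 hG0 hG1 hJ1 hJ6 Rf c K hRf hc hK
  obtain ⟨k, hk⟩ : ∃ k : ℝ, k = η / (2 ^ (p + 1) * J) := ⟨_, rfl⟩
  rw [← hk] at hC
  have h2p : (1 : ℝ) ≤ 2 ^ (p + 1) := Real.one_le_rpow (by norm_num) (by linarith)
  have hk0 : 0 < k := by rw [hk]; positivity
  have hJ1' : (1 : ℝ) ≤ J := by exact_mod_cast hJ1
  have hk1 : k ≤ 1 := by
    rw [hk, div_le_one (by positivity)]
    nlinarith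
  have he0 : 0 < η / (2 * (J : ℝ)) := by positivity
  have he1 : η / (2 * (J : ℝ)) ≤ 1 := by
    rw [div_le_one (by positivity)]
    linarith
  have hJk : (J : ℝ) * (k * 2 ^ p) = η / 2 := by
    rw [hk, Real.rpow_add (by norm_num), Real.rpow_one]
    field_simp
  have hJe : (J : ℝ) * (η / (2 * (J : ℝ))) = η / 2 := by
    field_simp
  have herr : (J : ℝ) * (k * (1 + G) ^ p + η / (2 * (J : ℝ))) ≤ η := by
    have hpow2 : (1 + G) ^ p ≤ 2 ^ p := Real.rpow_le_rpow (by linarith) (by linarith) hp0.le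
    have b1 : (J : ℝ) * (k * (1 + G) ^ p) ≤ (J : ℝ) * (k * 2 ^ p) :=
      mul_le_mul_of_nonneg_left (mul_le_mul_of_nonneg_left hpow2 hk0.le) hJ0.le
    rw [mul_add, hJe]
    linarith
  obtain ⟨hmain, hlo⟩ := numF p (D ^ (1 / p)) η G ((J : ℝ) * (k * (1 + G) ^ p + η / (2 * (J : ℝ))))
    (1 / (P : ℝ)) hp hη0 hη1 hD' hη hG0 hGη (by positivity) herr hPinv
  rw [hDp] at hmain
  refine ⟨N, J, J, M, Rf, k, η / (2 * (J : ℝ)), 1 - η, hN0, hJ1, hM0, hRf1, hC, hk1, he0, he1,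
    ?_, hM2, by linarith, ?_, ?_, ?_⟩
  · rw [← hGdef]; exact hM1
  · rw [← hGdef]; linarith
  · rw [← hGdef]; exact hlo
  · rw [← hGdef]; exact hmain

end Vale.Agent.Lib.P249
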