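import Vale.Agent.Lib.P249.Asm1
import Vale.Agent.Lib.P249.Num2

/-!
# The embedding with all parameters chosen (module ASM2 of P249)
-/

open Finset

namespace Vale.Agent.Lib.P249

/-- **ASM2**: a finite family with a Hajlasz gradient of norm at most `H` embeds into `m`
coordinates with `p`-th power distortion `D`, where `m ≤ K (1 + log n)^K exp(K H)`. -/
theorem asm2 {p D : ℝ} (hp : 1 ≤ p) (hD : 1 < D) : ∃ K : ℝ, 0 < K ∧
    ∀ (A W : Type) [Fintype A] [Nonempty A] [Fintype W] (x h : A → W → ℝ) (H : ℝ), 1 ≤ H →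
      (∀ a w, 0 ≤ h a w) → (∀ a b w, |x a w - x b w| ≤ dd p x a b * (h a w + h b w)) →
      (∀ a, nrm p (h a) ≤ H) → (Fintype.card W : ℝ) ≤ (Fintype.card A : ℝ) ^ 3 →
      ∃ m : ℕ, (m : ℝ) ≤ K * (1 + Real.log (Fintype.card A)) ^ K * Real.exp (K * H) ∧
        ∃ s : ℝ, 0 < s ∧ ∃ F : A → Fin m → ℝ, ∀ a b,
          s * dd p x a b ^ p ≤ ∑ i, |F a i - F b i| ^ p ∧
          ∑ i, |F a i - F b i| ^ p ≤ D * s * dd p x a b ^ p := by
  obtain ⟨K, P, hK, hP, hnum⟩ := num2 p D hp hD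
  refine ⟨K, hK, fun A W _ _ _ x h H hH h0 hx hn hw => ?_⟩
  obtain ⟨N, J, q, M, Rf, k, e, z, hN, hJ, hM, hRf, hk, hk1, he, he1, hbig, hsize, hz0, hz, hlo,
    hup⟩ := hnum (Fintype.card A) (Fintype.card W) H Fintype.card_pos hw hH
  obtain ⟨F, hF⟩ := asm1 hp x h h0 hx H (by linarith) hn N P J q M hN hP hJ hM Rf k e hRf hk hk1
    he he1 hbig
  have hcard : Fintype.card (Fin P × Fin J × Fin M) = P * J * M := by
    simp only [Fintype.card_prod, Fintype.card_fin]; ring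
  let g : Fin (P * J * M) ≃ (Fin P × Fin J × Fin M) := (Fintype.equivFinOfCardEq hcard).symm
  refine ⟨P * J * M, hsize, _, hlo, fun a i => F a (g i), fun a b => ?_⟩
  have hsum : ∑ i : Fin (P * J * M), |F a (g i) - F b (g i)| ^ p = ∑ j, |F a j - F b j| ^ p :=
    Equiv.sum_comp g (fun j => |F a j - F b j| ^ p)
  have hdd : 0 ≤ dd p x a b ^ p := Real.rpow_nonneg (dd_nonneg p x a b) _
  rw [hsum]
  refine ⟨(hF a b).2 z hz0 hz, (hF a b).1.trans ?_⟩
  exact mul_le_mul_of_nonneg_right hup hdd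

end Vale.Agent.Lib.P249
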