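import Vale.Agent.Lib.P249.HG

/-!
# Combination of the scales  (module T2COMB of P249)
-/

namespace Vale.Agent.Lib.P249

open Finset

section Comb

variable {A W : Type*} [Fintype A] [Fintype W] {p : ℝ}

/-- Comparison of the mean displacements of two points. -/
theorem sc_compare [Nonempty A] (hp : 1 ≤ p) (x : A → W → ℝ) {s : ℝ} (hs : 0 ≤ s) (a b : A)
    (hab : dd p x a b * s ≤ 1) :
    sc (dd p x a) s ≤ Real.exp 2 * (sc (dd p x b) s + 1) := by
  have hcomp : ∀ c, mu (dd p x a) s c ≤ Real.exp 2 * mu (dd p x b) s c := by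
    apply mu_compare _ _ hs
    intro c
    refine le_trans (mul_le_mul_of_nonneg_right ?_ hs) hab
    rw [abs_le]
    constructor
    · have := dd_tri hp x b a c
      rw [dd_comm p x b a] at this
      linarith
    · have := dd_tri hp x a b c
      linarith
  have h1 : ∑ c, mu (dd p x a) s c * dd p x a c ≤
      Real.exp 2 * (∑ c, mu (dd p x b) s c * dd p x b c + dd p x a b) := by
    have h2 : ∑ c, mu (dd p x b) s c * dd p x b c + dd p x a b =
        ∑ c, mu (dd p x b) s c * (dd p x b c + dd p x a b) := by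
      have h3 : ∑ c, mu (dd p x b) s c * dd p x a b = dd p x a b := by
        rw [← Finset.sum_mul, mu_sum, one_mul]
      rw [← h3, ← Finset.sum_add_distrib]
      apply Finset.sum_congr rfl
      intro c _
      rw [h3]
      ring
    rw [h2, Finset.mul_sum]
    apply Finset.sum_le_sum
    intro c _
    have h4 : dd p x a c ≤ dd p x b c + dd p x a b := by
      have := dd_tri hp x a b c
      linarith
    calc mu (dd p x a) s c * dd p x a c
        ≤ (Real.exp 2 * mu (dd p x b) s c) * (dd p x b c + dd p x a b) :=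
          mul_le_mul (hcomp c) h4 (dd_nonneg p x a c)
            (mul_nonneg (Real.exp_pos _).le (mu_pos _ _ _).le)
      _ = _ := by ring
  have h5 := mul_le_mul_of_nonneg_left h1 hs
  unfold sc
  have h6 : s * (Real.exp 2 * (∑ c, mu (dd p x b) s c * dd p x b c + dd p x a b)) =
      Real.exp 2 * (s * (∑ c, mu (dd p x b) s c * dd p x b c) + dd p x a b * s) := by ring
  rw [h6] at h5
  have h7 : Real.exp 2 * (s * (∑ c, mu (dd p x b) s c * dd p x b c) + dd p x a b * s) ≤
      Real.exp 2 * (s * (∑ c, mu (dd p x b) s c * dd p x b c) + 1) :=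
    mul_le_mul_of_nonneg_left (by linarith) (Real.exp_pos _).le
  linarith

/-- The `l_p` sum of finitely many functions. -/
theorem nrm_lpsum {I : Type*} (hp : 0 < p) (S : Finset I) (f : I → W → ℝ)
    (hf : ∀ i w, 0 ≤ f i w) :
    nrm p (fun w => (∑ i ∈ S, f i w ^ p) ^ (1 / p)) = (∑ i ∈ S, nrm p (f i) ^ p) ^ (1 / p) := by
  have h1 : nrm p (fun w => (∑ i ∈ S, f i w ^ p) ^ (1 / p)) =
      (∑ w, ∑ i ∈ S, f i w ^ p) ^ (1 / p) := by
    unfold nrm
    congr 1
    apply Finset.sum_congr rfl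
    intro w _
    have h0 : 0 ≤ ∑ i ∈ S, f i w ^ p :=
      Finset.sum_nonneg fun i _ => Real.rpow_nonneg (hf i w) _
    rw [abs_of_nonneg (Real.rpow_nonneg h0 _), ← Real.rpow_mul h0, one_div_mul_cancel hp.ne',
      Real.rpow_one]
  rw [h1, Finset.sum_comm]
  congr 1
  apply Finset.sum_congr rfl
  intro i _
  rw [nrm_rpow hp]
  apply Finset.sum_congr rfl
  intro w _
  rw [abs_of_nonneg (hf i w)]

/-- Combination of the scales, for one family. -/
theorem comb_core [Nonempty A] (hp : 1 < p) (x : A → W → ℝ) (K : ℝ)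
    (hT2 : ∀ s : ℝ, 0 < s → ∃ h : A → W → ℝ, (∀ a w, 0 ≤ h a w) ∧
      (∀ a b w, dd p x a b * s ≤ 1 → s * |x a w - x b w| ≤ h a w + h b w) ∧
      ∀ a, nrm p (h a) ≤ K) (t : ℝ) (ht : 2 * Real.exp 2 ≤ t) :
    ∃ h : A → W → ℝ, (∀ a w, 0 ≤ h a w) ∧
      (∀ a b w, |x a w - x b w| ≤ dd p x a b * (h a w + h b w)) ∧
      ∀ a, nrm p (h a) ≤
        2 * Real.exp 2 * (t ^ (p - 1) * (2 * Real.log (Fintype.card A))) ^ (1 / p) +
        2 * (4 * Real.exp 2 * Real.log (Fintype.card A) / t * K) := by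
  classical
  have hp0 : 0 < p := lt_trans one_pos hp
  have hp1 : 1 ≤ p := hp.le
  have he : 0 < Real.exp 2 := Real.exp_pos _
  have he1 : 1 ≤ Real.exp 2 := Real.one_le_exp (by norm_num)
  have ht0 : 0 < t := lt_of_lt_of_le (by positivity) ht
  obtain ⟨s, M, hs, hsc⟩ := exists_scales (dd p x)
  have hsi : ∀ i : ℕ, 0 < s / 2 ^ i := fun i => by positivity
  choose g hg0 hg1 hg2 using fun i : ℕ => hT2 (s / 2 ^ i) (hsi i)
  -- K is nonnegative
  have hK : 0 ≤ K := (nrm_nonneg p (g 0 (Classical.arbitrary A))).trans (hg2 0 _)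
  set o : ℕ → A → W → ℝ := fun i a w => osc p x (s / 2 ^ i) a w with ho
  have ho0 : ∀ i a w, 0 ≤ o i a w := fun i a w => osc_nonneg x (hsi i).le a w
  set c : ℕ → A → ℝ := fun i a => sc (dd p x a) (s / 2 ^ i) with hc
  have hc0 : ∀ i a, 0 ≤ c i a := fun i a => sc_nonneg _ (dd_nonneg p x a) (hsi i).le
  set S : A → Finset ℕ := fun a => (range M).filter (fun i => c i a ≤ t) with hS
  set B : A → Finset ℕ := fun a => (range M).filter (fun i => t / (2 * Real.exp 2) ≤ c i a)
    with hB
  set h : A → W → ℝ := fun a w =>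
    (2 * Real.exp 2) * (∑ i ∈ S a, o i a w ^ p) ^ (1 / p) + 2 * ∑ i ∈ B a, g i a w with hh
  have hA0 : ∀ a w, 0 ≤ (2 * Real.exp 2) * (∑ i ∈ S a, o i a w ^ p) ^ (1 / p) := fun a w =>
    mul_nonneg (by positivity) (Real.rpow_nonneg
      (Finset.sum_nonneg fun i _ => Real.rpow_nonneg (ho0 i a w) _) _)
  have hB0 : ∀ a w, 0 ≤ 2 * ∑ i ∈ B a, g i a w := fun a w =>
    mul_nonneg (by norm_num) (Finset.sum_nonneg fun i _ => hg0 i a w)
  have hle1 : ∀ a w i, i ∈ S a → (2 * Real.exp 2) * o i a w ≤ h a w := by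
    intro a w i hi
    have h1 : o i a w ≤ (∑ i ∈ S a, o i a w ^ p) ^ (1 / p) := by
      have h2 : o i a w ^ p ≤ ∑ i ∈ S a, o i a w ^ p :=
        Finset.single_le_sum (f := fun i => o i a w ^ p)
          (fun j _ => Real.rpow_nonneg (ho0 j a w) _) hi
      have h3 := Real.rpow_le_rpow (Real.rpow_nonneg (ho0 i a w) _) h2
        (by positivity : 0 ≤ 1 / p)
      rwa [← Real.rpow_mul (ho0 i a w), mul_one_div_cancel hp0.ne', Real.rpow_one] at h3
    have h4 := mul_le_mul_of_nonneg_left h1 (by positivity : 0 ≤ 2 * Real.exp 2)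
    have h5 := hB0 a w
    simp only [hh]
    linarith
  have hle2 : ∀ a w i, i ∈ B a → 2 * g i a w ≤ h a w := by
    intro a w i hi
    have h1 : g i a w ≤ ∑ i ∈ B a, g i a w :=
      Finset.single_le_sum (f := fun i => g i a w) (fun j _ => hg0 j a w) hi
    have h5 := hA0 a w
    simp only [hh]
    linarith
  refine ⟨h, fun a w => add_nonneg (hA0 a w) (hB0 a w), ?_, ?_⟩
  · intro a b w
    rcases (dd_nonneg p x a b).eq_or_lt with h0 | h0
    · rw [← h0, zero_mul]
      have := abs_sub_le_dd hp0 x a b w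
      rw [← h0] at this
      exact this
    · obtain ⟨i, hi, h1, h2⟩ := hsc a b h0
      have habs := abs_nonneg (x a w - x b w)
      -- it suffices to bound s_i |x_a - x_b|
      suffices hsuf : 2 * ((s / 2 ^ i) * |x a w - x b w|) ≤ h a w + h b w by
        have h4 : |x a w - x b w| ≤ 2 * (dd p x a b * (s / 2 ^ i)) * |x a w - x b w| := by
          nlinarith
        have h5 : 2 * (dd p x a b * (s / 2 ^ i)) * |x a w - x b w| =
            dd p x a b * (2 * ((s / 2 ^ i) * |x a w - x b w|)) := by ring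
        rw [h5] at h4
        exact h4.trans (mul_le_mul_of_nonneg_left hsuf h0.le)
      by_cases hab : i ∈ S a ∧ i ∈ S b
      · have h3 := osc_compare hp1 x (hsi i) a b h1 w
        have ha := hle1 a w i hab.1
        have hb := hle1 b w i hab.2
        have h6 : o i a w ≤ Real.exp 2 * o i a w := by nlinarith [ho0 i a w]
        simp only [ho] at ha hb h6
        linarith
      · -- both points are big
        have hmem : i ∈ B a ∧ i ∈ B b := by
          have hca := sc_compare hp1 x (hsi i).le a b h1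
          have hcb := sc_compare hp1 x (hsi i).le b a (by rw [dd_comm]; exact h1)
          have key : ∀ u v : ℝ, t < u → u ≤ Real.exp 2 * (v + 1) →
              t / (2 * Real.exp 2) ≤ v := by
            intro u v hu hv
            rw [div_le_iff₀ (by positivity)]
            nlinarith
          have triv : ∀ u : ℝ, t < u → t / (2 * Real.exp 2) ≤ u := by
            intro u hu
            rw [div_le_iff₀ (by positivity)]
            nlinarith
          simp only [hS, hB, Finset.mem_filter, hc] at hab ⊢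
          rw [not_and_or] at hab
          rcases hab with hab | hab
          · have h7 : t < sc (dd p x a) (s / 2 ^ i) := by
              by_contra hcon
              exact hab ⟨hi, not_lt.1 hcon⟩
            exact ⟨⟨hi, triv _ h7⟩, ⟨hi, key _ _ h7 hca⟩⟩
          · have h7 : t < sc (dd p x b) (s / 2 ^ i) := by
              by_contra hcon
              exact hab ⟨hi, not_lt.1 hcon⟩
            exact ⟨⟨hi, key _ _ h7 hcb⟩, ⟨hi, triv _ h7⟩⟩
        have h3 := hg1 i a b w h1
        have ha := hle2 a w i hmem.1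
        have hb := hle2 b w i hmem.2
        linarith
  · intro a
    have hbud := sc_sum_le (dd p x a) (dd_nonneg p x a) a (dd_self hp0 x a) hs.le M
    have hlog : 0 ≤ Real.log (Fintype.card A) :=
      Real.log_nonneg (by exact_mod_cast Fintype.card_pos)
    have hsub : ∀ T : Finset ℕ, T ⊆ range M → ∑ i ∈ T, c i a ≤
        2 * Real.log (Fintype.card A) := fun T hT =>
      (Finset.sum_le_sum_of_subset_of_nonneg hT fun i _ _ => hc0 i a).trans hbud
    have e1 : nrm p (fun w => (2 * Real.exp 2) * (∑ i ∈ S a, o i a w ^ p) ^ (1 / p)) ≤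
        2 * Real.exp 2 * (t ^ (p - 1) * (2 * Real.log (Fintype.card A))) ^ (1 / p) := by
      rw [nrm_smul hp0 (2 * Real.exp 2) (fun w => (∑ i ∈ S a, o i a w ^ p) ^ (1 / p)),
        abs_of_nonneg (by positivity : 0 ≤ 2 * Real.exp 2),
        nrm_lpsum hp0 (S a) (fun i w => o i a w) (fun i w => ho0 i a w)]
      apply mul_le_mul_of_nonneg_left _ (by positivity)
      apply Real.rpow_le_rpow
        (Finset.sum_nonneg fun i _ => Real.rpow_nonneg (nrm_nonneg _ _) _) _ (by positivity)
      have h1 : ∀ i ∈ S a, nrm p (o i a) ^ p ≤ t ^ (p - 1) * c i a := by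
        intro i hi
        have h2 : nrm p (o i a) ≤ c i a := osc_nrm_le hp1 x (hsi i).le a
        have h3 : c i a ≤ t := (Finset.mem_filter.1 hi).2
        have h4 : nrm p (o i a) ^ p ≤ c i a ^ p :=
          Real.rpow_le_rpow (nrm_nonneg _ _) h2 hp0.le
        have h5 : c i a ^ p ≤ t ^ (p - 1) * c i a := by
          rcases (hc0 i a).eq_or_lt with h0 | h0
          · rw [← h0, Real.zero_rpow hp0.ne', mul_zero]
          · have : c i a ^ p = c i a ^ (p - 1) * c i a := by
              rw [← Real.rpow_add_one h0.ne']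
              congr 1
              ring
            rw [this]
            exact mul_le_mul_of_nonneg_right
              (Real.rpow_le_rpow h0.le h3 (by linarith)) h0.le
        exact h4.trans h5
      refine (Finset.sum_le_sum h1).trans ?_
      rw [← Finset.mul_sum]
      exact mul_le_mul_of_nonneg_left (hsub (S a) (Finset.filter_subset _ _))
        (Real.rpow_nonneg ht0.le _)
    have e2 : nrm p (fun w => 2 * ∑ i ∈ B a, g i a w) ≤
        2 * (4 * Real.exp 2 * Real.log (Fintype.card A) / t * K) := by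
      rw [nrm_smul hp0 2 (fun w => ∑ i ∈ B a, g i a w), abs_of_nonneg (by norm_num : (0:ℝ) ≤ 2)]
      apply mul_le_mul_of_nonneg_left _ (by norm_num)
      refine (nrm_sum_le hp1 (B a) (fun i w => g i a w)).trans ?_
      have h1 : ∑ i ∈ B a, nrm p (fun w => g i a w) ≤ ∑ _i ∈ B a, K :=
        Finset.sum_le_sum fun i _ => hg2 i a
      refine h1.trans ?_
      rw [Finset.sum_const, nsmul_eq_mul]
      apply mul_le_mul_of_nonneg_right _ hK
      have h2 : ∑ _i ∈ B a, t / (2 * Real.exp 2) ≤ ∑ i ∈ B a, c i a :=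
        Finset.sum_le_sum fun i hi => (Finset.mem_filter.1 hi).2
      have h3 := h2.trans (hsub (B a) (Finset.filter_subset _ _))
      rw [Finset.sum_const, nsmul_eq_mul, ← mul_div_assoc, div_le_iff₀ (by positivity)] at h3
      rw [le_div_iff₀ ht0]
      linarith
    exact (nrm_add_le hp1 _ _).trans (add_le_add e1 e2)

end Comb

section Param

/-- Choice of the threshold. -/
theorem exists_threshold {p C c δ : ℝ} (hp : 1 < p) (hC : 0 ≤ C) (hc : 0 < c) (hδ : 0 < δ) :
    ∃ C' : ℝ, 0 ≤ C' ∧ ∀ L : ℝ, 0 ≤ L → 4 * Real.exp 2 * L ≤ C' ∨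
      ∃ t : ℝ, 2 * Real.exp 2 ≤ t ∧
        2 * Real.exp 2 * (t ^ (p - 1) * (2 * L)) ^ (1 / p) +
          2 * (4 * Real.exp 2 * L / t * (C * (1 + L) ^ (1 - c))) ≤ δ * L + C' := by
  have hp0 : 0 < p := lt_trans one_pos hp
  have hp1 : 0 < p - 1 := by linarith
  have he : 0 < Real.exp 2 := Real.exp_pos _
  set r : ℝ := δ / (8 * Real.exp 2) with hr
  have hr0 : 0 < r := by positivity
  set θ : ℝ := r ^ (p / (p - 1)) with hθ
  have hθ0 : 0 < θ := Real.rpow_pos_of_pos hr0 _
  have hθr : θ ^ ((p - 1) / p) = r := by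
    rw [hθ, ← Real.rpow_mul hr0.le]
    have : p / (p - 1) * ((p - 1) / p) = 1 := by field_simp
    rw [this, Real.rpow_one]
  set D : ℝ := 8 * Real.exp 2 * C / θ with hD
  have hD0 : 0 ≤ D := by positivity
  set C1 : ℝ := 4 * Real.exp 2 * (2 * Real.exp 2 / θ) with hC1
  set C2 : ℝ := D * (2 * D / δ) ^ (1 / c) with hC2
  have hC1' : 0 ≤ C1 := by positivity
  have hC2' : 0 ≤ C2 := mul_nonneg hD0 (Real.rpow_nonneg (by positivity) _)
  refine ⟨C1 + C2 + δ, by linarith, ?_⟩
  intro L hL
  have hy : 0 < 1 + L := by linarith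
  by_cases htt : θ * (1 + L) < 2 * Real.exp 2
  · left
    have h1 : L ≤ 2 * Real.exp 2 / θ := by
      rw [le_div_iff₀ hθ0]
      nlinarith
    have h2 := mul_le_mul_of_nonneg_left h1 (by positivity : 0 ≤ 4 * Real.exp 2)
    linarith
  · right
    push Not at htt
    set t := θ * (1 + L) with ht
    have ht0 : 0 < t := by positivity
    refine ⟨t, htt, ?_⟩
    -- first term
    have e1 : (t ^ (p - 1) * (2 * L)) ^ (1 / p) ≤ 2 * r * (1 + L) := by
      have h1 : t ^ (p - 1) * (2 * L) ≤ 2 ^ p * (θ ^ (p - 1) * (1 + L) ^ p) := by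
        rw [ht, Real.mul_rpow hθ0.le hy.le]
        have h2 : (1 + L) ^ p = (1 + L) ^ (p - 1) * (1 + L) := by
          rw [← Real.rpow_add_one hy.ne']
          congr 1
          ring
        have h3 : (2:ℝ) ≤ 2 ^ p := by
          have := Real.rpow_le_rpow_of_exponent_le (by norm_num : (1:ℝ) ≤ 2) hp.le
          rwa [Real.rpow_one] at this
        have h4 : 0 ≤ θ ^ (p - 1) * (1 + L) ^ (p - 1) :=
          mul_nonneg (Real.rpow_nonneg hθ0.le _) (Real.rpow_nonneg hy.le _)
        calc θ ^ (p - 1) * (1 + L) ^ (p - 1) * (2 * L)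
            ≤ θ ^ (p - 1) * (1 + L) ^ (p - 1) * (2 ^ p * (1 + L)) := by
              apply mul_le_mul_of_nonneg_left _ h4
              nlinarith
          _ = 2 ^ p * (θ ^ (p - 1) * (1 + L) ^ p) := by rw [h2]; ring
      have h5 := Real.rpow_le_rpow (mul_nonneg (Real.rpow_nonneg ht0.le _) (by linarith)) h1
        (by positivity : 0 ≤ 1 / p)
      refine h5.trans (le_of_eq ?_)
      rw [Real.mul_rpow (by positivity) (mul_nonneg (Real.rpow_nonneg hθ0.le _)
        (Real.rpow_nonneg hy.le _)), Real.mul_rpow (Real.rpow_nonneg hθ0.le _)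
        (Real.rpow_nonneg hy.le _), ← Real.rpow_mul (by norm_num), ← Real.rpow_mul hθ0.le,
        ← Real.rpow_mul hy.le, mul_one_div_cancel hp0.ne', Real.rpow_one, Real.rpow_one,
        mul_one_div, hθr]
      ring
    have e2 : 2 * Real.exp 2 * (2 * r * (1 + L)) = δ / 2 * (1 + L) := by
      rw [hr]
      field_simp
      ring
    have e3 : 2 * Real.exp 2 * (t ^ (p - 1) * (2 * L)) ^ (1 / p) ≤ δ / 2 * (1 + L) := by
      rw [← e2]
      exact mul_le_mul_of_nonneg_left e1 (by positivity)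
    -- second term
    have e4 : 2 * (4 * Real.exp 2 * L / t * (C * (1 + L) ^ (1 - c))) ≤
        D * (1 + L) ^ (1 - c) := by
      have h1 : L / t ≤ 1 / θ := by
        rw [div_le_div_iff₀ ht0 hθ0, ht]
        nlinarith
      have h2 : 0 ≤ 8 * Real.exp 2 * (C * (1 + L) ^ (1 - c)) :=
        mul_nonneg (by positivity) (mul_nonneg hC (Real.rpow_nonneg hy.le _))
      have h3 := mul_le_mul_of_nonneg_right h1 h2
      calc 2 * (4 * Real.exp 2 * L / t * (C * (1 + L) ^ (1 - c)))
          = L / t * (8 * Real.exp 2 * (C * (1 + L) ^ (1 - c))) := by ring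
        _ ≤ 1 / θ * (8 * Real.exp 2 * (C * (1 + L) ^ (1 - c))) := h3
        _ = D * (1 + L) ^ (1 - c) := by rw [hD]; ring
    have e5 : D * (1 + L) ^ (1 - c) ≤ δ / 2 * (1 + L) + C2 := by
      by_cases hbig : 2 * D / δ ≤ (1 + L) ^ c
      · have h1 : D ≤ δ / 2 * (1 + L) ^ c := by
          rw [div_le_iff₀ hδ] at hbig
          linarith
        have h2 := mul_le_mul_of_nonneg_right h1 (Real.rpow_nonneg hy.le (1 - c))
        have h3 : δ / 2 * (1 + L) ^ c * (1 + L) ^ (1 - c) = δ / 2 * (1 + L) := by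
          rw [mul_assoc, ← Real.rpow_add hy]
          congr 1
          have : c + (1 - c) = 1 := by ring
          rw [this, Real.rpow_one]
        linarith
      · push Not at hbig
        have h1 : 1 + L ≤ (2 * D / δ) ^ (1 / c) := by
          have h2 := Real.rpow_le_rpow (Real.rpow_nonneg hy.le c) hbig.le
            (by positivity : 0 ≤ 1 / c)
          rwa [← Real.rpow_mul hy.le, mul_one_div_cancel hc.ne', Real.rpow_one] at h2
        have h3 : (1 + L) ^ (1 - c) ≤ 1 + L := by
          have := Real.rpow_le_rpow_of_exponent_le (by linarith : (1:ℝ) ≤ 1 + L)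
            (by linarith : 1 - c ≤ 1)
          rwa [Real.rpow_one] at this
        have h4 := mul_le_mul_of_nonneg_left (h3.trans h1) hD0
        have h5 : 0 ≤ δ / 2 * (1 + L) := by positivity
        linarith
    linarith

universe v v'

/-- **T2COMB**: small Hajlasz gradients from single scale gradients. -/
theorem exists_hajlasz_small_of_scale {p C c δ : ℝ} (hp : 1 < p) (hC : 0 ≤ C) (hc : 0 < c)
    (hδ : 0 < δ) :
    ∃ C' : ℝ, 0 ≤ C' ∧ ∀ {A : Type v} {W : Type v'} [Fintype A] [Nonempty A] [Fintype W]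
      (x : A → W → ℝ),
      (∀ s : ℝ, 0 < s → ∃ h : A → W → ℝ, (∀ a w, 0 ≤ h a w) ∧
        (∀ a b w, dd p x a b * s ≤ 1 → s * |x a w - x b w| ≤ h a w + h b w) ∧
        ∀ a, nrm p (h a) ≤ C * (1 + Real.log (Fintype.card A)) ^ (1 - c)) →
      ∃ h : A → W → ℝ, (∀ a w, 0 ≤ h a w) ∧
        (∀ a b w, |x a w - x b w| ≤ dd p x a b * (h a w + h b w)) ∧
        ∀ a, nrm p (h a) ≤ δ * Real.log (Fintype.card A) + C' := by
  obtain ⟨C', hC', hT⟩ := exists_threshold hp hC hc hδ
  refine ⟨C', hC', ?_⟩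
  intro A W _ _ _ x hT2
  have hlog : 0 ≤ Real.log (Fintype.card A) :=
    Real.log_nonneg (by exact_mod_cast Fintype.card_pos)
  rcases hT _ hlog with h | ⟨t, ht, hb⟩
  · obtain ⟨g, hg0, hg1, hg2⟩ := exists_hajlasz hp.le x
    refine ⟨g, hg0, hg1, fun a => (hg2 a).trans (h.trans ?_)⟩
    have := mul_nonneg hδ.le hlog
    linarith
  · obtain ⟨g, hg0, hg1, hg2⟩ := comb_core hp x _ hT2 t ht
    exact ⟨g, hg0, hg1, fun a => (hg2 a).trans hb⟩

/-- **T2COMB**, in the form adapted to the module T2SCALE. -/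
theorem exists_hajlasz_small_of_scale' {p C th δ : ℝ} (hp : 1 < p) (hC : 0 ≤ C) (hth : th < 1)
    (hδ : 0 < δ) :
    ∃ C' : ℝ, 0 ≤ C' ∧ ∀ {A : Type v} {W : Type v'} [Fintype A] [Nonempty A] [Fintype W]
      (x : A → W → ℝ),
      (∀ s : ℝ, 0 < s → ∃ h : A → W → ℝ, (∀ a w, 0 ≤ h a w) ∧
        (∀ a b w, dd p x a b * s ≤ 1 → s * |x a w - x b w| ≤ h a w + h b w) ∧
        ∀ a, nrm p (h a) ≤ C * (1 + Real.log (Fintype.card A)) ^ th) →
      ∃ h : A → W → ℝ, (∀ a w, 0 ≤ h a w) ∧
        (∀ a b w, |x a w - x b w| ≤ dd p x a b * (h a w + h b w)) ∧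
        ∀ a, nrm p (h a) ≤ δ * Real.log (Fintype.card A) + C' := by
  obtain ⟨C', hC', hT⟩ :=
    exists_hajlasz_small_of_scale.{v, v'} (c := 1 - th) hp hC (by linarith) hδ
  refine ⟨C', hC', ?_⟩
  intro A W _ _ _ x h
  have e : (1:ℝ) - (1 - th) = th := by ring
  rw [e] at hT
  exact hT x h

end Param

end Vale.Agent.Lib.P249
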