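import Vale.Agent.Lib.P249.HG
import Vale.Agent.Lib.H20.LpEmbed

/-!
# P249, last step: from the coordinate version to `L_p` spaces
-/

namespace Vale.Agent.Lib.P249

open Finset MeasureTheory
open scoped ENNReal

/-- Statement of the module HPOW: Hajlasz gradients of size `(log n)^θ`. -/
def HPow (p : ℝ) : Prop := ∃ C th : ℝ, 0 < C ∧ 0 ≤ th ∧ th < 1 ∧
  ∀ (A W : Type) [Fintype A] [Nonempty A] [Fintype W] (x : A → W → ℝ),
    ∃ h : A → W → ℝ, (∀ a w, 0 ≤ h a w) ∧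
      (∀ a b w, |x a w - x b w| ≤ dd p x a b * (h a w + h b w)) ∧
      ∀ a, nrm p (h a) ≤ C * (1 + Real.log (Fintype.card A)) ^ th

/-- Statement of the module ASM2. -/
def Asm2 (p D : ℝ) : Prop := ∃ K : ℝ, 0 < K ∧
  ∀ (A W : Type) [Fintype A] [Nonempty A] [Fintype W] (x h : A → W → ℝ) (H : ℝ), 1 ≤ H →
    (∀ a w, 0 ≤ h a w) → (∀ a b w, |x a w - x b w| ≤ dd p x a b * (h a w + h b w)) →
    (∀ a, nrm p (h a) ≤ H) → (Fintype.card W : ℝ) ≤ (Fintype.card A : ℝ) ^ 3 →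
    ∃ m : ℕ, (m : ℝ) ≤ K * (1 + Real.log (Fintype.card A)) ^ K * Real.exp (K * H) ∧
      ∃ s : ℝ, 0 < s ∧ ∃ F : A → Fin m → ℝ, ∀ a b,
        s * dd p x a b ^ p ≤ ∑ i, |F a i - F b i| ^ p ∧
        ∑ i, |F a i - F b i| ^ p ≤ D * s * dd p x a b ^ p

/-- the numeric step -/
theorem final_num {C th K k0 : ℝ} (hC : 0 < C) (hth1 : th < 1) (hK : 0 < K)
    (hk0 : 1 ≤ k0) :
    ∃ C' : ℝ, 0 < C' ∧ ∀ n : ℕ, 2 ≤ n →
      K * (1 + Real.log (n * k0)) ^ K *
        Real.exp (K * max 1 (C * (1 + Real.log (n * k0)) ^ th)) ≤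
      Real.exp (C' * Real.log n ^ (max th (1 / 2))) := by
  set t := max th (1 / 2) with ht
  have ht0 : 0 < t := lt_of_lt_of_le (by norm_num) (le_max_right _ _)
  have htth : th ≤ t := le_max_left _ _
  have hl2 := Real.log_two_gt_d9
  have hlk : 0 ≤ Real.log k0 := Real.log_nonneg hk0
  set C2 := 2 * (1 + Real.log k0) + 1 with hC2
  have hC2' : 1 ≤ C2 := by rw [hC2]; linarith
  -- `1 + log (n k0) ≤ C2 * log n`
  have key : ∀ n : ℕ, 2 ≤ n → 1 ≤ 1 + Real.log (n * k0) ∧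
      1 + Real.log (n * k0) ≤ C2 * Real.log n := by
    intro n hn
    have hn' : (2:ℝ) ≤ n := by exact_mod_cast hn
    have h1 : Real.log 2 ≤ Real.log n := Real.log_le_log (by norm_num) hn'
    have h2 : Real.log (n * k0) = Real.log n + Real.log k0 :=
      Real.log_mul (by positivity) (by positivity)
    rw [h2]
    refine ⟨by linarith, ?_⟩
    rw [hC2]
    have h3 : (1:ℝ) / 2 ≤ Real.log n := by linarith
    nlinarith
  refine ⟨(Real.log (max K 1) * 2 + K * (C2 ^ t / t)) + K * (2 + C * C2 ^ t), ?_, ?_⟩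
  · have : 0 ≤ Real.log (max K 1) := Real.log_nonneg (le_max_right _ _)
    have h2 : 0 < C2 ^ t := by positivity
    positivity
  · intro n hn
    obtain ⟨hy1, hy2⟩ := key n hn
    set y := 1 + Real.log (n * k0) with hy
    have hn' : (2:ℝ) ≤ n := by exact_mod_cast hn
    have hL : (1:ℝ) / 2 ≤ Real.log n := by
      have h1 : Real.log 2 ≤ Real.log n := Real.log_le_log (by norm_num) hn'
      linarith
    set L := Real.log n with hLdef
    have hL0 : 0 < L := by linarith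
    -- `1 ≤ 2 * L^t`
    have hLt : 1 ≤ 2 * L ^ t := by
      have h1 : ((1:ℝ) / 2) ^ t ≤ L ^ t := Real.rpow_le_rpow (by norm_num) hL ht0.le
      have h2 : ((1:ℝ) / 2) ^ (1:ℝ) ≤ ((1:ℝ) / 2) ^ t := by
        apply Real.rpow_le_rpow_of_exponent_ge (by norm_num) (by norm_num)
        rw [ht]
        exact max_le hth1.le (by norm_num)
      rw [Real.rpow_one] at h2
      linarith
    have hLt0 : 0 < L ^ t := Real.rpow_pos_of_pos hL0 _
    have hyt : y ^ t ≤ C2 ^ t * L ^ t := by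
      rw [← Real.mul_rpow (by linarith) hL0.le]
      exact Real.rpow_le_rpow (by linarith) hy2 ht0.le
    have hyth : y ^ th ≤ C2 ^ t * L ^ t :=
      (Real.rpow_le_rpow_of_exponent_le hy1 htth).trans hyt
    have hy0 : 0 < y := by linarith
    -- each factor
    have f1 : K ≤ Real.exp (Real.log (max K 1) * 2 * L ^ t) := by
      have h1 : K ≤ Real.exp (Real.log (max K 1)) := by
        rw [Real.exp_log (lt_of_lt_of_le one_pos (le_max_right _ _))]
        exact le_max_left _ _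
      refine h1.trans (Real.exp_le_exp.mpr ?_)
      have h0 : 0 ≤ Real.log (max K 1) := Real.log_nonneg (le_max_right _ _)
      nlinarith
    have f2 : y ^ K ≤ Real.exp (K * (C2 ^ t / t) * L ^ t) := by
      have h1 : Real.log y ≤ y ^ t / t := Real.log_le_rpow_div hy0.le ht0
      rw [Real.rpow_def_of_pos hy0]
      apply Real.exp_le_exp.mpr
      have h2 : Real.log y ≤ C2 ^ t / t * L ^ t := by
        refine h1.trans ?_
        rw [div_mul_eq_mul_div]
        gcongr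
      nlinarith
    have f3 : Real.exp (K * max 1 (C * y ^ th)) ≤ Real.exp (K * (2 + C * C2 ^ t) * L ^ t) := by
      apply Real.exp_le_exp.mpr
      have h1 : max 1 (C * y ^ th) ≤ (2 + C * C2 ^ t) * L ^ t := by
        apply max_le
        · have : 0 ≤ C * C2 ^ t * L ^ t := by positivity
          nlinarith
        · have h2 : C * y ^ th ≤ C * (C2 ^ t * L ^ t) := by gcongr
          nlinarith
      nlinarith
    calc K * y ^ K * Real.exp (K * max 1 (C * y ^ th))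
        ≤ Real.exp (Real.log (max K 1) * 2 * L ^ t) * Real.exp (K * (C2 ^ t / t) * L ^ t) *
          Real.exp (K * (2 + C * C2 ^ t) * L ^ t) := by
          gcongr
      _ = _ := by
          rw [← Real.exp_add, ← Real.exp_add]
          congr 1
          ring

/-- padding with zeros -/
theorem pad_fin {A : Type*} {m d : ℕ} (hmd : m ≤ d) {q : ℝ} (hq : 0 < q) (F : A → Fin m → ℝ) :
    ∃ F' : A → Fin d → ℝ, ∀ a b, ∑ i, |F' a i - F' b i| ^ q = ∑ i, |F a i - F b i| ^ q := by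
  refine ⟨fun a i => if h : (i : ℕ) < m then F a ⟨i, h⟩ else 0, fun a b => ?_⟩
  symm
  rw [← Finset.sum_subset (Finset.subset_univ
    ((Finset.univ : Finset (Fin m)).map (Fin.castLEEmb hmd)))]
  · rw [Finset.sum_map]
    apply Finset.sum_congr rfl
    intro i _
    simp
  · intro i _ hi
    have : ¬ ((i : ℕ) < m) := by
      intro h
      apply hi
      simp only [Finset.mem_map, Finset.mem_univ, true_and]
      exact ⟨⟨i, h⟩, by ext; simp⟩
    simp [this, hq.ne']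

/-- The reduction for `L_p` spaces. -/
theorem final_embed (p : ℝ≥0∞) [Fact (1 ≤ p)] (hp : p ≠ ∞) (hpow : HPow p.toReal)
    (hasm : ∀ D : ℝ, 1 < D → Asm2 p.toReal D) :
    ∃ θ : ℝ, 0 < θ ∧ θ < 1 ∧ ∀ D : ℝ, 1 < D → ∃ C : ℝ, 0 < C ∧ ∀ n : ℕ, 2 ≤ n →
      ∀ d : ℕ, Real.exp (C * Real.log n ^ θ) ≤ d →
        ∀ {Ω : Type*} [MeasurableSpace Ω] (μ : Measure Ω) (X : Finset (Lp ℝ p μ)), X.card = n →
          ∃ f : Lp ℝ p μ → PiLp p (fun _ : Fin d => ℝ), ∃ s : ℝ, 0 < s ∧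
            ∀ x ∈ X, ∀ y ∈ X, s * ‖x - y‖ ≤ ‖f x - f y‖ ∧ ‖f x - f y‖ ≤ D * s * ‖x - y‖ := by
  classical
  have hp1 : (1:ℝ≥0∞) ≤ p := Fact.out
  set q : ℝ := p.toReal with hq
  have hq1 : 1 ≤ q := by
    rw [hq, ← ENNReal.toReal_one]
    exact (ENNReal.toReal_le_toReal ENNReal.one_ne_top hp).mpr hp1
  have hq0 : 0 < q := by linarith
  obtain ⟨C1, th, hC1, hth0, hth1, hHJ⟩ := hpow
  refine ⟨max th (1 / 2), lt_of_lt_of_le (by norm_num) (le_max_right _ _),
    max_lt hth1 (by norm_num), ?_⟩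
  intro D hD
  have hsD : 1 < Real.sqrt D := by
    rw [show (1:ℝ) = Real.sqrt 1 by simp]
    exact Real.sqrt_lt_sqrt (by norm_num) hD
  have hsD2 : Real.sqrt D * Real.sqrt D = D := Real.mul_self_sqrt (by linarith)
  set ε := min (Real.sqrt D - 1) 1 with hε
  have hε0 : 0 < ε := lt_min (by linarith) one_pos
  have hε1 : ε ≤ 1 := min_le_right _ _
  have hεD : 1 + ε ≤ Real.sqrt D := by
    have := min_le_left (Real.sqrt D - 1) 1
    linarith
  have hS : 0 < Vale.Agent.Lib.H20.Sst q := Vale.Agent.Lib.H20.Sst_pos hq1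
  set B := 108 * Vale.Agent.Lib.H20.Sst q / ε ^ 2 with hB
  have hB0 : 0 < B := by rw [hB]; positivity
  set k0 : ℕ := ⌈B + 1⌉₊ with hk0
  have hk0' : B + 1 ≤ k0 := Nat.le_ceil _
  have hk1 : (1:ℝ) ≤ k0 := by linarith
  obtain ⟨K, hK, hA⟩ := hasm (Real.sqrt D ^ q) (Real.one_lt_rpow hsD hq0)
  obtain ⟨C', hC', hnum⟩ := final_num (th := th) hC1 hth1 hK hk1
  refine ⟨C', hC', ?_⟩
  intro n hn d hd Ω _ μ X hX
  have hn2 : (2:ℝ) ≤ n := by exact_mod_cast hn
  -- first embedding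
  set d₀ := ⌈B * (n * Real.log n)⌉₊ with hd₀
  obtain ⟨f1, s1, hs1, hf1⟩ := Vale.Agent.Lib.H20.embed_main p hp μ X (by omega) hε0 hε1 d₀ (by
    rw [hX, ← hq]
    have h1 : B * (n * Real.log n) ≤ d₀ := Nat.le_ceil _
    rw [hB, div_mul_eq_mul_div, div_le_iff₀ (by positivity)] at h1
    linarith)
  have hlogn : Real.log n ≤ n := (Real.log_le_sub_one_of_pos (by linarith)).trans (by linarith)
  have hlogn0 : 0 ≤ Real.log n := Real.log_nonneg (by linarith)
  -- index type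
  have hne : Nonempty (Fin n) := ⟨⟨0, by omega⟩⟩
  have hk0pos : 0 < k0 := by
    have : (0:ℝ) < k0 := by linarith
    exact_mod_cast this
  have hne2 : Nonempty (Fin k0) := ⟨⟨0, hk0pos⟩⟩
  let e : X ≃ Fin n := X.equivFinOfCardEq hX
  let xx : Fin n × Fin k0 → Fin d₀ → ℝ := fun a w => f1 ((e.symm a.1 : X) : Lp ℝ p μ) w
  obtain ⟨h, hh0, hhJ, hhn⟩ := hHJ (Fin n × Fin k0) (Fin d₀) xx
  have hcard : (Fintype.card (Fin n × Fin k0) : ℝ) = n * k0 := by simp
  rw [hcard] at hhn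
  obtain ⟨m, hm, s, hs, F, hF⟩ := hA (Fin n × Fin k0) (Fin d₀) xx h
    (max 1 (C1 * (1 + Real.log (n * k0)) ^ th)) (le_max_left _ _) hh0 hhJ
    (fun a => (hhn a).trans (le_max_right _ _)) (by
      rw [hcard, Fintype.card_fin]
      have h1 : (d₀ : ℝ) ≤ B * (n * Real.log n) + 1 :=
        (Nat.ceil_lt_add_one (by positivity)).le
      have h2 : B * (n * Real.log n) ≤ B * (n * n) := by gcongr
      have h3 : (B + 1) * (n * n * n) ≤ k0 * (n * n * n) := by gcongr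
      have h4 : (k0:ℝ) * (n * n * n) ≤ (n * k0) ^ 3 := by
        have h5 : (k0:ℝ) ≤ k0 ^ 3 := by
          have : (k0:ℝ) ^ 1 ≤ k0 ^ 3 := pow_le_pow_right₀ hk1 (by norm_num)
          simpa using this
        calc (k0:ℝ) * (n * n * n) ≤ k0 ^ 3 * (n * n * n) := by gcongr
          _ = _ := by ring
      have h6 : B * (n * n) + 1 ≤ (B + 1) * (n * n * n) := by
        have h7 : (n:ℝ) * n ≤ n * n * n := by nlinarith [mul_pos (by linarith : (0:ℝ) < n) (by linarith : (0:ℝ) < n)]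
        have h8 : (1:ℝ) ≤ n * n * n := by nlinarith [mul_pos (by linarith : (0:ℝ) < n) (by linarith : (0:ℝ) < n)]
        nlinarith
      linarith)
  rw [hcard] at hm
  have hmd : m ≤ d := by
    have : (m:ℝ) ≤ d := hm.trans ((hnum n hn).trans hd)
    exact_mod_cast this
  obtain ⟨F', hF'⟩ := pad_fin hmd hq0 F
  let z : Fin k0 := ⟨0, hk0pos⟩
  let f : Lp ℝ p μ → PiLp p (fun _ : Fin d => ℝ) := fun v =>
    if hv : v ∈ X then WithLp.toLp p (F' (e ⟨v, hv⟩, z)) else 0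
  refine ⟨f, s ^ (1 / q) * s1, by positivity, ?_⟩
  intro u hu v hv
  -- norms
  have hn1 : ‖f u - f v‖ = (∑ i, |F' (e ⟨u, hu⟩, z) i - F' (e ⟨v, hv⟩, z) i| ^ q) ^ (1 / q) := by
    have : f u - f v = WithLp.toLp p (F' (e ⟨u, hu⟩, z) - F' (e ⟨v, hv⟩, z)) := by
      simp [f, hu, hv]
    rw [this, PiLp.norm_eq_sum hq0]
    simp [Real.norm_eq_abs, hq]
  have hn2' : ‖f1 u - f1 v‖ = dd q xx (e ⟨u, hu⟩, z) (e ⟨v, hv⟩, z) := by
    rw [PiLp.norm_eq_sum hq0]
    simp [dd, nrm, xx, Real.norm_eq_abs, hq]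
  set δ := ‖f1 u - f1 v‖ with hδ
  have hδ0 : 0 ≤ δ := norm_nonneg _
  obtain ⟨g1, g2⟩ := hF (e ⟨u, hu⟩, z) (e ⟨v, hv⟩, z)
  rw [← hF', ← hn2'] at g1 g2
  rw [hn1]
  set S := ∑ i, |F' (e ⟨u, hu⟩, z) i - F' (e ⟨v, hv⟩, z) i| ^ q with hSS
  have hS0 : 0 ≤ S := Finset.sum_nonneg fun i _ => Real.rpow_nonneg (abs_nonneg _) _
  have hqq : q * (1 / q) = 1 := mul_one_div_cancel hq0.ne'
  have k1 : s ^ (1 / q) * δ ≤ S ^ (1 / q) := by
    have : (s * δ ^ q) ^ (1 / q) ≤ S ^ (1 / q) :=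
      Real.rpow_le_rpow (by positivity) g1 (by positivity)
    rwa [Real.mul_rpow hs.le (by positivity), ← Real.rpow_mul hδ0, hqq, Real.rpow_one] at this
  have k2 : S ^ (1 / q) ≤ Real.sqrt D * s ^ (1 / q) * δ := by
    have : S ^ (1 / q) ≤ (Real.sqrt D ^ q * s * δ ^ q) ^ (1 / q) :=
      Real.rpow_le_rpow hS0 g2 (by positivity)
    rwa [Real.mul_rpow (by positivity) (by positivity), Real.mul_rpow (by positivity) hs.le,
      ← Real.rpow_mul hδ0, ← Real.rpow_mul (Real.sqrt_nonneg _), hqq, Real.rpow_one,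
      Real.rpow_one] at this
  obtain ⟨l1, l2⟩ := hf1 u hu v hv
  rw [← hδ] at l1 l2
  have hs' : 0 < s ^ (1 / q) := by positivity
  constructor
  · calc s ^ (1 / q) * s1 * ‖u - v‖ = s ^ (1 / q) * (s1 * ‖u - v‖) := by ring
      _ ≤ s ^ (1 / q) * δ := by gcongr
      _ ≤ _ := k1
  · calc S ^ (1 / q) ≤ Real.sqrt D * s ^ (1 / q) * δ := k2
      _ ≤ Real.sqrt D * s ^ (1 / q) * ((1 + ε) * (s1 * ‖u - v‖)) := by gcongr
      _ ≤ Real.sqrt D * s ^ (1 / q) * (Real.sqrt D * (s1 * ‖u - v‖)) := by gcongr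
      _ = (Real.sqrt D * Real.sqrt D) * (s ^ (1 / q) * s1) * ‖u - v‖ := by ring
      _ = _ := by rw [hsD2]

end Vale.Agent.Lib.P249
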