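import Mathlib

/-!
P249, Gaussian kernels: for finitely many points `u a` of Euclidean space there is a symmetric stochastic
matrix `μ` with `μ a b ≤ exp (-‖u a - u b‖^2/8)` and overlap
`∑ b, min (μ a b) (μ a' b) ≥ exp (-‖u a - u a'‖^2/4) / 2`.
-/

open MeasureTheory Finset

namespace Vale.Agent.P249

/-- squared Euclidean distance -/
noncomputable def ds {W : Type*} [Fintype W] (u v : W → ℝ) : ℝ := ∑ i, (u i - v i) ^ 2

theorem ds_nonneg {W : Type*} [Fintype W] (u v : W → ℝ) : 0 ≤ ds u v := sum_nonneg fun _ _ => sq_nonneg _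

theorem ds_self {W : Type*} [Fintype W] (u : W → ℝ) : ds u u = 0 := by simp [ds]

/-- geometric mean of the Gaussian densities with centres `u` and `v` -/
noncomputable def gm {W : Type*} [Fintype W] (u v z : W → ℝ) : ℝ :=
  ∏ i, Real.exp (-((z i - u i) ^ 2 + (z i - v i) ^ 2) / 4) / Real.sqrt (2 * Real.pi)

theorem gm_pos {W : Type*} [Fintype W] (u v z : W → ℝ) : 0 < gm u v z := by
  unfold gm
  exact prod_pos fun i _ => by positivity

theorem gm_mul {W : Type*} [Fintype W] (u v z : W → ℝ) : gm u u z * gm v v z = gm u v z ^ 2 := by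
  unfold gm
  rw [← prod_mul_distrib, ← prod_pow]
  refine prod_congr rfl fun i _ => ?_
  rw [div_mul_div_comm, div_pow, ← Real.exp_add, ← Real.exp_nat_mul, sq (Real.sqrt _)]
  congr 2
  push_cast
  ring

theorem gm_one (s t : ℝ) : Integrable (fun x : ℝ => Real.exp (-((x - s) ^ 2 + (x - t) ^ 2) / 4) /
    Real.sqrt (2 * Real.pi)) ∧
    ∫ x : ℝ, Real.exp (-((x - s) ^ 2 + (x - t) ^ 2) / 4) / Real.sqrt (2 * Real.pi) =
      Real.exp (-(s - t) ^ 2 / 8) := by
  have h1 : (fun x : ℝ => Real.exp (-((x - s) ^ 2 + (x - t) ^ 2) / 4) / Real.sqrt (2 * Real.pi)) =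
      fun x : ℝ => (Real.exp (-(s - t) ^ 2 / 8) / Real.sqrt (2 * Real.pi)) *
        Real.exp (-(1 / 2) * (x - (s + t) / 2) ^ 2) := by
    funext x
    have : -((x - s) ^ 2 + (x - t) ^ 2) / 4 =
        -(s - t) ^ 2 / 8 + -(1 / 2) * (x - (s + t) / 2) ^ 2 := by ring
    rw [this, Real.exp_add]
    ring
  rw [h1]
  have h2 : Integrable fun x : ℝ => Real.exp (-(1 / 2) * x ^ 2) :=
    integrable_exp_neg_mul_sq (by norm_num)
  constructor
  · exact (h2.comp_sub_right ((s + t) / 2)).const_mul _
  · rw [integral_const_mul]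
    have h3 : ∫ x : ℝ, Real.exp (-(1 / 2) * (x - (s + t) / 2) ^ 2) = Real.sqrt (2 * Real.pi) := by
      rw [integral_sub_right_eq_self (fun x : ℝ => Real.exp (-(1 / 2) * x ^ 2)) ((s + t) / 2),
        integral_gaussian]
      congr 1
      ring
    rw [h3]
    have : Real.sqrt (2 * Real.pi) ≠ 0 := by positivity
    field_simp

theorem gm_integrable {W : Type*} [Fintype W] (u v : W → ℝ) : Integrable (gm u v) := by
  unfold gm
  exact Integrable.fintype_prod (f := fun i x => Real.exp (-((x - u i) ^ 2 + (x - v i) ^ 2) / 4) /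
    Real.sqrt (2 * Real.pi)) fun i => (gm_one (u i) (v i)).1

theorem gm_integral {W : Type*} [Fintype W] (u v : W → ℝ) : ∫ z, gm u v z = Real.exp (-ds u v / 8) := by
  unfold gm
  rw [integral_fintype_prod_volume_eq_prod (fun i x =>
    Real.exp (-((x - u i) ^ 2 + (x - v i) ^ 2) / 4) / Real.sqrt (2 * Real.pi))]
  rw [prod_congr rfl fun i _ => (gm_one (u i) (v i)).2, ← Real.exp_sum]
  congr 1
  unfold ds
  rw [← sum_neg_distrib, sum_div]

theorem gm_continuous {W : Type*} [Fintype W] (u v : W → ℝ) : Continuous (gm u v) := by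
  unfold gm
  fun_prop

/-- **Gaussian kernel.** -/
theorem gauss_kernel {A W : Type*} [Fintype A] [Fintype W] (u : A → W → ℝ) :
    ∃ μ : A → A → ℝ, (∀ a b, 0 ≤ μ a b) ∧ (∀ a, ∑ b, μ a b = 1) ∧
      (∀ a b, μ a b = μ b a) ∧
      (∀ a b, μ a b ≤ Real.exp (-ds (u a) (u b) / 8)) ∧
      (∀ a a', Real.exp (-ds (u a) (u a') / 4) / 2 ≤ ∑ b, min (μ a b) (μ a' b)) := by
  classical
  rcases isEmpty_or_nonempty A with hn | hn
  · exact ⟨fun _ _ => 0, fun a => isEmptyElim a, fun a => isEmptyElim a, fun a => isEmptyElim a,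
      fun a => isEmptyElim a, fun a => isEmptyElim a⟩
  set ρ : A → (W → ℝ) → ℝ := fun a => gm (u a) (u a) with hρ
  set S : (W → ℝ) → ℝ := fun z => ∑ c, ρ c z with hS
  have ρpos : ∀ a z, 0 < ρ a z := fun a z => gm_pos _ _ _
  have Spos : ∀ z, 0 < S z := fun z => sum_pos (fun c _ => ρpos c z) univ_nonempty
  have ρint : ∀ a, Integrable (ρ a) := fun a => gm_integrable _ _
  have ρone : ∀ a, ∫ z, ρ a z = 1 := by
    intro a
    rw [hρ, gm_integral, ds_self]
    simp
  have ρc : ∀ a, Continuous (ρ a) := fun a => gm_continuous _ _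
  have Sc : Continuous S := continuous_finsetSum _ fun c _ => ρc c
  have leS : ∀ a z, ρ a z ≤ S z := fun a z =>
    single_le_sum (f := fun c => ρ c z) (fun c _ => (ρpos c z).le) (mem_univ a)
  -- weights
  have wint : ∀ (f : (W → ℝ) → ℝ), Integrable f → ∀ b, Integrable fun z => f z * (ρ b z / S z) := by
    intro f hf b
    refine hf.mul_bdd (c := 1) ?_ ?_
    · exact ((ρc b).div Sc fun z => (Spos z).ne').aestronglyMeasurable
    · refine Filter.Eventually.of_forall fun z => ?_
      rw [Real.norm_eq_abs, abs_of_nonneg (div_nonneg (ρpos b z).le (Spos z).le),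
        div_le_one (Spos z)]
      exact leS b z
  have wsum : ∀ z, ∑ b, ρ b z / S z = 1 := by
    intro z
    rw [← sum_div]
    exact div_self (Spos z).ne'
  have hsum : ∀ (f : (W → ℝ) → ℝ), Integrable f → ∑ b, ∫ z, f z * (ρ b z / S z) = ∫ z, f z := by
    intro f hf
    rw [← integral_finsetSum _ fun b _ => wint f hf b]
    refine integral_congr_ae (Filter.Eventually.of_forall fun z => ?_)
    simp only
    rw [← mul_sum, wsum, mul_one]
  refine ⟨fun a b => ∫ z, ρ a z * (ρ b z / S z), ?_, ?_, ?_, ?_, ?_⟩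
  · intro a b
    exact integral_nonneg fun z => mul_nonneg (ρpos a z).le (div_nonneg (ρpos b z).le (Spos z).le)
  · intro a
    simp only
    rw [hsum (ρ a) (ρint a), ρone]
  · intro a b
    refine integral_congr_ae (Filter.Eventually.of_forall fun z => ?_)
    simp only
    ring
  · intro a b
    simp only
    rcases eq_or_ne a b with rfl | hab
    · rw [ds_self]
      simp only [neg_zero, zero_div, Real.exp_zero]
      rw [← ρone a]
      refine integral_mono (wint (ρ a) (ρint a) a) (ρint a) fun z => ?_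
      simp only
      have h1 : ρ a z / S z ≤ 1 := (div_le_one (Spos z)).mpr (leS a z)
      have := mul_le_mul_of_nonneg_left h1 (ρpos a z).le
      linarith
    · rw [← gm_integral]
      refine integral_mono (wint (ρ a) (ρint a) b) (gm_integrable _ _) fun z => ?_
      simp only
      have h2 : ρ a z + ρ b z ≤ S z := by
        have h3 : ∑ c ∈ ({a, b} : Finset A), ρ c z ≤ S z :=
          sum_le_sum_of_subset_of_nonneg (subset_univ _) fun c _ _ => (ρpos c z).le
        rwa [sum_pair hab] at h3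
      have h4 : ρ a z * ρ b z = gm (u a) (u b) z ^ 2 := gm_mul _ _ _
      have h5 : 0 < gm (u a) (u b) z := gm_pos _ _ _
      rw [← mul_div_assoc, div_le_iff₀ (Spos z), h4]
      have h6 : gm (u a) (u b) z ≤ ρ a z + ρ b z := by
        have h7 := ρpos a z
        have h8 := ρpos b z
        nlinarith [sq_nonneg (ρ a z - ρ b z), mul_pos h7 h8]
      nlinarith
  · intro a a'
    simp only
    have hmin : Integrable fun z => min (ρ a z) (ρ a' z) := (ρint a).inf (ρint a')
    have h1 : ∫ z, min (ρ a z) (ρ a' z) ≤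
        ∑ b, min (∫ z, ρ a z * (ρ b z / S z)) (∫ z, ρ a' z * (ρ b z / S z)) := by
      rw [← hsum _ hmin]
      refine sum_le_sum fun b _ => le_min ?_ ?_
      · refine integral_mono (wint _ hmin b) (wint _ (ρint a) b) fun z => ?_
        exact mul_le_mul_of_nonneg_right (min_le_left _ _) (div_nonneg (ρpos b z).le (Spos z).le)
      · refine integral_mono (wint _ hmin b) (wint _ (ρint a') b) fun z => ?_
        exact mul_le_mul_of_nonneg_right (min_le_right _ _) (div_nonneg (ρpos b z).le (Spos z).le)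
    refine le_trans ?_ h1
    set A : ℝ := Real.exp (-ds (u a) (u a') / 8) with hA
    have hA0 : 0 < A := Real.exp_pos _
    have hA2 : Real.exp (-ds (u a) (u a') / 4) = A ^ 2 := by
      rw [hA, ← Real.exp_nat_mul]
      congr 1
      push_cast
      ring
    rw [hA2]
    have h2 : ∫ z, (A * gm (u a) (u a') z - A ^ 2 / 4 * (ρ a z + ρ a' z)) ≤
        ∫ z, min (ρ a z) (ρ a' z) := by
      refine integral_mono (((gm_integrable _ _).const_mul _).sub
        (((ρint a).add (ρint a')).const_mul _)) hmin fun z => ?_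
      simp only
      have h3 := ρpos a z
      have h4 := ρpos a' z
      have h5 : ρ a z * ρ a' z = gm (u a) (u a') z ^ 2 := gm_mul _ _ _
      have h6 : 0 < gm (u a) (u a') z := gm_pos _ _ _
      have key : ∀ p q g : ℝ, 0 < p → 0 < q → 0 < g → p * q = g ^ 2 →
          A * g - A ^ 2 / 4 * (p + q) ≤ p := by
        intro p q g hp hq hg hpq
        have h7 : 0 ≤ (p - A / 2 * g) ^ 2 / p := by positivity
        have h8 : (p - A / 2 * g) ^ 2 / p = p - A * g + A ^ 2 / 4 * (g ^ 2 / p) := by
          field_simp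
          ring
        have h9 : g ^ 2 / p = q := by
          rw [← hpq]
          field_simp
        rw [h8, h9] at h7
        nlinarith [mul_pos (pow_pos hA0 2) hp]
      rw [le_min_iff]
      constructor
      · exact key _ _ _ h3 h4 h6 h5
      · have := key _ _ _ h4 h3 h6 (by rw [mul_comm]; exact h5)
        rw [add_comm (ρ a z)]
        exact this
    refine le_trans ?_ h2
    have hs : Integrable fun z => ρ a z + ρ a' z := (ρint a).add (ρint a')
    rw [integral_sub ((gm_integrable _ _).const_mul _) (hs.const_mul _),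
      integral_const_mul, integral_const_mul, integral_add (ρint a) (ρint a'), ρone, ρone,
      gm_integral, ← hA]
    apply le_of_eq
    ring

theorem gauss_tail {R x : ℝ} (hR : 2 ≤ R) (hx : R ≤ x) :
    x * Real.exp (-x ^ 2 / 8) ≤ R * Real.exp (-R ^ 2 / 8) := by
  have hR0 : 0 < R := by linarith
  have h1 : x / R ≤ Real.exp (x / R - 1) := by
    have := Real.add_one_le_exp (x / R - 1)
    linarith
  have h2 : x / R - 1 ≤ (x ^ 2 - R ^ 2) / 8 := by
    have e : x / R - 1 = (x - R) / R := by field_simp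
    rw [e, div_le_div_iff₀ hR0 (by norm_num)]
    nlinarith [mul_nonneg (sub_nonneg.mpr hx) (sub_nonneg.mpr hR), mul_nonneg (sub_nonneg.mpr hx)
      (mul_nonneg (sub_nonneg.mpr hR) hR0.le), mul_nonneg (sub_nonneg.mpr hx) (mul_nonneg
      (sub_nonneg.mpr hx) hR0.le)]
  have h3 : x / R ≤ Real.exp ((x ^ 2 - R ^ 2) / 8) := h1.trans (Real.exp_le_exp.mpr h2)
  have h4 : x ≤ R * Real.exp ((x ^ 2 - R ^ 2) / 8) := by
    rwa [div_le_iff₀' hR0] at h3
  calc x * Real.exp (-x ^ 2 / 8) ≤ R * Real.exp ((x ^ 2 - R ^ 2) / 8) * Real.exp (-x ^ 2 / 8) :=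
        mul_le_mul_of_nonneg_right h4 (Real.exp_pos _).le
    _ = R * Real.exp (-R ^ 2 / 8) := by
        rw [mul_assoc, ← Real.exp_add]
        congr 2
        ring

/-- mean distance under a Gaussian kernel -/
theorem gauss_mean {n M : ℕ} (u : Fin n → Fin M → ℝ) (a : Fin n) (μ : Fin n → ℝ)
    (h0 : ∀ b, 0 ≤ μ b) (h1 : ∑ b, μ b = 1)
    (h2 : ∀ b, μ b ≤ Real.exp (-ds (u a) (u b) / 8)) :
    ∑ b, μ b * Real.sqrt (ds (u a) (u b)) ≤ 2 * Real.sqrt (8 * Real.log (n + 1)) := by
  have hn : 1 ≤ n := by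
    have := a.2
    omega
  have hn1 : (1 : ℝ) ≤ n := by exact_mod_cast hn
  have hl : (1 / 2 : ℝ) ≤ Real.log (n + 1) := by
    have h3 : Real.log 2 ≤ Real.log (n + 1) := Real.log_le_log (by norm_num) (by linarith)
    have := Real.log_two_gt_d9
    linarith
  set R : ℝ := Real.sqrt (8 * Real.log (n + 1)) with hR
  have hR2 : R ^ 2 = 8 * Real.log (n + 1) := Real.sq_sqrt (by linarith)
  have hR2' : 2 ≤ R := by
    rw [hR]
    refine Real.le_sqrt_of_sq_le ?_
    linarith
  have key : ∀ b, μ b * Real.sqrt (ds (u a) (u b)) ≤ μ b * R + R * Real.exp (-R ^ 2 / 8) := by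
    intro b
    rcases le_total (Real.sqrt (ds (u a) (u b))) R with h | h
    · have := mul_le_mul_of_nonneg_left h (h0 b)
      have h4 : 0 ≤ R * Real.exp (-R ^ 2 / 8) := by positivity
      linarith
    · have h5 : μ b * Real.sqrt (ds (u a) (u b)) ≤
          Real.exp (-ds (u a) (u b) / 8) * Real.sqrt (ds (u a) (u b)) :=
        mul_le_mul_of_nonneg_right (h2 b) (Real.sqrt_nonneg _)
      have h6 := gauss_tail hR2' h
      rw [Real.sq_sqrt (ds_nonneg _ _)] at h6
      have h7 : 0 ≤ μ b * R := mul_nonneg (h0 b) (by linarith)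
      linarith
  calc ∑ b, μ b * Real.sqrt (ds (u a) (u b)) ≤ ∑ b, (μ b * R + R * Real.exp (-R ^ 2 / 8)) :=
        sum_le_sum fun b _ => key b
    _ = R + n * (R * Real.exp (-R ^ 2 / 8)) := by
        rw [sum_add_distrib, ← sum_mul, h1, one_mul, sum_const, card_univ, Fintype.card_fin,
          nsmul_eq_mul]
    _ ≤ 2 * R := by
        have h8 : -R ^ 2 / 8 = -Real.log (n + 1) := by rw [hR2]; ring
        rw [h8, Real.exp_neg, Real.exp_log (by linarith)]
        have h9 : (n : ℝ) * (R * ((n : ℝ) + 1)⁻¹) ≤ R := by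
          rw [← div_eq_mul_inv, ← mul_div_assoc, div_le_iff₀ (by linarith)]
          nlinarith
        linarith

/-- second moment under a Gaussian kernel -/
theorem gauss_sq {A W : Type*} [Fintype A] [Nonempty A] [Fintype W] (u : A → W → ℝ) (a : A)
    (μ : A → ℝ) (h0 : ∀ b, 0 ≤ μ b) (h1 : ∑ b, μ b = 1)
    (h2 : ∀ b, μ b ≤ Real.exp (-ds (u a) (u b) / 8)) :
    ∑ b, μ b * ds (u a) (u b) ≤ 16 * (1 + Real.log (Fintype.card A)) := by
  have hn : 1 ≤ Fintype.card A := Fintype.card_pos
  have hn1 : (1 : ℝ) ≤ Fintype.card A := by exact_mod_cast hn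
  have hl : 0 ≤ Real.log (Fintype.card A) := Real.log_nonneg hn1
  set L : ℝ := 1 + Real.log (Fintype.card A) with hL
  have key : ∀ b, μ b * ds (u a) (u b) ≤ μ b * (8 * L) + 8 * L * Real.exp (-L) := by
    intro b
    rcases le_total (ds (u a) (u b)) (8 * L) with h | h
    · have := mul_le_mul_of_nonneg_left h (h0 b)
      have h4 : 0 ≤ 8 * L * Real.exp (-L) := by positivity
      linarith
    · have hd := ds_nonneg (u a) (u b)
      set t : ℝ := ds (u a) (u b) / (8 * L) with ht
      have h8 : 0 < 8 * L := by positivity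
      have ht1 : 1 ≤ t := by rw [ht, le_div_iff₀ h8]; linarith
      have hdt : ds (u a) (u b) = 8 * L * t := by rw [ht, mul_div_cancel₀ _ h8.ne']
      have h5 : μ b * ds (u a) (u b) ≤
          Real.exp (-ds (u a) (u b) / 8) * ds (u a) (u b) :=
        mul_le_mul_of_nonneg_right (h2 b) hd
      have h6 : t ≤ Real.exp (t - 1) := by
        have := Real.add_one_le_exp (t - 1)
        linarith
      have h7 : Real.exp (t - 1) ≤ Real.exp (L * (t - 1)) := by
        apply Real.exp_le_exp.mpr
        nlinarith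
      have h9 : Real.exp (-ds (u a) (u b) / 8) * ds (u a) (u b) ≤ 8 * L * Real.exp (-L) := by
        rw [hdt]
        have e1 : -(8 * L * t) / 8 = -L - L * (t - 1) := by ring
        rw [e1, Real.exp_sub]
        have e2 : 0 < Real.exp (L * (t - 1)) := Real.exp_pos _
        rw [div_mul_eq_mul_div, div_le_iff₀ e2]
        have h10 : t ≤ Real.exp (L * (t - 1)) := h6.trans h7
        have h11 : 0 ≤ 8 * L * Real.exp (-L) := by positivity
        nlinarith
      have h12 : 0 ≤ μ b * (8 * L) := mul_nonneg (h0 b) h8.le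
      linarith
  calc ∑ b, μ b * ds (u a) (u b) ≤ ∑ b, (μ b * (8 * L) + 8 * L * Real.exp (-L)) :=
        sum_le_sum fun b _ => key b
    _ = 8 * L + Fintype.card A * (8 * L * Real.exp (-L)) := by
        rw [sum_add_distrib, ← sum_mul, h1, one_mul, sum_const, card_univ, nsmul_eq_mul]
    _ ≤ 16 * L := by
        have h8 : Real.exp (-L) ≤ (Fintype.card A : ℝ)⁻¹ := by
          rw [← Real.exp_log (show (0 : ℝ) < Fintype.card A by linarith), ← Real.exp_neg]
          apply Real.exp_le_exp.mpr
          linarith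
        have h9 : (Fintype.card A : ℝ) * (8 * L * Real.exp (-L)) ≤ 8 * L := by
          calc (Fintype.card A : ℝ) * (8 * L * Real.exp (-L)) ≤
                (Fintype.card A : ℝ) * (8 * L * (Fintype.card A : ℝ)⁻¹) := by gcongr
            _ = 8 * L := by field_simp
        linarith

end Vale.Agent.P249
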