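import Mathlib

/-!
P249 (dimension reduction), Gaussian module: for `n` points in Euclidean space and a scale `s` there are
probability measures `ν a` on the index set, `ν a` = law of the index of the point nearest to `z a + s G`,
with mean distance `O (s √(log n + 1))` and with overlap at least `1/4` when `|z a - z b| ≤ s`.
-/

namespace Vale.Agent.P249

open MeasureTheory Finset

variable {m n : ℕ}

/-- the centred Gaussian density of variance `s^2` -/
noncomputable def gd (s : ℝ) (y : Fin m → ℝ) : ℝ :=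
  ((Real.sqrt (2 * Real.pi * s ^ 2))⁻¹) ^ m * Real.exp (-(∑ i, y i ^ 2) / (2 * s ^ 2))

theorem gd_nonneg (s : ℝ) (y : Fin m → ℝ) : 0 ≤ gd s y := by unfold gd; positivity

theorem gd_eq_prod (s : ℝ) (y : Fin m → ℝ) :
    gd s y = ∏ i, ProbabilityTheory.gaussianPDFReal 0 ⟨s ^ 2, sq_nonneg s⟩ (y i) := by
  unfold gd ProbabilityTheory.gaussianPDFReal
  rw [prod_mul_distrib, prod_const, card_univ, Fintype.card_fin, ← Real.exp_sum]
  congr 2
  rw [← sum_div, sum_neg_distrib]
  simp only [sub_zero]
  rfl

theorem gd_cont (s : ℝ) : Continuous (gd (m := m) s) := by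
  unfold gd
  fun_prop

theorem gd_int (s : ℝ) (hs : 0 < s) : ∫ y : Fin m → ℝ, gd s y = 1 := by
  simp_rw [gd_eq_prod]
  rw [integral_fintype_prod_volume_eq_prod
    (f := fun _ : Fin m => ProbabilityTheory.gaussianPDFReal 0 ⟨s ^ 2, sq_nonneg s⟩)]
  refine prod_eq_one fun i _ => ?_
  refine ProbabilityTheory.integral_gaussianPDFReal_eq_one 0 ?_
  intro h
  have h2 : s ^ 2 = 0 := congrArg NNReal.toReal h
  exact hs.ne' (pow_eq_zero_iff two_ne_zero |>.mp h2)

theorem gd_integrable (s : ℝ) (hs : 0 < s) : Integrable (gd (m := m) s) := by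
  by_contra h
  have := integral_undef h
  rw [gd_int s hs] at this
  norm_num at this

theorem gd_shift_integrable (s : ℝ) (hs : 0 < s) (u : Fin m → ℝ) :
    Integrable (fun y : Fin m → ℝ => gd s (y - u)) :=
  (gd_integrable s hs).comp_sub_right u

theorem gd_shift_int (s : ℝ) (hs : 0 < s) (u : Fin m → ℝ) :
    ∫ y : Fin m → ℝ, gd s (y - u) = 1 := by
  rw [integral_sub_right_eq_self (fun y => gd s y) u, gd_int s hs]

/-- completing the square, product -/
theorem gd_mul (s : ℝ) (hs : 0 < s) (u v y : Fin m → ℝ) :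
    gd s (y - u) * gd s (y - v) =
      (Real.exp (-(∑ i, (u i - v i) ^ 2) / (8 * s ^ 2)) *
        gd s (y - fun i => (u i + v i) / 2)) ^ 2 := by
  unfold gd
  have e1 : ∀ a b c d : ℝ, a * Real.exp b * (a * Real.exp c) = (a * a) * Real.exp (b + c) := by
    intro a b c d; rw [Real.exp_add]; ring
  have e2 : ∀ a b c : ℝ, (Real.exp b * (a * Real.exp c)) ^ 2 = (a * a) * Real.exp (2 * (b + c)) := by
    intro a b c
    rw [two_mul, Real.exp_add, Real.exp_add]; ring
  rw [e1 _ _ _ 0, e2]
  congr 2
  have hs2 : s ^ 2 ≠ 0 := by positivity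
  have h : (∑ i, (y - u) i ^ 2) + (∑ i, (y - v) i ^ 2) =
      2 * (∑ i, (y - fun i => (u i + v i) / 2) i ^ 2) + (∑ i, (u i - v i) ^ 2) / 2 := by
    rw [← sum_add_distrib, mul_sum, sum_div, ← sum_add_distrib]
    refine sum_congr rfl fun i _ => ?_
    simp only [Pi.sub_apply]
    ring
  field_simp
  linarith

/-- completing the square, exponential moment -/
theorem gd_exp (s : ℝ) (hs : 0 < s) (w y : Fin m → ℝ) :
    gd s y * Real.exp (∑ i, y i * w i) =
      Real.exp (s ^ 2 * (∑ i, w i ^ 2) / 2) * gd s (y - fun i => s ^ 2 * w i) := by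
  unfold gd
  have e1 : ∀ a b c : ℝ, a * Real.exp b * Real.exp c = a * Real.exp (b + c) := by
    intro a b c; rw [Real.exp_add]; ring
  have e2 : ∀ a b c : ℝ, Real.exp b * (a * Real.exp c) = a * Real.exp (b + c) := by
    intro a b c; rw [Real.exp_add]; ring
  rw [e1, e2]
  congr 2
  have hs2 : s ^ 2 ≠ 0 := by positivity
  have h : (∑ i, (y - fun i => s ^ 2 * w i) i ^ 2) =
      (∑ i, y i ^ 2) - 2 * s ^ 2 * (∑ i, y i * w i) + s ^ 2 * s ^ 2 * (∑ i, w i ^ 2) := by
    rw [mul_sum, mul_sum, ← sum_sub_distrib, ← sum_add_distrib]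
    refine sum_congr rfl fun i _ => ?_
    simp only [Pi.sub_apply]
    ring
  rw [h]
  field_simp
  ring

/-- squared distance -/
def q2 (u v : Fin m → ℝ) : ℝ := ∑ i, (u i - v i) ^ 2

/-- the cell of the index `c` -/
def cell (z : Fin n → Fin m → ℝ) (c : Fin n) : Set (Fin m → ℝ) :=
  {y | (∀ c', q2 y (z c) ≤ q2 y (z c')) ∧ ∀ c', c' < c → q2 y (z c) < q2 y (z c')}

theorem cell_meas (z : Fin n → Fin m → ℝ) (c : Fin n) : MeasurableSet (cell z c) := by
  have hc : ∀ c, Continuous (fun y : Fin m → ℝ => q2 y (z c)) := by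
    intro c; unfold q2; fun_prop
  have he : cell z c = (⋂ c', {y : Fin m → ℝ | q2 y (z c) ≤ q2 y (z c')}) ∩
      ⋂ c', ⋂ (_ : c' < c), {y : Fin m → ℝ | q2 y (z c) < q2 y (z c')} := by
    ext y
    simp [cell]
  rw [he]
  refine MeasurableSet.inter ?_ ?_
  · exact MeasurableSet.iInter fun c' => (isClosed_le (hc c) (hc c')).measurableSet
  · exact MeasurableSet.iInter fun c' => MeasurableSet.iInter fun _ =>
      (isOpen_lt (hc c) (hc c')).measurableSet

theorem cell_cover (hn : 1 ≤ n) (z : Fin n → Fin m → ℝ) (y : Fin m → ℝ) : ∃ c, y ∈ cell z c := by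
  classical
  have : Nonempty (Fin n) := ⟨⟨0, hn⟩⟩
  obtain ⟨c0, _, h0⟩ := exists_min_image univ (fun c => q2 y (z c)) univ_nonempty
  have hne : (univ.filter (fun c => ∀ c', q2 y (z c) ≤ q2 y (z c'))).Nonempty :=
    ⟨c0, by simp only [mem_filter, mem_univ, true_and]; exact fun c' => h0 c' (mem_univ _)⟩
  refine ⟨(univ.filter (fun c => ∀ c', q2 y (z c) ≤ q2 y (z c'))).min' hne, ?_, ?_⟩
  · have := min'_mem _ hne
    simp only [mem_filter, mem_univ, true_and] at this
    exact this
  · intro c' hc'
    have h1 := min'_mem _ hne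
    simp only [mem_filter, mem_univ, true_and] at h1
    by_contra hcon
    push Not at hcon
    have h2 : c' ∈ univ.filter (fun c => ∀ c', q2 y (z c) ≤ q2 y (z c')) := by
      simp only [mem_filter, mem_univ, true_and]
      exact fun d => hcon.trans (h1 d)
    exact absurd (min'_le _ _ h2) (not_le.mpr hc')

theorem cell_unique (z : Fin n → Fin m → ℝ) (y : Fin m → ℝ) {c d : Fin n} (hc : y ∈ cell z c)
    (hd : y ∈ cell z d) : c = d := by
  by_contra h
  rcases lt_or_gt_of_ne h with h | h
  · exact absurd (hc.1 d) (not_le.mpr (hd.2 c h))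
  · exact absurd (hd.1 c) (not_le.mpr (hc.2 d h))

/-- partition of unity -/
theorem cell_sum (hn : 1 ≤ n) (z : Fin n → Fin m → ℝ) (f : (Fin m → ℝ) → ℝ) (y : Fin m → ℝ) :
    ∑ c, (cell z c).indicator f y = f y := by
  classical
  obtain ⟨c, hc⟩ := cell_cover hn z y
  rw [sum_eq_single c]
  · exact Set.indicator_of_mem hc f
  · intro d _ hd
    exact Set.indicator_of_notMem (fun h => hd (cell_unique z y h hc)) f
  · intro h; exact absurd (mem_univ c) h

theorem sum_cell_int (hn : 1 ≤ n) (z : Fin n → Fin m → ℝ) (f : (Fin m → ℝ) → ℝ)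
    (hf : Integrable f) : ∑ c, ∫ y in cell z c, f y = ∫ y, f y := by
  have h1 : ∀ c, ∫ y in cell z c, f y = ∫ y, (cell z c).indicator f y := fun c =>
    (integral_indicator (cell_meas z c)).symm
  simp_rw [h1]
  rw [← integral_finsetSum]
  · exact integral_congr_ae (Filter.Eventually.of_forall fun y => cell_sum hn z f y)
  · intro c _
    exact hf.indicator (cell_meas z c)

/-- **Gaussian nearest point measures.** -/
theorem gauss_near (m n : ℕ) (hn : 1 ≤ n) (z : Fin n → Fin m → ℝ) (s : ℝ) (hs : 0 < s) :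
    ∃ ν : Fin n → Fin n → ℝ, (∀ a c, 0 ≤ ν a c) ∧ (∀ a, ∑ c, ν a c = 1) ∧
      (∀ a, ∑ c, ν a c * Real.sqrt (∑ i, (z a i - z c i) ^ 2) ≤ 4 * s * Real.sqrt (Real.log n + 1)) ∧
      (∀ a b, ∑ i, (z a i - z b i) ^ 2 ≤ s ^ 2 → 1 / 4 ≤ ∑ c, min (ν a c) (ν b c)) := by
  refine ⟨fun a c => ∫ y in cell z c, gd s (y - z a), ?_, ?_, ?_, ?_⟩
  · intro a c
    exact setIntegral_nonneg (cell_meas z c) fun y _ => gd_nonneg s _
  · intro a
    rw [sum_cell_int hn z _ (gd_shift_integrable s hs (z a)), gd_shift_int s hs]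
  · intro a
    have hln : 0 ≤ Real.log n := Real.log_nonneg (by exact_mod_cast hn)
    set L := Real.sqrt (Real.log n + 1) with hL
    have hL2 : L ^ 2 = Real.log n + 1 := Real.sq_sqrt (by linarith)
    have hL0 : 0 < L := Real.sqrt_pos.mpr (by linarith)
    set lam := L / s with hlam
    have hlam0 : 0 < lam := by positivity
    -- exponential moment
    have hexp : ∀ c : Fin n, (∫ y in cell z c, gd s (y - z a)) *
        Real.exp (lam * Real.sqrt (∑ i, (z a i - z c i) ^ 2)) ≤ Real.exp (2 * lam ^ 2 * s ^ 2) := by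
      intro c
      set r := Real.sqrt (∑ i, (z a i - z c i) ^ 2) with hr
      have hr0 : 0 ≤ r := Real.sqrt_nonneg _
      have hr2 : r ^ 2 = ∑ i, (z a i - z c i) ^ 2 :=
        Real.sq_sqrt (sum_nonneg fun _ _ => sq_nonneg _)
      -- unit vector
      set w : Fin m → ℝ := fun i => 2 * lam * ((z c i - z a i) / r) with hw
      have hww : ∑ i, w i ^ 2 ≤ 4 * lam ^ 2 := by
        have : ∑ i, w i ^ 2 = 4 * lam ^ 2 * ((∑ i, (z a i - z c i) ^ 2) / r ^ 2) := by
          rw [sum_div, mul_sum]
          refine sum_congr rfl fun i _ => ?_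
          simp only [hw]
          ring
        rw [this, ← hr2]
        have h1 : r ^ 2 / r ^ 2 ≤ 1 := div_self_le_one _
        nlinarith [sq_nonneg lam]
      -- pointwise bound on the cell
      have hpt : ∀ y ∈ cell z c, gd s (y - z a) * Real.exp (lam * r) ≤
          Real.exp (s ^ 2 * (∑ i, w i ^ 2) / 2) * gd s ((y - z a) - fun i => s ^ 2 * w i) := by
        intro y hy
        rw [← gd_exp s hs]
        refine mul_le_mul_of_nonneg_left (Real.exp_le_exp.mpr ?_) (gd_nonneg _ _)
        have h1 := hy.1 a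
        unfold q2 at h1
        have h2 : ∑ i, (y i - z c i) ^ 2 = ∑ i, (y i - z a i) ^ 2 -
            2 * (∑ i, (y - z a) i * (z c i - z a i)) + ∑ i, (z a i - z c i) ^ 2 := by
          rw [mul_sum, ← sum_sub_distrib, ← sum_add_distrib]
          refine sum_congr rfl fun i _ => ?_
          simp only [Pi.sub_apply]
          ring
        have h3 : r ^ 2 ≤ 2 * ∑ i, (y - z a) i * (z c i - z a i) := by rw [hr2]; linarith
        have h4 : ∑ i, (y - z a) i * w i =
            2 * lam * ((∑ i, (y - z a) i * (z c i - z a i)) / r) := by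
          rw [sum_div, mul_sum]
          refine sum_congr rfl fun i _ => ?_
          simp only [hw]
          ring
        rw [h4]
        rcases hr0.eq_or_lt with h0 | h0
        · rw [← h0]; simp
        · have h5 : r / 2 ≤ (∑ i, (y - z a) i * (z c i - z a i)) / r := by
            rw [le_div_iff₀ h0]; nlinarith
          nlinarith
      have hi1 : Integrable (fun y : Fin m → ℝ =>
          Real.exp (s ^ 2 * (∑ i, w i ^ 2) / 2) * gd s ((y - z a) - fun i => s ^ 2 * w i)) := by
        refine Integrable.const_mul ?_ _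
        have := gd_shift_integrable s hs (z a + fun i => s ^ 2 * w i)
        simpa only [sub_sub] using this
      calc (∫ y in cell z c, gd s (y - z a)) * Real.exp (lam * r)
          = ∫ y in cell z c, gd s (y - z a) * Real.exp (lam * r) := by
            rw [integral_mul_const]
        _ ≤ ∫ y in cell z c, Real.exp (s ^ 2 * (∑ i, w i ^ 2) / 2) *
              gd s ((y - z a) - fun i => s ^ 2 * w i) := by
            refine setIntegral_mono_on ?_ hi1.integrableOn (cell_meas z c) hpt
            exact ((gd_shift_integrable s hs (z a)).mul_const _).integrableOn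
        _ ≤ ∫ y, Real.exp (s ^ 2 * (∑ i, w i ^ 2) / 2) *
              gd s ((y - z a) - fun i => s ^ 2 * w i) := by
            refine setIntegral_le_integral hi1 (Filter.Eventually.of_forall fun y => ?_)
            exact mul_nonneg (Real.exp_pos _).le (gd_nonneg _ _)
        _ = Real.exp (s ^ 2 * (∑ i, w i ^ 2) / 2) := by
            rw [integral_const_mul]
            have := gd_shift_int s hs (z a + fun i => s ^ 2 * w i)
            simp only [sub_sub]
            rw [this, mul_one]
        _ ≤ Real.exp (2 * lam ^ 2 * s ^ 2) := by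
            refine Real.exp_le_exp.mpr ?_
            nlinarith [sq_nonneg s]
    -- x ≤ e^x - 1 with x = lam r - T
    set T := Real.log n + 2 * lam ^ 2 * s ^ 2 with hT
    have hmean : ∀ c : Fin n, (∫ y in cell z c, gd s (y - z a)) *
        (lam * Real.sqrt (∑ i, (z a i - z c i) ^ 2)) ≤
        (T - 1) * (∫ y in cell z c, gd s (y - z a)) + 1 / n := by
      intro c
      set r := Real.sqrt (∑ i, (z a i - z c i) ^ 2) with hr
      have hν : 0 ≤ ∫ y in cell z c, gd s (y - z a) :=
        setIntegral_nonneg (cell_meas z c) fun y _ => gd_nonneg s _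
      have h1 : lam * r - T + 1 ≤ Real.exp (lam * r - T) := Real.add_one_le_exp _
      have h2 : lam * r ≤ (T - 1) + Real.exp (lam * r) * Real.exp (-T) := by
        rw [← Real.exp_add]; have : lam * r + -T = lam * r - T := by ring
        rw [this]; linarith
      have h3 : Real.exp (-T) * Real.exp (2 * lam ^ 2 * s ^ 2) = 1 / n := by
        rw [← Real.exp_add, hT]
        have : -(Real.log n + 2 * lam ^ 2 * s ^ 2) + 2 * lam ^ 2 * s ^ 2 = -Real.log n := by ring
        rw [this, Real.exp_neg, Real.exp_log (by exact_mod_cast hn), one_div]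
      calc (∫ y in cell z c, gd s (y - z a)) * (lam * r)
          ≤ (∫ y in cell z c, gd s (y - z a)) *
              ((T - 1) + Real.exp (lam * r) * Real.exp (-T)) := mul_le_mul_of_nonneg_left h2 hν
        _ = (T - 1) * (∫ y in cell z c, gd s (y - z a)) +
              Real.exp (-T) * ((∫ y in cell z c, gd s (y - z a)) * Real.exp (lam * r)) := by ring
        _ ≤ (T - 1) * (∫ y in cell z c, gd s (y - z a)) +
              Real.exp (-T) * Real.exp (2 * lam ^ 2 * s ^ 2) := by
            have := mul_le_mul_of_nonneg_left (hexp c) (Real.exp_pos (-T)).le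
            linarith
        _ = _ := by rw [h3]
    have hsum := sum_le_sum fun c (_ : c ∈ (univ : Finset (Fin n))) => hmean c
    rw [sum_add_distrib, ← mul_sum, sum_cell_int hn z _ (gd_shift_integrable s hs (z a)),
      gd_shift_int s hs, sum_const, card_univ, Fintype.card_fin, nsmul_eq_mul] at hsum
    have hn0 : (n : ℝ) ≠ 0 := by
      have : (0 : ℝ) < n := by exact_mod_cast hn
      exact this.ne'
    rw [mul_one, mul_one_div, div_self hn0] at hsum
    have hsum2 : lam * ∑ c, (∫ y in cell z c, gd s (y - z a)) *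
        Real.sqrt (∑ i, (z a i - z c i) ^ 2) ≤ T := by
      rw [mul_sum]
      have : ∑ c, lam * ((∫ y in cell z c, gd s (y - z a)) *
          Real.sqrt (∑ i, (z a i - z c i) ^ 2)) =
          ∑ c, (∫ y in cell z c, gd s (y - z a)) *
          (lam * Real.sqrt (∑ i, (z a i - z c i) ^ 2)) :=
        sum_congr rfl fun c _ => by ring
      rw [this]; linarith
    have hTle : T ≤ lam * (4 * s * L) := by
      have h1 : lam * s = L := by rw [hlam]; field_simp
      have h2 : lam ^ 2 * s ^ 2 = L ^ 2 := by rw [← mul_pow, h1]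
      have h3 : lam * (4 * s * L) = 4 * L ^ 2 := by
        calc lam * (4 * s * L) = 4 * (lam * s) * L := by ring
          _ = 4 * L ^ 2 := by rw [h1]; ring
      rw [h3, hT]
      nlinarith
    exact le_of_mul_le_mul_left (hsum2.trans hTle) hlam0
  · intro a b hab
    have hfa := gd_shift_integrable s hs (z a)
    have hfb := gd_shift_integrable s hs (z b)
    have hmin : Integrable (fun y : Fin m → ℝ => min (gd s (y - z a)) (gd s (y - z b))) :=
      hfa.inf hfb
    -- data processing
    have h1 : ∫ y : Fin m → ℝ, min (gd s (y - z a)) (gd s (y - z b)) ≤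
        ∑ c, min (∫ y in cell z c, gd s (y - z a)) (∫ y in cell z c, gd s (y - z b)) := by
      rw [← sum_cell_int hn z _ hmin]
      refine sum_le_sum fun c _ => le_min ?_ ?_
      · exact setIntegral_mono hmin.integrableOn hfa.integrableOn fun y => min_le_left _ _
      · exact setIntegral_mono hmin.integrableOn hfb.integrableOn fun y => min_le_right _ _
    refine le_trans ?_ h1
    set ρ := Real.exp (-(∑ i, (z a i - z b i) ^ 2) / (8 * s ^ 2)) with hρ
    have hρ0 : 0 < ρ := Real.exp_pos _
    have hρ1 : 7 / 8 ≤ ρ := by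
      have h2 : -(1 / 8 : ℝ) ≤ -(∑ i, (z a i - z b i) ^ 2) / (8 * s ^ 2) := by
        rw [le_div_iff₀ (by positivity)]
        nlinarith
      have h3 := Real.add_one_le_exp (-(1 / 8 : ℝ))
      have h4 := Real.exp_le_exp.mpr h2
      linarith
    have hpt : ∀ y : Fin m → ℝ, 2 * (ρ * gd s (y - fun i => (z a i + z b i) / 2)) -
        (ρ / 2) * (gd s (y - z a) + gd s (y - z b)) ≤
        (2 / ρ) * min (gd s (y - z a)) (gd s (y - z b)) := by
      intro y
      have hm := gd_mul s hs (z a) (z b) y
      rw [← hρ] at hm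
      set A := gd s (y - z a)
      set B := gd s (y - z b)
      set Cc := ρ * gd s (y - fun i => (z a i + z b i) / 2)
      have hA : 0 ≤ A := gd_nonneg _ _
      have hB : 0 ≤ B := gd_nonneg _ _
      have hC : 0 ≤ Cc := mul_nonneg hρ0.le (gd_nonneg _ _)
      -- 2 C ≤ (2/ρ) min + (ρ/2) max
      have key : ∀ x t : ℝ, 0 ≤ x → 0 ≤ t → x * t = Cc ^ 2 → 2 * Cc ≤ (2 / ρ) * x + (ρ / 2) * t := by
        intro x t hx ht hxt
        have h5 : (2 * Cc) ^ 2 ≤ ((2 / ρ) * x + (ρ / 2) * t) ^ 2 := by
          have h6 : (2 / ρ) * x * ((ρ / 2) * t) = Cc ^ 2 := by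
            rw [← hxt]; field_simp
          nlinarith [sq_nonneg ((2 / ρ) * x - (ρ / 2) * t)]
        exact (pow_le_pow_iff_left₀ (by positivity) (by positivity) two_ne_zero).mp h5
      rcases le_total A B with h | h
      · rw [min_eq_left h]
        have := key A B hA hB hm
        nlinarith
      · rw [min_eq_right h]
        have := key B A hB hA (by rw [mul_comm]; exact hm)
        nlinarith
    have hint : ∫ y : Fin m → ℝ, (2 * (ρ * gd s (y - fun i => (z a i + z b i) / 2)) -
        (ρ / 2) * (gd s (y - z a) + gd s (y - z b))) ≤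
        ∫ y : Fin m → ℝ, (2 / ρ) * min (gd s (y - z a)) (gd s (y - z b)) := by
      refine integral_mono ?_ (hmin.const_mul _) hpt
      exact (((gd_shift_integrable s hs _).const_mul ρ).const_mul 2).sub
        ((hfa.add hfb).const_mul _)
    rw [integral_sub, integral_const_mul, integral_const_mul, integral_const_mul, integral_add hfa hfb,
      gd_shift_int s hs, gd_shift_int s hs, gd_shift_int s hs, integral_const_mul] at hint
    · have h2 : 2 * (ρ * 1) - ρ / 2 * (1 + 1) = ρ := by ring
      rw [h2] at hint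
      have h3 : ρ * ρ / 2 ≤ ∫ y : Fin m → ℝ, min (gd s (y - z a)) (gd s (y - z b)) := by
        have h4 := mul_le_mul_of_nonneg_left hint (show 0 ≤ ρ / 2 by positivity)
        have h5 : ρ / 2 * (2 / ρ * ∫ y : Fin m → ℝ, min (gd s (y - z a)) (gd s (y - z b))) =
            ∫ y : Fin m → ℝ, min (gd s (y - z a)) (gd s (y - z b)) := by
          field_simp
        rw [h5] at h4
        linarith
      nlinarith
    · exact ((gd_shift_integrable s hs _).const_mul ρ).const_mul 2
    · exact (hfa.add hfb).const_mul _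

end Vale.Agent.P249
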