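import Mathlib

/-!
# Hajlasz gradients for finite subsets of `l_p^W`  (module HG of P249)
-/

namespace Vale.Agent.Lib.P249

open Finset

/-- The `l_p` norm of a vector. -/
noncomputable def nrm {W : Type*} [Fintype W] (p : ℝ) (v : W → ℝ) : ℝ :=
  (∑ w, |v w| ^ p) ^ (1 / p)

section Norm

variable {W : Type*} [Fintype W] {p : ℝ}

theorem nrm_nonneg (p : ℝ) (v : W → ℝ) : 0 ≤ nrm p v := by
  unfold nrm
  exact Real.rpow_nonneg (Finset.sum_nonneg fun w _ => Real.rpow_nonneg (abs_nonneg _) _) _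

theorem nrm_rpow (hp : 0 < p) (v : W → ℝ) : nrm p v ^ p = ∑ w, |v w| ^ p := by
  unfold nrm
  rw [← Real.rpow_mul (Finset.sum_nonneg fun w _ => Real.rpow_nonneg (abs_nonneg _) _),
    one_div_mul_cancel hp.ne', Real.rpow_one]

theorem nrm_congr_abs (v v' : W → ℝ) (h : ∀ w, |v w| = |v' w|) : nrm p v = nrm p v' := by
  unfold nrm
  simp only [h]

theorem nrm_mono (hp : 0 < p) (v v' : W → ℝ) (h : ∀ w, |v w| ≤ |v' w|) : nrm p v ≤ nrm p v' := by
  unfold nrm
  apply Real.rpow_le_rpow (Finset.sum_nonneg fun w _ => Real.rpow_nonneg (abs_nonneg _) _)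
  · apply Finset.sum_le_sum
    intro w _
    exact Real.rpow_le_rpow (abs_nonneg _) (h w) hp.le
  · positivity

theorem nrm_add_le (hp : 1 ≤ p) (v v' : W → ℝ) :
    nrm p (fun w => v w + v' w) ≤ nrm p v + nrm p v' := by
  unfold nrm
  exact Real.Lp_add_le (Finset.univ) v v' hp

theorem nrm_smul (hp : 0 < p) (c : ℝ) (v : W → ℝ) :
    nrm p (fun w => c * v w) = |c| * nrm p v := by
  unfold nrm
  have : ∀ w, |c * v w| ^ p = |c| ^ p * |v w| ^ p := fun w => by
    rw [abs_mul, Real.mul_rpow (abs_nonneg _) (abs_nonneg _)]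
  simp only [this]
  rw [← Finset.mul_sum, Real.mul_rpow (Real.rpow_nonneg (abs_nonneg _) _)
    (Finset.sum_nonneg fun w _ => Real.rpow_nonneg (abs_nonneg _) _),
    ← Real.rpow_mul (abs_nonneg _), mul_one_div_cancel hp.ne', Real.rpow_one]

theorem nrm_zero (hp : 0 < p) : nrm p (fun _ : W => (0:ℝ)) = 0 := by
  unfold nrm
  simp [hp.ne']

theorem nrm_sum_le {I : Type*} (hp : 1 ≤ p) (s : Finset I) (v : I → W → ℝ) :
    nrm p (fun w => ∑ i ∈ s, v i w) ≤ ∑ i ∈ s, nrm p (v i) := by
  classical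
  induction s using Finset.induction_on with
  | empty => simp [nrm_zero (lt_of_lt_of_le one_pos hp)]
  | insert i s hi ih =>
    simp only [Finset.sum_insert hi]
    exact (nrm_add_le hp _ _).trans (by linarith)

theorem abs_le_nrm (hp : 0 < p) (v : W → ℝ) (w : W) : |v w| ≤ nrm p v := by
  have h1 : |v w| ^ p ≤ nrm p v ^ p := by
    rw [nrm_rpow hp]
    exact Finset.single_le_sum (f := fun w => |v w| ^ p)
      (fun w _ => Real.rpow_nonneg (abs_nonneg _) _) (Finset.mem_univ w)
  exact (Real.rpow_le_rpow_iff (abs_nonneg _) (nrm_nonneg p v) hp).1 h1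

end Norm

section Dist

variable {A W : Type*} [Fintype W] {p : ℝ}

/-- The `l_p` distance of two points of the family `x`. -/
noncomputable def dd (p : ℝ) (x : A → W → ℝ) (a b : A) : ℝ := nrm p (fun w => x a w - x b w)

theorem dd_nonneg (p : ℝ) (x : A → W → ℝ) (a b : A) : 0 ≤ dd p x a b := nrm_nonneg _ _

theorem dd_self (hp : 0 < p) (x : A → W → ℝ) (a : A) : dd p x a a = 0 := by
  unfold dd
  simpa using nrm_zero (W := W) hp

theorem dd_comm (p : ℝ) (x : A → W → ℝ) (a b : A) : dd p x a b = dd p x b a := by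
  unfold dd
  exact nrm_congr_abs _ _ fun w => abs_sub_comm _ _

theorem dd_tri (hp : 1 ≤ p) (x : A → W → ℝ) (a b c : A) :
    dd p x a c ≤ dd p x a b + dd p x b c := by
  unfold dd
  have h := nrm_add_le hp (fun w => x a w - x b w) (fun w => x b w - x c w)
  have h2 : (fun w => x a w - x b w + (x b w - x c w)) = fun w => x a w - x c w := by
    funext w; ring
  rwa [h2] at h

theorem abs_sub_le_dd (hp : 0 < p) (x : A → W → ℝ) (a b : A) (w : W) :
    |x a w - x b w| ≤ dd p x a b := abs_le_nrm hp (fun w => x a w - x b w) w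

end Dist

section Kernel

variable {A : Type*} [Fintype A]

/-- The partition function. -/
noncomputable def ZZ (d : A → ℝ) (s : ℝ) : ℝ := ∑ c, Real.exp (-(s * d c))

/-- The exponential probability measure at inverse scale `s` seen from a point with distances
`d`. -/
noncomputable def mu (d : A → ℝ) (s : ℝ) (b : A) : ℝ := Real.exp (-(s * d b)) / ZZ d s

/-- The mean displacement, measured in the scale. -/
noncomputable def sc (d : A → ℝ) (s : ℝ) : ℝ := s * ∑ b, mu d s b * d b

theorem ZZ_pos [Nonempty A] (d : A → ℝ) (s : ℝ) : 0 < ZZ d s :=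
  Finset.sum_pos (fun _ _ => Real.exp_pos _) Finset.univ_nonempty

theorem mu_pos [Nonempty A] (d : A → ℝ) (s : ℝ) (b : A) : 0 < mu d s b :=
  div_pos (Real.exp_pos _) (ZZ_pos d s)

theorem mu_sum [Nonempty A] (d : A → ℝ) (s : ℝ) : ∑ b, mu d s b = 1 := by
  unfold mu
  rw [← Finset.sum_div]
  exact div_self (ZZ_pos d s).ne'

theorem sc_nonneg [Nonempty A] (d : A → ℝ) (hd : ∀ b, 0 ≤ d b) {s : ℝ} (hs : 0 ≤ s) :
    0 ≤ sc d s :=
  mul_nonneg hs (Finset.sum_nonneg fun b _ => mul_nonneg (mu_pos d s b).le (hd b))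

/-- One step of the telescoping: `s E_s d ≤ 2 (log Z(s/2) - log Z(s))`. -/
theorem sc_le [Nonempty A] (d : A → ℝ) (s : ℝ) :
    sc d s ≤ 2 * (Real.log (ZZ d (s / 2)) - Real.log (ZZ d s)) := by
  have hZ := ZZ_pos d s
  have hZ2 := ZZ_pos d (s / 2)
  -- the ratio is the mean of exp (s d / 2)
  have hratio : ZZ d (s / 2) / ZZ d s = ∑ b, mu d s b * Real.exp (s * d b / 2) := by
    unfold mu
    rw [ZZ, Finset.sum_div]
    apply Finset.sum_congr rfl
    intro b _
    have he : Real.exp (-(s / 2 * d b)) = Real.exp (-(s * d b)) * Real.exp (s * d b / 2) := by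
      rw [← Real.exp_add]
      congr 1
      ring
    rw [he]
    ring
  rw [← Real.log_div hZ2.ne' hZ.ne', hratio]
  -- Jensen
  set E : ℝ := ∑ b, mu d s b * (s * d b / 2) with hE
  have hJ : Real.exp E ≤ ∑ b, mu d s b * Real.exp (s * d b / 2) := by
    have hc := convexOn_exp.map_sum_le (t := (Finset.univ : Finset A)) (w := fun b => mu d s b)
      (p := fun b => s * d b / 2) (fun b _ => (mu_pos d s b).le) (mu_sum d s)
      (fun b _ => Set.mem_univ _)
    simpa [smul_eq_mul] using hc
  have hlog : E ≤ Real.log (∑ b, mu d s b * Real.exp (s * d b / 2)) := by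
    rw [Real.le_log_iff_exp_le (lt_of_lt_of_le (Real.exp_pos _) hJ)]
    exact hJ
  have hEs : sc d s = 2 * E := by
    rw [sc, hE, Finset.mul_sum, Finset.mul_sum]
    apply Finset.sum_congr rfl
    intro b _
    ring
  rw [hEs]
  linarith

/-- **Budget.** Over a geometric sequence of scales the displacements add up to `2 log n`. -/
theorem sc_sum_le [Nonempty A] (d : A → ℝ) (hd : ∀ b, 0 ≤ d b) (a : A) (ha : d a = 0)
    {s : ℝ} (hs : 0 ≤ s) (M : ℕ) :
    ∑ i ∈ Finset.range M, sc d (s / 2 ^ i) ≤ 2 * Real.log (Fintype.card A) := by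
  have h1 : ∀ M : ℕ, ∑ i ∈ Finset.range M, sc d (s / 2 ^ i) ≤
      2 * (Real.log (ZZ d (s / 2 ^ M)) - Real.log (ZZ d s)) := by
    intro M
    induction M with
    | zero => simp
    | succ M ih =>
      rw [Finset.sum_range_succ]
      have h := sc_le d (s / 2 ^ M)
      have h2 : s / 2 ^ M / 2 = s / 2 ^ (M + 1) := by rw [pow_succ]; field_simp
      rw [h2] at h
      linarith
  refine (h1 M).trans ?_
  have hZ1 : 1 ≤ ZZ d s := by
    have h := Finset.single_le_sum (f := fun c => Real.exp (-(s * d c)))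
      (fun c _ => (Real.exp_pos _).le) (Finset.mem_univ a)
    have h3 : Real.exp (-(s * d a)) = 1 := by rw [ha]; simp
    simp only [h3] at h
    exact h
  have hZ2 : ZZ d (s / 2 ^ M) ≤ Fintype.card A := by
    have h : ZZ d (s / 2 ^ M) ≤ ∑ _c : A, (1:ℝ) := by
      apply Finset.sum_le_sum
      intro c _
      rw [Real.exp_le_one_iff]
      have : 0 ≤ s / 2 ^ M * d c := mul_nonneg (by positivity) (hd c)
      linarith
    simpa using h
  have h4 := Real.log_nonneg hZ1
  have h5 := Real.log_le_log (ZZ_pos d (s / 2 ^ M)) hZ2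
  linarith

/-- Comparison of the measures seen from two points. -/
theorem mu_compare [Nonempty A] (d d' : A → ℝ) {s : ℝ} (_hs : 0 ≤ s)
    (h : ∀ c, |d c - d' c| * s ≤ 1) (c : A) : mu d s c ≤ Real.exp 2 * mu d' s c := by
  have h0 : ∀ c, |s * d c - s * d' c| ≤ 1 := fun c => by
    have h2 := h c
    rw [← mul_sub, abs_mul, abs_of_nonneg _hs, mul_comm]
    exact h2
  have h1 : Real.exp (-(s * d c)) ≤ Real.exp 1 * Real.exp (-(s * d' c)) := by
    rw [← Real.exp_add]
    apply Real.exp_le_exp.2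
    have := abs_le.1 (h0 c)
    linarith [this.1, this.2]
  have h2 : ZZ d' s ≤ Real.exp 1 * ZZ d s := by
    unfold ZZ
    rw [Finset.mul_sum]
    apply Finset.sum_le_sum
    intro c _
    rw [← Real.exp_add]
    apply Real.exp_le_exp.2
    have := abs_le.1 (h0 c)
    linarith [this.1, this.2]
  have hZ := ZZ_pos d s
  have hZ' := ZZ_pos d' s
  unfold mu
  rw [← mul_div_assoc, div_le_div_iff₀ hZ hZ']
  have he : Real.exp 2 = Real.exp 1 * Real.exp 1 := by rw [← Real.exp_add]; norm_num
  calc Real.exp (-(s * d c)) * ZZ d' s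
      ≤ (Real.exp 1 * Real.exp (-(s * d' c))) * (Real.exp 1 * ZZ d s) :=
        mul_le_mul h1 h2 hZ'.le (by positivity)
    _ = Real.exp 2 * Real.exp (-(s * d' c)) * ZZ d s := by rw [he]; ring

end Kernel

section Gradient

variable {A W : Type*} [Fintype A] [Fintype W] {p : ℝ}

/-- The local average oscillation of the coordinate `w` around `a` at inverse scale `s`. -/
noncomputable def osc (p : ℝ) (x : A → W → ℝ) (s : ℝ) (a : A) (w : W) : ℝ :=
  s * ∑ c, mu (dd p x a) s c * |x a w - x c w|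

theorem osc_nonneg [Nonempty A] (x : A → W → ℝ) {s : ℝ} (hs : 0 ≤ s) (a : A) (w : W) :
    0 ≤ osc p x s a w :=
  mul_nonneg hs (Finset.sum_nonneg fun c _ => mul_nonneg (mu_pos _ _ _).le (abs_nonneg _))

theorem osc_nrm_le [Nonempty A] (hp : 1 ≤ p) (x : A → W → ℝ) {s : ℝ} (hs : 0 ≤ s) (a : A) :
    nrm p (osc p x s a) ≤ sc (dd p x a) s := by
  have hp0 : 0 < p := lt_of_lt_of_le one_pos hp
  unfold osc sc
  rw [nrm_smul hp0 s (fun w => ∑ c, mu (dd p x a) s c * |x a w - x c w|), abs_of_nonneg hs]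
  apply mul_le_mul_of_nonneg_left _ hs
  refine (nrm_sum_le hp Finset.univ
    (fun c w => mu (dd p x a) s c * |x a w - x c w|)).trans ?_
  apply Finset.sum_le_sum
  intro c _
  rw [nrm_smul hp0 (mu (dd p x a) s c) (fun w => |x a w - x c w|),
    abs_of_nonneg (mu_pos _ _ _).le]
  apply mul_le_mul_of_nonneg_left _ (mu_pos _ _ _).le
  rw [dd]
  exact le_of_eq (nrm_congr_abs _ _ fun w => abs_abs _)

/-- Two points at distance at most `1/s`. -/
theorem osc_compare [Nonempty A] (hp : 1 ≤ p) (x : A → W → ℝ) {s : ℝ} (hs : 0 < s) (a b : A)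
    (hab : dd p x a b * s ≤ 1) (w : W) :
    s * |x a w - x b w| ≤ osc p x s a w + Real.exp 2 * osc p x s b w := by
  have hcomp : ∀ c, mu (dd p x a) s c ≤ Real.exp 2 * mu (dd p x b) s c := by
    apply mu_compare _ _ hs.le
    intro c
    refine le_trans (mul_le_mul_of_nonneg_right ?_ hs.le) hab
    rw [abs_le]
    constructor
    · have := dd_tri hp x b a c
      rw [dd_comm p x b a] at this
      linarith
    · have := dd_tri hp x a b c
      linarith
  unfold osc
  have h1 : |x a w - x b w| = ∑ c, mu (dd p x a) s c * |x a w - x b w| := by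
    rw [← Finset.sum_mul, mu_sum, one_mul]
  have h2 : ∑ c, mu (dd p x a) s c * |x a w - x b w| ≤
      ∑ c, mu (dd p x a) s c * |x a w - x c w| +
        Real.exp 2 * ∑ c, mu (dd p x b) s c * |x b w - x c w| := by
    rw [Finset.mul_sum, ← Finset.sum_add_distrib]
    apply Finset.sum_le_sum
    intro c _
    have h3 : |x a w - x b w| ≤ |x a w - x c w| + |x b w - x c w| := by
      have := abs_sub_le (x a w) (x c w) (x b w)
      rwa [abs_sub_comm (x c w) (x b w)] at this
    have h4 := mul_le_mul_of_nonneg_left h3 (mu_pos (dd p x a) s c).le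
    have h5 := mul_le_mul_of_nonneg_right (hcomp c) (abs_nonneg (x b w - x c w))
    linarith
  calc s * |x a w - x b w|
      = s * ∑ c, mu (dd p x a) s c * |x a w - x b w| := by rw [← h1]
    _ ≤ s * (∑ c, mu (dd p x a) s c * |x a w - x c w| +
        Real.exp 2 * ∑ c, mu (dd p x b) s c * |x b w - x c w|) :=
        mul_le_mul_of_nonneg_left h2 hs.le
    _ = _ := by ring

/-- Every family has a geometric sequence of scales covering all its nonzero distances. -/
theorem exists_scales (d : A → A → ℝ) :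
    ∃ (s : ℝ) (M : ℕ), 0 < s ∧ ∀ a b, 0 < d a b →
      ∃ i ∈ Finset.range M, d a b * (s / 2 ^ i) ≤ 1 ∧ 1 ≤ 2 * (d a b * (s / 2 ^ i)) := by
  classical
  -- smallest nonzero distance
  set P : Finset (A × A) := Finset.univ.filter (fun q => 0 < d q.1 q.2) with hP
  rcases P.eq_empty_or_nonempty with hE | hN
  · refine ⟨1, 0, one_pos, ?_⟩
    intro a b hab
    have : (a, b) ∈ P := by simp [hP, hab]
    rw [hE] at this
    simp at this
  · obtain ⟨q0, hq0, hmin⟩ := P.exists_min_image (fun q => d q.1 q.2) hN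
    obtain ⟨q1, hq1, hmax⟩ := P.exists_max_image (fun q => d q.1 q.2) hN
    have h0 : 0 < d q0.1 q0.2 := by simpa [hP] using hq0
    set r := d q0.1 q0.2 with hr
    set R := d q1.1 q1.2 with hR
    obtain ⟨M, hM⟩ := pow_unbounded_of_one_lt (R / r) (one_lt_two)
    refine ⟨1 / r, M + 1, by positivity, ?_⟩
    intro a b hab
    have hmem : (a, b) ∈ P := by simp [hP, hab]
    have hlow : r ≤ d a b := hmin _ hmem
    have hup : d a b ≤ R := hmax _ hmem
    set t := d a b / r with ht
    have ht1 : 1 ≤ t := by rw [ht, le_div_iff₀ h0]; linarith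
    have htM : t < 2 ^ M := lt_of_le_of_lt (div_le_div_of_nonneg_right hup h0.le) hM
    -- the least i with t ≤ 2 ^ i
    have hex : ∃ i : ℕ, t ≤ 2 ^ i := ⟨M, htM.le⟩
    set i := Nat.find hex with hi
    have hi1 : t ≤ 2 ^ i := Nat.find_spec hex
    have hiM : i ≤ M := Nat.find_min' hex htM.le
    refine ⟨i, Finset.mem_range.2 (by omega), ?_, ?_⟩
    · have : d a b * (1 / r / 2 ^ i) = t / 2 ^ i := by rw [ht]; field_simp
      rw [this]
      exact (div_le_one (by positivity)).2 hi1
    · have hh : d a b * (1 / r / 2 ^ i) = t / 2 ^ i := by rw [ht]; field_simp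
      rw [hh]
      rcases Nat.eq_zero_or_pos i with h | h
      · rw [h]; simp; linarith
      · have hlt : ¬ t ≤ 2 ^ (i - 1) := Nat.find_min hex (by omega)
        push Not at hlt
        have h2 : (2:ℝ) ^ i = 2 * 2 ^ (i - 1) := by
          rw [← pow_succ']; congr 1; omega
        rw [h2, ← mul_div_assoc, mul_comm 2 t, mul_comm 2 ((2:ℝ) ^ (i-1)),
          mul_div_mul_right _ _ two_ne_zero, one_le_div (by positivity)]
        exact hlt.le

/-- **Hajlasz gradient (T1).** -/
theorem exists_hajlasz [Nonempty A] (hp : 1 ≤ p) (x : A → W → ℝ) :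
    ∃ h : A → W → ℝ, (∀ a w, 0 ≤ h a w) ∧
      (∀ a b w, |x a w - x b w| ≤ dd p x a b * (h a w + h b w)) ∧
      ∀ a, nrm p (h a) ≤ 4 * Real.exp 2 * Real.log (Fintype.card A) := by
  have hp0 : 0 < p := lt_of_lt_of_le one_pos hp
  obtain ⟨s, M, hs, hsc⟩ := exists_scales (dd p x)
  refine ⟨fun a w => ∑ i ∈ Finset.range M, (2 * Real.exp 2) * osc p x (s / 2 ^ i) a w, ?_, ?_, ?_⟩
  · intro a w
    exact Finset.sum_nonneg fun i _ => mul_nonneg (by positivity)
      (osc_nonneg x (by positivity) a w)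
  · intro a b w
    rcases (dd_nonneg p x a b).eq_or_lt with h0 | h0
    · rw [← h0, zero_mul]
      have := abs_sub_le_dd hp0 x a b w
      rw [← h0] at this
      exact this
    · obtain ⟨i, hi, h1, h2⟩ := hsc a b h0
      have hsi : 0 < s / 2 ^ i := by positivity
      have h3 := osc_compare hp x hsi a b h1 w
      have hA : ∀ a, (2 * Real.exp 2) * osc p x (s / 2 ^ i) a w ≤
          ∑ i ∈ Finset.range M, (2 * Real.exp 2) * osc p x (s / 2 ^ i) a w := fun a =>
        Finset.single_le_sum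
          (f := fun i => (2 * Real.exp 2) * osc p x (s / 2 ^ i) a w)
          (fun j _ => mul_nonneg (by positivity) (osc_nonneg x (by positivity) a w)) hi
      have ha := hA a
      have hb := hA b
      have hoa := osc_nonneg (p := p) x hsi.le a w
      have hob := osc_nonneg (p := p) x hsi.le b w
      have he : 1 ≤ Real.exp 2 := Real.one_le_exp (by norm_num)
      -- |x a w - x b w| ≤ 2 d s |..| ≤ 2 d (osc a + e² osc b)
      have h4 : |x a w - x b w| ≤ 2 * (dd p x a b * (s / 2 ^ i)) * |x a w - x b w| := by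
        nlinarith [abs_nonneg (x a w - x b w)]
      have h5 : 2 * (dd p x a b * (s / 2 ^ i)) * |x a w - x b w| =
          2 * dd p x a b * ((s / 2 ^ i) * |x a w - x b w|) := by ring
      have h6 : 2 * dd p x a b * ((s / 2 ^ i) * |x a w - x b w|) ≤
          2 * dd p x a b * (osc p x (s / 2 ^ i) a w + Real.exp 2 * osc p x (s / 2 ^ i) b w) :=
        mul_le_mul_of_nonneg_left h3 (by positivity)
      have h7 : 2 * dd p x a b * (osc p x (s / 2 ^ i) a w + Real.exp 2 * osc p x (s / 2 ^ i) b w)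
          ≤ dd p x a b * ((2 * Real.exp 2) * osc p x (s / 2 ^ i) a w +
            (2 * Real.exp 2) * osc p x (s / 2 ^ i) b w) := by
        have : osc p x (s / 2 ^ i) a w ≤ Real.exp 2 * osc p x (s / 2 ^ i) a w := by
          nlinarith
        nlinarith
      calc |x a w - x b w| ≤ _ := h4
        _ = _ := h5
        _ ≤ _ := h6
        _ ≤ _ := h7
        _ ≤ _ := mul_le_mul_of_nonneg_left (add_le_add ha hb) h0.le
  · intro a
    refine (nrm_sum_le hp (Finset.range M)
      (fun i w => (2 * Real.exp 2) * osc p x (s / 2 ^ i) a w)).trans ?_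
    have h1 : ∀ i ∈ Finset.range M, nrm p (fun w => (2 * Real.exp 2) * osc p x (s / 2 ^ i) a w) ≤
        (2 * Real.exp 2) * sc (dd p x a) (s / 2 ^ i) := by
      intro i _
      rw [nrm_smul hp0 (2 * Real.exp 2) (osc p x (s / 2 ^ i) a),
        abs_of_nonneg (by positivity : (0:ℝ) ≤ 2 * Real.exp 2)]
      exact mul_le_mul_of_nonneg_left (osc_nrm_le hp x (by positivity) a) (by positivity)
    refine (Finset.sum_le_sum h1).trans ?_
    rw [← Finset.mul_sum]
    have h2 := sc_sum_le (dd p x a) (dd_nonneg p x a) a (dd_self hp0 x a) hs.le M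
    calc (2 * Real.exp 2) * ∑ i ∈ Finset.range M, sc (dd p x a) (s / 2 ^ i)
        ≤ (2 * Real.exp 2) * (2 * Real.log (Fintype.card A)) :=
          mul_le_mul_of_nonneg_left h2 (by positivity)
      _ = _ := by ring

end Gradient

end Vale.Agent.Lib.P249
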