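import Vale.Agent.Lib.P249.HG

/-!
# Small Hajlasz gradients from local kernels  (module HG2 of P249)

At a scale where the exponential kernel moves a point by more than `τ` scale units (at most
`O (log n / τ)` scales for every point) another kernel is used: a random centre `c` chosen by the
exponential kernel, and then a kernel on the ball around `c` which moves points by at most `K` scale
units. At the other scales the `l_p` sum of the oscillations is used.
-/

namespace Vale.Agent.Lib.P249

open Finset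

section

variable {A W : Type*} [Fintype A] [Fintype W] {p : ℝ}

/-- comparison of the mean displacements at two close points -/
theorem sc_compare [Nonempty A] (hp : 1 ≤ p) (x : A → W → ℝ) {s : ℝ} (hs : 0 ≤ s) (a b : A)
    (hab : dd p x a b * s ≤ 1) :
    sc (dd p x a) s ≤ Real.exp 2 * (sc (dd p x b) s + 1) := by
  have hcomp : ∀ c, mu (dd p x a) s c ≤ Real.exp 2 * mu (dd p x b) s c := by
    apply mu_compare _ _ hs
    intro c
    refine le_trans (mul_le_mul_of_nonneg_right ?_ hs) hab
    rw [abs_le]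
    constructor
    · have := dd_tri hp x b a c
      rw [dd_comm p x b a] at this
      linarith
    · have := dd_tri hp x a b c
      linarith
  have h1 : ∑ c, mu (dd p x a) s c * dd p x a c ≤
      ∑ c, Real.exp 2 * mu (dd p x b) s c * (dd p x a b + dd p x b c) := by
    refine sum_le_sum fun c _ => ?_
    exact mul_le_mul (hcomp c) (dd_tri hp x a b c) (dd_nonneg _ _ _ _)
      (mul_nonneg (Real.exp_pos _).le (mu_pos _ _ _).le)
  have h2 : ∑ c, Real.exp 2 * mu (dd p x b) s c * (dd p x a b + dd p x b c) =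
      Real.exp 2 * (dd p x a b + ∑ c, mu (dd p x b) s c * dd p x b c) := by
    have e : ∀ c, Real.exp 2 * mu (dd p x b) s c * (dd p x a b + dd p x b c) =
        Real.exp 2 * dd p x a b * mu (dd p x b) s c +
          Real.exp 2 * (mu (dd p x b) s c * dd p x b c) := fun c => by ring
    simp_rw [e]
    rw [sum_add_distrib, ← mul_sum, ← mul_sum, mu_sum]
    ring
  unfold sc
  calc s * ∑ c, mu (dd p x a) s c * dd p x a c
      ≤ s * (Real.exp 2 * (dd p x a b + ∑ c, mu (dd p x b) s c * dd p x b c)) := by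
        rw [← h2]; exact mul_le_mul_of_nonneg_left h1 hs
    _ = Real.exp 2 * (s * (∑ c, mu (dd p x b) s c * dd p x b c) + dd p x a b * s) := by ring
    _ ≤ _ := by gcongr

/-- tail of the exponential kernel -/
theorem mu_tail [Nonempty A] (d : A → ℝ) (a : A) (ha : d a = 0) {s Λ : ℝ} :
    ∑ c ∈ univ.filter (fun c => Λ < d c * s), mu d s c ≤
      (Fintype.card A : ℝ) * Real.exp (-Λ) := by
  classical
  have hZ1 : 1 ≤ ZZ d s := by
    have h := Finset.single_le_sum (f := fun c => Real.exp (-(s * d c)))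
      (fun c _ => (Real.exp_pos _).le) (Finset.mem_univ a)
    have h3 : Real.exp (-(s * d a)) = 1 := by rw [ha]; simp
    simp only [h3] at h
    exact h
  calc ∑ c ∈ univ.filter (fun c => Λ < d c * s), mu d s c
      ≤ ∑ c ∈ univ.filter (fun c => Λ < d c * s), Real.exp (-Λ) := by
        refine sum_le_sum fun c hc => ?_
        rw [mem_filter] at hc
        unfold mu
        rw [div_le_iff₀ (by linarith)]
        have h1 : Real.exp (-(s * d c)) ≤ Real.exp (-Λ) :=
          Real.exp_le_exp.mpr (by nlinarith [hc.2])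
        have h2 : Real.exp (-Λ) * 1 ≤ Real.exp (-Λ) * ZZ d s :=
          mul_le_mul_of_nonneg_left hZ1 (Real.exp_pos _).le
        linarith
    _ ≤ ∑ c : A, Real.exp (-Λ) :=
        sum_le_sum_of_subset_of_nonneg (filter_subset _ _) fun _ _ _ => (Real.exp_pos _).le
    _ = _ := by rw [sum_const, card_univ, nsmul_eq_mul]

/-- the oscillation with a random centre and a local kernel -/
noncomputable def alt (p : ℝ) (x : A → W → ℝ) (s Λ : ℝ) (k : A → A → A → ℝ) (a : A) (w : W) : ℝ :=
  s * ∑ c ∈ univ.filter (fun c => dd p x a c * s ≤ Λ),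
    mu (dd p x a) s c * ∑ b, k c a b * |x a w - x b w|

theorem alt_nonneg [Nonempty A] (x : A → W → ℝ) {s : ℝ} (hs : 0 ≤ s) (Λ : ℝ) (k : A → A → A → ℝ)
    (hk : ∀ c a b, 0 ≤ k c a b) (a : A) (w : W) : 0 ≤ alt p x s Λ k a w := by
  unfold alt
  refine mul_nonneg hs (sum_nonneg fun c _ => mul_nonneg (mu_pos _ _ _).le
    (sum_nonneg fun b _ => mul_nonneg (hk c a b) (abs_nonneg _)))

theorem alt_nrm_le [Nonempty A] (hp : 1 ≤ p) (x : A → W → ℝ) {s : ℝ} (hs : 0 ≤ s) (Λ K : ℝ)
    (hK : 0 ≤ K) (k : A → A → A → ℝ) (hk : ∀ c a b, 0 ≤ k c a b)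
    (hm : ∀ c a, dd p x a c * s ≤ Λ → s * ∑ b, k c a b * dd p x a b ≤ K) (a : A) :
    nrm p (alt p x s Λ k a) ≤ K := by
  have hp0 : 0 < p := lt_of_lt_of_le one_pos hp
  unfold alt
  rw [nrm_smul hp0 s (fun w => ∑ c ∈ univ.filter (fun c => dd p x a c * s ≤ Λ),
    mu (dd p x a) s c * ∑ b, k c a b * |x a w - x b w|), abs_of_nonneg hs]
  have h1 : nrm p (fun w => ∑ c ∈ univ.filter (fun c => dd p x a c * s ≤ Λ),
      mu (dd p x a) s c * ∑ b, k c a b * |x a w - x b w|) ≤
      ∑ c ∈ univ.filter (fun c => dd p x a c * s ≤ Λ),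
        mu (dd p x a) s c * ∑ b, k c a b * dd p x a b := by
    refine (nrm_sum_le hp _ (fun c w => mu (dd p x a) s c * ∑ b, k c a b * |x a w - x b w|)).trans
      (sum_le_sum fun c _ => ?_)
    rw [nrm_smul hp0 (mu (dd p x a) s c) (fun w => ∑ b, k c a b * |x a w - x b w|),
      abs_of_nonneg (mu_pos _ _ _).le]
    refine mul_le_mul_of_nonneg_left ?_ (mu_pos _ _ _).le
    refine (nrm_sum_le hp univ (fun b w => k c a b * |x a w - x b w|)).trans
      (sum_le_sum fun b _ => ?_)
    rw [nrm_smul hp0 (k c a b) (fun w => |x a w - x b w|), abs_of_nonneg (hk c a b)]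
    refine mul_le_mul_of_nonneg_left ?_ (hk c a b)
    rw [dd]
    exact le_of_eq (nrm_congr_abs _ _ fun w => abs_abs _)
  calc s * nrm p (fun w => ∑ c ∈ univ.filter (fun c => dd p x a c * s ≤ Λ),
      mu (dd p x a) s c * ∑ b, k c a b * |x a w - x b w|)
      ≤ s * ∑ c ∈ univ.filter (fun c => dd p x a c * s ≤ Λ),
        mu (dd p x a) s c * ∑ b, k c a b * dd p x a b := mul_le_mul_of_nonneg_left h1 hs
    _ = ∑ c ∈ univ.filter (fun c => dd p x a c * s ≤ Λ),
        mu (dd p x a) s c * (s * ∑ b, k c a b * dd p x a b) := by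
        rw [mul_sum]; exact sum_congr rfl fun c _ => by ring
    _ ≤ ∑ c ∈ univ.filter (fun c => dd p x a c * s ≤ Λ), mu (dd p x a) s c * K := by
        refine sum_le_sum fun c hc => ?_
        rw [mem_filter] at hc
        exact mul_le_mul_of_nonneg_left (hm c a hc.2) (mu_pos _ _ _).le
    _ ≤ ∑ c, mu (dd p x a) s c * K :=
        sum_le_sum_of_subset_of_nonneg (filter_subset _ _) fun _ _ _ =>
          mul_nonneg (mu_pos _ _ _).le hK
    _ = K := by rw [← sum_mul, mu_sum, one_mul]

theorem alt_compare [Nonempty A] (hp : 1 ≤ p) (x : A → W → ℝ) {s : ℝ} (hs : 0 < s) (Λ : ℝ)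
    (hΛ : Real.log (Fintype.card A) + 2 ≤ Λ) (k : A → A → A → ℝ) (hk : ∀ c a b, 0 ≤ k c a b)
    (ho : ∀ c a a', dd p x a c * s ≤ Λ → dd p x a' c * s ≤ Λ → dd p x a a' * s ≤ 1 →
      1 / 4 ≤ ∑ b, min (k c a b) (k c a' b)) (a a' : A) (haa : dd p x a a' * s ≤ 1) (w : W) :
    s * |x a w - x a' w| ≤ 8 * Real.exp 2 * (alt p x s Λ k a w + alt p x s Λ k a' w) := by
  classical
  have hp0 : 0 < p := lt_of_lt_of_le one_pos hp
  have hcomp : ∀ c, mu (dd p x a) s c ≤ Real.exp 2 * mu (dd p x a') s c := by
    apply mu_compare _ _ hs.le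
    intro c
    refine le_trans (mul_le_mul_of_nonneg_right ?_ hs.le) haa
    rw [abs_le]
    constructor
    · have := dd_tri hp x a' a c
      rw [dd_comm p x a' a] at this
      linarith
    · have := dd_tri hp x a a' c
      linarith
  have he2 : 1 ≤ Real.exp 2 := Real.one_le_exp (by norm_num)
  set F : Finset A := univ.filter (fun c => dd p x a c * s ≤ Λ ∧ dd p x a' c * s ≤ Λ) with hF
  -- mass of the good centres
  have hmass : 1 / 2 ≤ ∑ c ∈ F, mu (dd p x a) s c := by
    have h1 := mu_tail (dd p x a) a (dd_self hp0 x a) (s := s) (Λ := Λ - 1)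
    have h2 : (Fintype.card A : ℝ) * Real.exp (-(Λ - 1)) ≤ 1 / 2 := by
      have hc : (0 : ℝ) < Fintype.card A := by exact_mod_cast Fintype.card_pos
      have h3 : Real.exp (-(Λ - 1)) ≤ Real.exp (-(Real.log (Fintype.card A) + 1)) :=
        Real.exp_le_exp.mpr (by linarith)
      have h4 : Real.exp (-(Real.log (Fintype.card A) + 1)) =
          (Fintype.card A : ℝ)⁻¹ * Real.exp (-1) := by
        rw [neg_add, Real.exp_add, Real.exp_neg, Real.exp_log hc]
      rw [h4] at h3
      have h5 : (Fintype.card A : ℝ) * ((Fintype.card A : ℝ)⁻¹ * Real.exp (-1)) = Real.exp (-1) := by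
        field_simp
      have h6 : Real.exp (-1) ≤ 1 / 2 := by
        rw [Real.exp_neg, one_div]
        apply inv_anti₀ (by norm_num)
        have := Real.add_one_le_exp (1 : ℝ)
        linarith
      calc (Fintype.card A : ℝ) * Real.exp (-(Λ - 1))
          ≤ (Fintype.card A : ℝ) * ((Fintype.card A : ℝ)⁻¹ * Real.exp (-1)) :=
            mul_le_mul_of_nonneg_left h3 hc.le
        _ ≤ 1 / 2 := by rw [h5]; exact h6
    have h3 : (1 : ℝ) ≤ ∑ c ∈ F, mu (dd p x a) s c +
        ∑ c ∈ univ.filter (fun c => Λ - 1 < dd p x a c * s), mu (dd p x a) s c := by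
      have hsub : (univ : Finset A) ⊆ F ∪ univ.filter (fun c => Λ - 1 < dd p x a c * s) := by
        intro c _
        rw [mem_union, hF, mem_filter, mem_filter]
        by_cases h : Λ - 1 < dd p x a c * s
        · right; exact ⟨mem_univ _, h⟩
        · left
          push Not at h
          refine ⟨mem_univ _, by linarith, ?_⟩
          have h4 := dd_tri hp x a' a c
          rw [dd_comm p x a' a] at h4
          nlinarith
      have h7 := sum_le_sum_of_subset_of_nonneg (f := fun c => mu (dd p x a) s c) hsub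
        fun c _ _ => (mu_pos _ _ _).le
      have h5 := sum_union_inter (s₁ := F) (s₂ := univ.filter (fun c => Λ - 1 < dd p x a c * s))
        (f := fun c => mu (dd p x a) s c)
      have h6 : 0 ≤ ∑ c ∈ F ∩ univ.filter (fun c => Λ - 1 < dd p x a c * s), mu (dd p x a) s c :=
        sum_nonneg fun c _ => (mu_pos _ _ _).le
      rw [mu_sum] at h7
      linarith
    linarith
  -- for every good centre
  have hgood : ∀ c ∈ F, mu (dd p x a) s c * (1 / 4 * |x a w - x a' w|) ≤
      mu (dd p x a) s c * (∑ b, k c a b * |x a w - x b w|) +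
        Real.exp 2 * (mu (dd p x a') s c * (∑ b, k c a' b * |x a' w - x b w|)) := by
    intro c hc
    rw [hF, mem_filter] at hc
    have h1 := ho c a a' hc.2.1 hc.2.2 haa
    have h2 : (∑ b, min (k c a b) (k c a' b)) * |x a w - x a' w| ≤
        ∑ b, k c a b * |x a w - x b w| + ∑ b, k c a' b * |x a' w - x b w| := by
      rw [sum_mul, ← sum_add_distrib]
      refine sum_le_sum fun b _ => ?_
      have h3 : |x a w - x a' w| ≤ |x a w - x b w| + |x a' w - x b w| := by
        have := abs_sub_le (x a w) (x b w) (x a' w)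
        rwa [abs_sub_comm (x b w) (x a' w)] at this
      have h4 : 0 ≤ min (k c a b) (k c a' b) := le_min (hk _ _ _) (hk _ _ _)
      calc min (k c a b) (k c a' b) * |x a w - x a' w|
          ≤ min (k c a b) (k c a' b) * (|x a w - x b w| + |x a' w - x b w|) :=
            mul_le_mul_of_nonneg_left h3 h4
        _ = min (k c a b) (k c a' b) * |x a w - x b w| +
            min (k c a b) (k c a' b) * |x a' w - x b w| := by ring
        _ ≤ _ := add_le_add (mul_le_mul_of_nonneg_right (min_le_left _ _) (abs_nonneg _))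
            (mul_le_mul_of_nonneg_right (min_le_right _ _) (abs_nonneg _))
    have h3 : 1 / 4 * |x a w - x a' w| ≤
        ∑ b, k c a b * |x a w - x b w| + ∑ b, k c a' b * |x a' w - x b w| :=
      (mul_le_mul_of_nonneg_right h1 (abs_nonneg _)).trans h2
    have h4 := mul_le_mul_of_nonneg_left h3 (mu_pos (dd p x a) s c).le
    have h5 : 0 ≤ ∑ b, k c a' b * |x a' w - x b w| :=
      sum_nonneg fun b _ => mul_nonneg (hk _ _ _) (abs_nonneg _)
    have h6 := mul_le_mul_of_nonneg_right (hcomp c) h5
    nlinarith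
  have hsum := sum_le_sum hgood
  rw [← sum_mul, sum_add_distrib, ← mul_sum] at hsum
  have hA : ∑ c ∈ F, mu (dd p x a) s c * (∑ b, k c a b * |x a w - x b w|) ≤
      ∑ c ∈ univ.filter (fun c => dd p x a c * s ≤ Λ),
        mu (dd p x a) s c * ∑ b, k c a b * |x a w - x b w| := by
    refine sum_le_sum_of_subset_of_nonneg ?_ fun c _ _ => mul_nonneg (mu_pos _ _ _).le
      (sum_nonneg fun b _ => mul_nonneg (hk _ _ _) (abs_nonneg _))
    intro c hc
    rw [hF, mem_filter] at hc
    rw [mem_filter]
    exact ⟨mem_univ _, hc.2.1⟩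
  have hB : ∑ c ∈ F, mu (dd p x a') s c * (∑ b, k c a' b * |x a' w - x b w|) ≤
      ∑ c ∈ univ.filter (fun c => dd p x a' c * s ≤ Λ),
        mu (dd p x a') s c * ∑ b, k c a' b * |x a' w - x b w| := by
    refine sum_le_sum_of_subset_of_nonneg ?_ fun c _ _ => mul_nonneg (mu_pos _ _ _).le
      (sum_nonneg fun b _ => mul_nonneg (hk _ _ _) (abs_nonneg _))
    intro c hc
    rw [hF, mem_filter] at hc
    rw [mem_filter]
    exact ⟨mem_univ _, hc.2.2⟩
  set SA := ∑ c ∈ univ.filter (fun c => dd p x a c * s ≤ Λ),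
        mu (dd p x a) s c * ∑ b, k c a b * |x a w - x b w| with hSA
  set SB := ∑ c ∈ univ.filter (fun c => dd p x a' c * s ≤ Λ),
        mu (dd p x a') s c * ∑ b, k c a' b * |x a' w - x b w| with hSB
  have hSA0 : 0 ≤ SA := sum_nonneg fun c _ => mul_nonneg (mu_pos _ _ _).le
      (sum_nonneg fun b _ => mul_nonneg (hk _ _ _) (abs_nonneg _))
  have haltA : alt p x s Λ k a w = s * SA := rfl
  have haltB : alt p x s Λ k a' w = s * SB := rfl
  rw [haltA, haltB]
  have h7 : 1 / 2 * (1 / 4 * |x a w - x a' w|) ≤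
      (∑ c ∈ F, mu (dd p x a) s c) * (1 / 4 * |x a w - x a' w|) :=
    mul_le_mul_of_nonneg_right hmass (by positivity)
  have h8 : |x a w - x a' w| ≤ 8 * (SA + Real.exp 2 * SB) := by
    have := mul_le_mul_of_nonneg_left hB (Real.exp_pos 2).le
    linarith
  have h9 : SA ≤ Real.exp 2 * SA := by nlinarith
  calc s * |x a w - x a' w| ≤ s * (8 * (SA + Real.exp 2 * SB)) :=
        mul_le_mul_of_nonneg_left h8 hs.le
    _ ≤ s * (8 * (Real.exp 2 * SA + Real.exp 2 * SB)) := by gcongr
    _ = _ := by ring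

/-- **Small Hajlasz gradients from local kernels.** -/
theorem exists_hajlasz_of_kernel [Nonempty A] (hp : 1 ≤ p) (x : A → W → ℝ) (K τ Λ : ℝ)
    (hτ : 2 * Real.exp 2 ≤ τ) (hK : 0 ≤ K) (hΛ : Real.log (Fintype.card A) + 2 ≤ Λ)
    (hker : ∀ s : ℝ, 0 < s → ∀ c : A, ∃ k : A → A → ℝ, (∀ a b, 0 ≤ k a b) ∧
      (∀ a, dd p x a c * s ≤ Λ → s * ∑ b, k a b * dd p x a b ≤ K) ∧
      (∀ a a', dd p x a c * s ≤ Λ → dd p x a' c * s ≤ Λ → dd p x a a' * s ≤ 1 →
        1 / 4 ≤ ∑ b, min (k a b) (k a' b))) :
    ∃ h : A → W → ℝ, (∀ a w, 0 ≤ h a w) ∧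
      (∀ a b w, |x a w - x b w| ≤ dd p x a b * (h a w + h b w)) ∧
      ∀ a, nrm p (h a) ≤ 2 * (Real.exp 2 * (2 * τ ^ (p - 1) * Real.log (Fintype.card A)) ^ (1 / p) +
        8 * Real.exp 2 * ((4 * Real.exp 2 * Real.log (Fintype.card A) / τ) * K)) := by
  classical
  have hp0 : 0 < p := lt_of_lt_of_le one_pos hp
  have he2 : 1 ≤ Real.exp 2 := Real.one_le_exp (by norm_num)
  have hτ0 : 0 < τ := lt_of_lt_of_le (by positivity) hτ
  obtain ⟨s, M, hs, hsc⟩ := exists_scales (dd p x)
  have hsi : ∀ i : ℕ, 0 < s / 2 ^ i := fun i => by positivity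
  choose k hk0 hk1 hk2 using fun i : ℕ => hker (s / 2 ^ i) (hsi i)
  -- good and bad scales
  set Gd : A → Finset ℕ := fun a => (range M).filter (fun i => sc (dd p x a) (s / 2 ^ i) ≤ τ) with hGd
  set Bd : A → Finset ℕ := fun a =>
    (range M).filter (fun i => τ / Real.exp 2 - 1 < sc (dd p x a) (s / 2 ^ i)) with hBd
  set g : A → W → ℝ := fun a w =>
    (∑ i ∈ Gd a, |Real.exp 2 * osc p x (s / 2 ^ i) a w| ^ p) ^ (1 / p) with hg
  set f : A → W → ℝ := fun a w =>
    ∑ i ∈ Bd a, 8 * Real.exp 2 * alt p x (s / 2 ^ i) Λ (k i) a w with hf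
  have hg0 : ∀ a w, 0 ≤ g a w := fun a w =>
    Real.rpow_nonneg (sum_nonneg fun i _ => Real.rpow_nonneg (abs_nonneg _) _) _
  have halt0 : ∀ i a w, 0 ≤ alt p x (s / 2 ^ i) Λ (k i) a w := fun i a w =>
    alt_nonneg x (hsi i).le Λ (k i) (hk0 i) a w
  have hf0 : ∀ a w, 0 ≤ f a w := fun a w =>
    sum_nonneg fun i _ => mul_nonneg (by positivity) (halt0 i a w)
  refine ⟨fun a w => 2 * (g a w + f a w), fun a w => ?_, fun a b w => ?_, fun a => ?_⟩
  · have := hg0 a w
    have := hf0 a w
    positivity
  · rcases (dd_nonneg p x a b).eq_or_lt with h0 | h0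
    · rw [← h0, zero_mul]
      have := abs_sub_le_dd hp0 x a b w
      rw [← h0] at this
      exact this
    · obtain ⟨i, hi, h1, h2⟩ := hsc a b h0
      have hmain : (s / 2 ^ i) * |x a w - x b w| ≤ (g a w + f a w) + (g b w + f b w) := by
        by_cases hgood : sc (dd p x a) (s / 2 ^ i) ≤ τ ∧ sc (dd p x b) (s / 2 ^ i) ≤ τ
        · have h3 := osc_compare hp x (hsi i) a b h1 w
          have hle : ∀ a, sc (dd p x a) (s / 2 ^ i) ≤ τ →
              Real.exp 2 * osc p x (s / 2 ^ i) a w ≤ g a w := by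
            intro a ha
            have hmem : i ∈ Gd a := by rw [hGd, mem_filter]; exact ⟨hi, ha⟩
            have h4 : |Real.exp 2 * osc p x (s / 2 ^ i) a w| ^ p ≤
                ∑ i ∈ Gd a, |Real.exp 2 * osc p x (s / 2 ^ i) a w| ^ p :=
              single_le_sum (f := fun i => |Real.exp 2 * osc p x (s / 2 ^ i) a w| ^ p)
                (fun i _ => Real.rpow_nonneg (abs_nonneg _) _) hmem
            have h5 := Real.rpow_le_rpow (Real.rpow_nonneg (abs_nonneg _) _) h4
              (show 0 ≤ 1 / p by positivity)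
            rw [← Real.rpow_mul (abs_nonneg _), mul_one_div_cancel hp0.ne', Real.rpow_one] at h5
            exact (le_abs_self _).trans h5
          have ha := hle a hgood.1
          have hb := hle b hgood.2
          have hoa := osc_nonneg (p := p) x (hsi i).le a w
          have h6 : osc p x (s / 2 ^ i) a w ≤ Real.exp 2 * osc p x (s / 2 ^ i) a w := by nlinarith
          have := hf0 a w
          have := hf0 b w
          linarith
        · have hbad : i ∈ Bd a ∧ i ∈ Bd b := by
            have hab := sc_compare hp x (hsi i).le a b h1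
            have hba := sc_compare hp x (hsi i).le b a (by rw [dd_comm]; exact h1)
            have hsa := sc_nonneg (dd p x a) (dd_nonneg p x a) (hsi i).le
            have hsb := sc_nonneg (dd p x b) (dd_nonneg p x b) (hsi i).le
            have hkey : ∀ u v : ℝ, τ < u → u ≤ Real.exp 2 * (v + 1) → τ / Real.exp 2 - 1 < v := by
              intro u v hu huv
              have h3 : τ / Real.exp 2 < v + 1 := by
                rw [div_lt_iff₀ (Real.exp_pos 2)]; linarith
              linarith
            have hkey2 : ∀ u : ℝ, τ < u → τ / Real.exp 2 - 1 < u := by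
              intro u hu
              have h3 : τ / Real.exp 2 ≤ τ := div_le_self hτ0.le he2
              linarith
            rw [hBd, mem_filter, mem_filter]
            by_cases ha : sc (dd p x a) (s / 2 ^ i) ≤ τ
            · have hb : τ < sc (dd p x b) (s / 2 ^ i) := by
                by_contra hcon
                exact hgood ⟨ha, not_lt.mp hcon⟩
              exact ⟨⟨hi, hkey _ _ hb hba⟩, ⟨hi, hkey2 _ hb⟩⟩
            · push Not at ha
              exact ⟨⟨hi, hkey2 _ ha⟩, ⟨hi, hkey _ _ ha hab⟩⟩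
          have h3 := alt_compare hp x (hsi i) Λ hΛ (k i) (hk0 i)
            (fun c a a' => hk2 i c a a') a b h1 w
          have hle : ∀ a, i ∈ Bd a →
              8 * Real.exp 2 * alt p x (s / 2 ^ i) Λ (k i) a w ≤ f a w := by
            intro a ha
            exact single_le_sum
              (f := fun i => 8 * Real.exp 2 * alt p x (s / 2 ^ i) Λ (k i) a w)
              (fun i _ => mul_nonneg (by positivity) (halt0 i a w)) ha
          have ha := hle a hbad.1
          have hb := hle b hbad.2
          have := hg0 a w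
          have := hg0 b w
          linarith
      have h4 : |x a w - x b w| ≤ 2 * (dd p x a b * (s / 2 ^ i)) * |x a w - x b w| := by
        nlinarith [abs_nonneg (x a w - x b w)]
      calc |x a w - x b w| ≤ 2 * (dd p x a b * (s / 2 ^ i)) * |x a w - x b w| := h4
        _ = dd p x a b * (2 * ((s / 2 ^ i) * |x a w - x b w|)) := by ring
        _ ≤ dd p x a b * (2 * ((g a w + f a w) + (g b w + f b w))) :=
            mul_le_mul_of_nonneg_left (by linarith) h0.le
        _ = _ := by ring
  · -- the norm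
    have hsum := sc_sum_le (dd p x a) (dd_nonneg p x a) a (dd_self hp0 x a) hs.le M
    have hsc0 : ∀ i, 0 ≤ sc (dd p x a) (s / 2 ^ i) := fun i =>
      sc_nonneg (dd p x a) (dd_nonneg p x a) (hsi i).le
    have hln : 0 ≤ Real.log (Fintype.card A) := by
      have h0 : 0 ≤ ∑ i ∈ range M, sc (dd p x a) (s / 2 ^ i) := sum_nonneg fun i _ => hsc0 i
      linarith
    have hG : nrm p (g a) ≤
        Real.exp 2 * (2 * τ ^ (p - 1) * Real.log (Fintype.card A)) ^ (1 / p) := by
      have h1 : nrm p (g a) ^ p ≤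
          (Real.exp 2 * (2 * τ ^ (p - 1) * Real.log (Fintype.card A)) ^ (1 / p)) ^ p := by
        rw [nrm_rpow hp0]
        have h2 : ∀ w, |g a w| ^ p = ∑ i ∈ Gd a, |Real.exp 2 * osc p x (s / 2 ^ i) a w| ^ p := by
          intro w
          rw [abs_of_nonneg (hg0 a w), hg]
          simp only
          rw [← Real.rpow_mul (sum_nonneg fun i _ => Real.rpow_nonneg (abs_nonneg _) _),
            one_div_mul_cancel hp0.ne', Real.rpow_one]
        simp_rw [h2]
        rw [sum_comm]
        have h3 : ∀ i ∈ Gd a, ∑ w, |Real.exp 2 * osc p x (s / 2 ^ i) a w| ^ p ≤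
            Real.exp 2 ^ p * (τ ^ (p - 1) * sc (dd p x a) (s / 2 ^ i)) := by
          intro i hi
          rw [hGd, mem_filter] at hi
          have h4 : ∑ w, |Real.exp 2 * osc p x (s / 2 ^ i) a w| ^ p =
              (Real.exp 2 * nrm p (osc p x (s / 2 ^ i) a)) ^ p := by
            have h5 := nrm_smul hp0 (Real.exp 2) (osc p x (s / 2 ^ i) a)
            rw [abs_of_pos (Real.exp_pos 2)] at h5
            rw [← h5, nrm_rpow hp0]
          rw [h4, Real.mul_rpow (Real.exp_pos 2).le (nrm_nonneg _ _)]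
          refine mul_le_mul_of_nonneg_left ?_ (by positivity)
          have h6 := osc_nrm_le hp x (hsi i).le a
          calc nrm p (osc p x (s / 2 ^ i) a) ^ p ≤ sc (dd p x a) (s / 2 ^ i) ^ p :=
                Real.rpow_le_rpow (nrm_nonneg _ _) h6 hp0.le
            _ = sc (dd p x a) (s / 2 ^ i) ^ (p - 1) * sc (dd p x a) (s / 2 ^ i) := by
                rcases (hsc0 i).eq_or_lt with h7 | h7
                · rw [← h7, Real.zero_rpow hp0.ne', mul_zero]
                · rw [← Real.rpow_add_one h7.ne']; congr 1; ring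
            _ ≤ τ ^ (p - 1) * sc (dd p x a) (s / 2 ^ i) := by
                refine mul_le_mul_of_nonneg_right ?_ (hsc0 i)
                exact Real.rpow_le_rpow (hsc0 i) hi.2 (by linarith)
        refine (sum_le_sum h3).trans ?_
        rw [← mul_sum, ← mul_sum]
        have h8 : ∑ i ∈ Gd a, sc (dd p x a) (s / 2 ^ i) ≤ 2 * Real.log (Fintype.card A) := by
          refine (sum_le_sum_of_subset_of_nonneg (filter_subset _ _) fun i _ _ => hsc0 i).trans hsum
        have h9 : (Real.exp 2 * (2 * τ ^ (p - 1) * Real.log (Fintype.card A)) ^ (1 / p)) ^ p =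
            Real.exp 2 ^ p * (2 * τ ^ (p - 1) * Real.log (Fintype.card A)) := by
          have h10 : 0 ≤ 2 * τ ^ (p - 1) * Real.log (Fintype.card A) := by positivity
          rw [Real.mul_rpow (Real.exp_pos 2).le (by positivity), ← Real.rpow_mul h10,
            one_div_mul_cancel hp0.ne', Real.rpow_one]
        rw [h9]
        refine mul_le_mul_of_nonneg_left ?_ (by positivity)
        have h11 : 0 ≤ τ ^ (p - 1) := by positivity
        nlinarith [mul_le_mul_of_nonneg_left h8 h11]
      exact (Real.rpow_le_rpow_iff (nrm_nonneg _ _) (by positivity) hp0).1 h1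
    have hFn : nrm p (f a) ≤ 8 * Real.exp 2 *
        ((4 * Real.exp 2 * Real.log (Fintype.card A) / τ) * K) := by
      have h1 : nrm p (f a) ≤ ∑ i ∈ Bd a, 8 * Real.exp 2 * K := by
        refine (nrm_sum_le hp (Bd a)
          (fun i w => 8 * Real.exp 2 * alt p x (s / 2 ^ i) Λ (k i) a w)).trans
          (sum_le_sum fun i _ => ?_)
        rw [nrm_smul hp0 (8 * Real.exp 2) (alt p x (s / 2 ^ i) Λ (k i) a),
          abs_of_nonneg (by positivity : (0:ℝ) ≤ 8 * Real.exp 2)]
        exact mul_le_mul_of_nonneg_left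
          (alt_nrm_le hp x (hsi i).le Λ K hK (k i) (hk0 i) (fun c a => hk1 i c a) a) (by positivity)
      rw [sum_const, nsmul_eq_mul] at h1
      have h2 : ((Bd a).card : ℝ) ≤ 4 * Real.exp 2 * Real.log (Fintype.card A) / τ := by
        have h3 : ((Bd a).card : ℝ) * (τ / (2 * Real.exp 2)) ≤ 2 * Real.log (Fintype.card A) := by
          refine le_trans ?_ ((sum_le_sum_of_subset_of_nonneg (filter_subset _ _)
            fun i _ _ => hsc0 i).trans hsum : ∑ i ∈ Bd a, sc (dd p x a) (s / 2 ^ i) ≤
              2 * Real.log (Fintype.card A))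
          rw [← nsmul_eq_mul, ← sum_const]
          refine sum_le_sum fun i hi => ?_
          rw [hBd, mem_filter] at hi
          have h4 : 1 ≤ τ / (2 * Real.exp 2) := by
            rw [le_div_iff₀ (by positivity)]; linarith
          have h5 : τ / Real.exp 2 = 2 * (τ / (2 * Real.exp 2)) := by
            field_simp
          linarith [hi.2]
        rw [le_div_iff₀ hτ0]
        have h6 : ((Bd a).card : ℝ) * τ = ((Bd a).card : ℝ) * (τ / (2 * Real.exp 2)) *
            (2 * Real.exp 2) := by field_simp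
        rw [h6]
        nlinarith [Real.exp_pos 2]
      calc nrm p (f a) ≤ ((Bd a).card : ℝ) * (8 * Real.exp 2 * K) := h1
        _ ≤ (4 * Real.exp 2 * Real.log (Fintype.card A) / τ) * (8 * Real.exp 2 * K) :=
            mul_le_mul_of_nonneg_right h2 (by positivity)
        _ = _ := by ring
    have h1 : nrm p (fun w => 2 * (g a w + f a w)) = 2 * nrm p (fun w => g a w + f a w) := by
      rw [nrm_smul hp0 2 (fun w => g a w + f a w), abs_of_nonneg (by norm_num : (0:ℝ) ≤ 2)]
    rw [h1]
    have h2 := nrm_add_le hp (g a) (f a)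
    linarith

end

end Vale.Agent.Lib.P249
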