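import Vale.Agent.Lib.P249.HG

/-!
# Mazur maps (module MAZUR of P249)

`mz q t = sign t * |t| ^ q`.  With `q = p / 2` the coordinatewise map `l_p -> l_2`.
-/

namespace Vale.Agent.Lib.P249

open Finset

/-- The scalar Mazur map. -/
noncomputable def mz (q t : ℝ) : ℝ := if 0 ≤ t then t ^ q else -((-t) ^ q)

theorem mz_of_nonneg (q : ℝ) {t : ℝ} (ht : 0 ≤ t) : mz q t = t ^ q := if_pos ht

theorem mz_of_neg (q : ℝ) {t : ℝ} (ht : t < 0) : mz q t = -((-t) ^ q) := if_neg (not_le.2 ht)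

theorem mz_neg {q : ℝ} (hq : 0 < q) (t : ℝ) : mz q (-t) = -mz q t := by
  rcases lt_trichotomy t 0 with h | h | h
  · rw [mz_of_neg q h, mz_of_nonneg q (by linarith : 0 ≤ -t), neg_neg]
  · subst h
    simp [mz, Real.zero_rpow hq.ne']
  · rw [mz_of_nonneg q h.le, mz_of_neg q (by linarith : -t < 0), neg_neg]

theorem abs_mz {q : ℝ} (hq : 0 < q) (t : ℝ) : |mz q t| = |t| ^ q := by
  rcases le_or_gt 0 t with h | h
  · rw [mz_of_nonneg q h, abs_of_nonneg h, abs_of_nonneg (Real.rpow_nonneg h _)]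
  · rw [mz_of_neg q h, abs_neg, abs_of_neg h,
      abs_of_nonneg (Real.rpow_nonneg (by linarith : 0 ≤ -t) _)]

theorem mz_mono {q : ℝ} (hq : 0 < q) {s t : ℝ} (h : s ≤ t) : mz q s ≤ mz q t := by
  rcases le_or_gt 0 s with hs | hs
  · rw [mz_of_nonneg q hs, mz_of_nonneg q (hs.trans h)]
    exact Real.rpow_le_rpow hs h hq.le
  · rw [mz_of_neg q hs]
    rcases le_or_gt 0 t with ht | ht
    · rw [mz_of_nonneg q ht]
      have h1 : 0 ≤ (-s) ^ q := Real.rpow_nonneg (by linarith) _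
      have h2 : 0 ≤ t ^ q := Real.rpow_nonneg ht _
      linarith
    · rw [mz_of_neg q ht]
      have : (-t) ^ q ≤ (-s) ^ q := Real.rpow_le_rpow (by linarith) (by linarith) hq.le
      linarith

theorem mz_inv {q : ℝ} (hq : 0 < q) (t : ℝ) : mz (1 / q) (mz q t) = t := by
  rcases le_or_gt 0 t with h | h
  · rw [mz_of_nonneg q h, mz_of_nonneg _ (Real.rpow_nonneg h _), ← Real.rpow_mul h,
      mul_one_div_cancel hq.ne', Real.rpow_one]
  · have h0 : 0 < -t := by linarith
    have h1 : 0 < (-t) ^ q := Real.rpow_pos_of_pos h0 _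
    rw [mz_of_neg q h, mz_of_neg _ (by linarith : -((-t) ^ q) < 0), neg_neg,
      ← Real.rpow_mul h0.le, mul_one_div_cancel hq.ne', Real.rpow_one, neg_neg]

theorem mz_add_rpow_le {q : ℝ} (hq : 1 ≤ q) {u v : ℝ} (hu : 0 ≤ u) (hv : 0 ≤ v) :
    (u + v) ^ q ≤ 2 ^ (q - 1) * (u ^ q + v ^ q) := by
  have h := NNReal.rpow_add_le_mul_rpow_add_rpow (⟨u, hu⟩ : NNReal) ⟨v, hv⟩ hq
  have h2 := NNReal.coe_le_coe.2 h
  push_cast at h2
  exact h2

/-- lower bound, exponent at least one -/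
theorem mz_lower {q : ℝ} (hq : 1 ≤ q) (s t : ℝ) :
    |s - t| ^ q ≤ 2 ^ (q - 1) * |mz q s - mz q t| := by
  have hq0 : 0 < q := by linarith
  -- it suffices to treat `t ≤ s`
  wlog hst : t ≤ s generalizing s t with H
  · have h := H t s (le_of_lt (not_le.1 hst))
    rw [abs_sub_comm s t, abs_sub_comm (mz q s)]
    exact h
  have hm : mz q t ≤ mz q s := mz_mono hq0 hst
  rw [abs_of_nonneg (by linarith : 0 ≤ s - t), abs_of_nonneg (by linarith : 0 ≤ mz q s - mz q t)]
  have h2 : (1 : ℝ) ≤ 2 ^ (q - 1) := Real.one_le_rpow (by norm_num) (by linarith)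
  have key : ∀ u v : ℝ, 0 ≤ v → v ≤ u → (u - v) ^ q ≤ u ^ q - v ^ q := by
    intro u v hv huv
    have := Real.add_rpow_le_rpow_add (by linarith : 0 ≤ u - v) hv hq
    rw [sub_add_cancel] at this
    linarith
  rcases le_or_gt 0 t with ht | ht
  · rw [mz_of_nonneg q ht, mz_of_nonneg q (ht.trans hst)]
    have h3 := key s t ht hst
    have h4 : 0 ≤ s ^ q - t ^ q := by
      have := Real.rpow_le_rpow ht hst hq0.le
      linarith
    nlinarith
  · rcases le_or_gt 0 s with hs | hs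
    · rw [mz_of_nonneg q hs, mz_of_neg q ht, sub_neg_eq_add]
      have h3 := mz_add_rpow_le hq hs (by linarith : 0 ≤ -t)
      rw [← sub_eq_add_neg] at h3
      exact h3
    · rw [mz_of_neg q ht, mz_of_neg q hs]
      have h3 := key (-t) (-s) (by linarith) (by linarith)
      have h4 : 0 ≤ (-t) ^ q - (-s) ^ q := by
        have := Real.rpow_le_rpow (by linarith : 0 ≤ -s) (by linarith : -s ≤ -t) hq0.le
        linarith
      have e1 : -t - -s = s - t := by ring
      rw [e1] at h3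
      have e2 : -(-s) ^ q - -(-t) ^ q = (-t) ^ q - (-s) ^ q := by ring
      rw [e2]
      nlinarith

/-- upper bound, exponent at least one -/
theorem mz_upper {q : ℝ} (hq : 1 ≤ q) (s t : ℝ) :
    |mz q s - mz q t| ≤ q * |s - t| * max |s| |t| ^ (q - 1) := by
  have hq0 : 0 < q := by linarith
  wlog hst : t ≤ s generalizing s t with H
  · have h := H t s (le_of_lt (not_le.1 hst))
    rw [abs_sub_comm s t, abs_sub_comm (mz q s), max_comm]
    exact h
  have hm : mz q t ≤ mz q s := mz_mono hq0 hst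
  rw [abs_of_nonneg (by linarith : 0 ≤ s - t), abs_of_nonneg (by linarith : 0 ≤ mz q s - mz q t)]
  have key : ∀ u v : ℝ, 0 ≤ v → v ≤ u → u ^ q - v ^ q ≤ q * (u - v) * u ^ (q - 1) := by
    intro u v hv huv
    rcases hv.eq_or_lt with h0 | h0
    · subst h0
      rcases huv.eq_or_lt with h1 | h1
      · subst h1
        simp [Real.zero_rpow hq0.ne']
      · rw [Real.zero_rpow hq0.ne', sub_zero, sub_zero]
        have e : u ^ q = u * u ^ (q - 1) := by
          rw [← Real.rpow_one_add' h1.le (by linarith)]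
          congr 1; ring
        rw [e]
        have : 0 ≤ u * u ^ (q - 1) := by positivity
        nlinarith
    · have hu : 0 < u := lt_of_lt_of_le h0 huv
      have hvu : 0 ≤ v / u := by positivity
      have hb := one_add_mul_self_le_rpow_one_add (s := v / u - 1) (by linarith) hq
      have e0 : (1 : ℝ) + (v / u - 1) = v / u := by ring
      rw [e0, Real.div_rpow hv hu.le] at hb
      have hup : 0 < u ^ q := Real.rpow_pos_of_pos hu _
      rw [le_div_iff₀ hup] at hb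
      have e : u ^ q = u * u ^ (q - 1) := by
        rw [← Real.rpow_one_add' hu.le (by linarith)]
        congr 1; ring
      have e2 : (1 + q * (v / u - 1)) * u ^ q = u ^ q - q * (u - v) * u ^ (q - 1) := by
        have : q * (v / u - 1) * u ^ q = - (q * (u - v) * u ^ (q - 1)) := by
          rw [e]
          field_simp
          ring
        linarith
      rw [e2] at hb
      linarith
  have hmx : ∀ u v : ℝ, 0 ≤ v → v ≤ u → 0 ≤ u := fun u v h1 h2 => h1.trans h2
  rcases le_or_gt 0 t with ht | ht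
  · rw [mz_of_nonneg q ht, mz_of_nonneg q (ht.trans hst), abs_of_nonneg ht,
      abs_of_nonneg (ht.trans hst), max_eq_left hst]
    exact key s t ht hst
  · rcases le_or_gt 0 s with hs | hs
    · rw [mz_of_nonneg q hs, mz_of_neg q ht, sub_neg_eq_add, abs_of_nonneg hs, abs_of_neg ht]
      have hM : 0 ≤ max s (-t) := hs.trans (le_max_left _ _)
      have hMt : 0 < max s (-t) := lt_of_lt_of_le (by linarith : 0 < -t) (le_max_right _ _)
      have a1 : ∀ v : ℝ, 0 ≤ v → v ≤ max s (-t) → v ^ q ≤ v * max s (-t) ^ (q - 1) := by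
        intro v hv hvM
        have e : v ^ q = v * v ^ (q - 1) := by
          rw [← Real.rpow_one_add' hv (by linarith)]
          congr 1; ring
        rw [e]
        exact mul_le_mul_of_nonneg_left (Real.rpow_le_rpow hv hvM (by linarith)) hv
      have b1 := a1 s hs (le_max_left _ _)
      have b2 := a1 (-t) (by linarith) (le_max_right _ _)
      have hP : 0 ≤ max s (-t) ^ (q - 1) := Real.rpow_nonneg hM _
      have b3 : 0 ≤ (s - t) * max s (-t) ^ (q - 1) := mul_nonneg (by linarith) hP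
      calc s ^ q + (-t) ^ q ≤ (s - t) * max s (-t) ^ (q - 1) := by linarith
        _ ≤ q * (s - t) * max s (-t) ^ (q - 1) := by nlinarith
    · rw [mz_of_neg q ht, mz_of_neg q hs, abs_of_neg ht, abs_of_neg hs,
        max_eq_right (by linarith : -s ≤ -t)]
      have h3 := key (-t) (-s) (by linarith) (by linarith)
      have e1 : -t - -s = s - t := by ring
      rw [e1] at h3
      have e2 : -(-s) ^ q - -(-t) ^ q = (-t) ^ q - (-s) ^ q := by ring
      rw [e2]
      exact h3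

/-- upper bound, exponent at most one -/
theorem mz_upper' {q : ℝ} (hq : 0 < q) (hq1 : q ≤ 1) (s t : ℝ) :
    |mz q s - mz q t| ≤ 2 ^ (1 - q) * |s - t| ^ q := by
  have hQ : 1 ≤ 1 / q := by rw [le_div_iff₀ hq]; linarith
  have h := mz_lower hQ (mz q s) (mz q t)
  rw [mz_inv hq, mz_inv hq] at h
  have h1 := Real.rpow_le_rpow (Real.rpow_nonneg (abs_nonneg _) _) h hq.le
  rw [← Real.rpow_mul (abs_nonneg _), one_div_mul_cancel hq.ne', Real.rpow_one,
    Real.mul_rpow (Real.rpow_nonneg (by norm_num) _) (abs_nonneg _),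
    ← Real.rpow_mul (by norm_num : (0:ℝ) ≤ 2)] at h1
  have e : (1 / q - 1) * q = 1 - q := by field_simp
  rwa [e] at h1

/-- lower bound, exponent at most one -/
theorem mz_lower' {q : ℝ} (hq : 0 < q) (hq1 : q ≤ 1) (s t : ℝ) :
    |s - t| ≤ 1 / q * |mz q s - mz q t| * max |s| |t| ^ (1 - q) := by
  have hQ : 1 ≤ 1 / q := by rw [le_div_iff₀ hq]; linarith
  have h := mz_upper hQ (mz q s) (mz q t)
  rw [mz_inv hq, mz_inv hq, abs_mz hq, abs_mz hq] at h
  have e1 : max (|s| ^ q) (|t| ^ q) = max |s| |t| ^ q := by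
    rcases le_total |s| |t| with h1 | h1
    · rw [max_eq_right h1, max_eq_right (Real.rpow_le_rpow (abs_nonneg _) h1 hq.le)]
    · rw [max_eq_left h1, max_eq_left (Real.rpow_le_rpow (abs_nonneg _) h1 hq.le)]
  rw [e1, ← Real.rpow_mul (le_trans (abs_nonneg s) (le_max_left _ _))] at h
  have e : q * (1 / q - 1) = 1 - q := by field_simp
  rwa [e] at h

section Vector

variable {W : Type*} [Fintype W] {p : ℝ}

/-- the Mazur map has the right norm -/
theorem mz_sq_sum (hp : 0 < p) (x : W → ℝ) : ∑ w, mz (p / 2) (x w) ^ 2 = nrm p x ^ p := by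
  rw [nrm_rpow hp]
  refine sum_congr rfl fun w _ => ?_
  rw [← sq_abs, abs_mz (by linarith : 0 < p / 2), ← Real.rpow_natCast, ← Real.rpow_mul (abs_nonneg _)]
  congr 1
  push_cast
  ring

theorem mz_holder {θ : ℝ} (h0 : 0 < θ) (h1 : θ ≤ 1) (f g : W → ℝ) (hf : ∀ w, 0 ≤ f w)
    (hg : ∀ w, 0 ≤ g w) :
    ∑ w, f w ^ θ * g w ^ (1 - θ) ≤ (∑ w, f w) ^ θ * (∑ w, g w) ^ (1 - θ) := by
  rcases h1.eq_or_lt with h | h
  · subst h
    simp
  · have hc : (1 / θ).HolderConjugate (1 / (1 - θ)) := by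
      rw [Real.holderConjugate_iff]
      constructor
      · rw [lt_div_iff₀ h0]; linarith
      · rw [one_div, one_div, inv_inv, inv_inv]; ring
    have key := Real.inner_le_Lp_mul_Lq_of_nonneg (s := univ) hc (f := fun w => f w ^ θ)
      (g := fun w => g w ^ (1 - θ)) (fun w _ => Real.rpow_nonneg (hf w) _)
      (fun w _ => Real.rpow_nonneg (hg w) _)
    have e1 : ∀ w, (f w ^ θ) ^ (1 / θ) = f w := fun w => by
      rw [← Real.rpow_mul (hf w), mul_one_div_cancel h0.ne', Real.rpow_one]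
    have e2 : ∀ w, (g w ^ (1 - θ)) ^ (1 / (1 - θ)) = g w := fun w => by
      rw [← Real.rpow_mul (hg w), mul_one_div_cancel (by linarith : 1 - θ ≠ 0), Real.rpow_one]
    simp only [e1, e2, one_div_one_div] at key
    exact key

theorem mz_max_sum (hp : 0 < p) {R : ℝ} (x y : W → ℝ) (hx : nrm p x ≤ R) (hy : nrm p y ≤ R) :
    ∑ w, max |x w| |y w| ^ p ≤ 2 * R ^ p := by
  have h1 : ∑ w, max |x w| |y w| ^ p ≤ ∑ w, (|x w| ^ p + |y w| ^ p) := by
    refine sum_le_sum fun w _ => ?_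
    have a := Real.rpow_nonneg (abs_nonneg (x w)) p
    have b := Real.rpow_nonneg (abs_nonneg (y w)) p
    rcases le_total |x w| |y w| with h | h
    · rw [max_eq_right h]; linarith
    · rw [max_eq_left h]; linarith
  rw [sum_add_distrib, ← nrm_rpow hp, ← nrm_rpow hp] at h1
  have h2 := Real.rpow_le_rpow (nrm_nonneg p x) hx hp.le
  have h3 := Real.rpow_le_rpow (nrm_nonneg p y) hy hp.le
  linarith

/-- `p ≥ 2`, lower bound -/
theorem mazur_lower_ge (hp : 2 ≤ p) (x y : W → ℝ) :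
    nrm p (fun w => x w - y w) ^ p ≤
      2 ^ (p - 2) * ∑ w, (mz (p / 2) (x w) - mz (p / 2) (y w)) ^ 2 := by
  rw [nrm_rpow (by linarith), mul_sum]
  refine sum_le_sum fun w _ => ?_
  have h := mz_lower (by linarith : 1 ≤ p / 2) (x w) (y w)
  have h2 := pow_le_pow_left₀ (Real.rpow_nonneg (abs_nonneg _) _) h 2
  rw [mul_pow, sq_abs, ← Real.rpow_natCast, ← Real.rpow_mul (abs_nonneg _),
    ← Real.rpow_natCast (2 ^ (p / 2 - 1)), ← Real.rpow_mul (by norm_num)] at h2
  have e1 : p / 2 * ((2 : ℕ) : ℝ) = p := by push_cast; ring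
  have e2 : (p / 2 - 1) * ((2 : ℕ) : ℝ) = p - 2 := by push_cast; ring
  rwa [e1, e2] at h2

/-- `p ≥ 2`, upper bound -/
theorem mazur_upper_ge (hp : 2 ≤ p) {R : ℝ} (x y : W → ℝ) (hx : nrm p x ≤ R)
    (hy : nrm p y ≤ R) :
    ∑ w, (mz (p / 2) (x w) - mz (p / 2) (y w)) ^ 2 ≤
      p ^ 2 / 2 * R ^ (p - 2) * nrm p (fun w => x w - y w) ^ 2 := by
  have hp0 : 0 < p := by linarith
  have hR : 0 ≤ R := (nrm_nonneg p x).trans hx
  have hθ0 : 0 < 2 / p := by positivity
  have hθ1 : 2 / p ≤ 1 := by rw [div_le_one hp0]; exact hp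
  have key := mz_holder hθ0 hθ1 (fun w => |x w - y w| ^ p) (fun w => max |x w| |y w| ^ p)
    (fun w => Real.rpow_nonneg (abs_nonneg _) _)
    (fun w => Real.rpow_nonneg ((abs_nonneg _).trans (le_max_left _ _)) _)
  have hsum : (∑ w, |x w - y w| ^ p) ^ (2 / p) = nrm p (fun w => x w - y w) ^ 2 := by
    rw [← nrm_rpow hp0 (fun w => x w - y w), ← Real.rpow_mul (nrm_nonneg _ _),
      mul_div_cancel₀ _ hp0.ne', Real.rpow_two]
  have hterm : ∀ w, (mz (p / 2) (x w) - mz (p / 2) (y w)) ^ 2 ≤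
      (p / 2) ^ 2 * ((|x w - y w| ^ p) ^ (2 / p) * (max |x w| |y w| ^ p) ^ (1 - 2 / p)) := by
    intro w
    have h := mz_upper (by linarith : 1 ≤ p / 2) (x w) (y w)
    have h2 := pow_le_pow_left₀ (abs_nonneg _) h 2
    have hm : 0 ≤ max |x w| |y w| := (abs_nonneg _).trans (le_max_left _ _)
    rw [sq_abs, mul_pow, mul_pow] at h2
    have e1 : (|x w - y w| ^ p) ^ (2 / p) = |x w - y w| ^ 2 := by
      rw [← Real.rpow_mul (abs_nonneg _), mul_div_cancel₀ _ hp0.ne', Real.rpow_two]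
    have e2 : (max |x w| |y w| ^ p) ^ (1 - 2 / p) = (max |x w| |y w| ^ (p / 2 - 1)) ^ 2 := by
      rw [← Real.rpow_mul hm, ← Real.rpow_natCast, ← Real.rpow_mul hm]
      congr 1
      push_cast
      field_simp
    rw [e1, e2]
    linarith
  have hM := mz_max_sum hp0 x y hx hy
  have hM2 : (∑ w, max |x w| |y w| ^ p) ^ (1 - 2 / p) ≤ 2 * R ^ (p - 2) := by
    have hn : 0 ≤ ∑ w, max |x w| |y w| ^ p :=
      sum_nonneg fun w _ => Real.rpow_nonneg ((abs_nonneg _).trans (le_max_left _ _)) _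
    refine (Real.rpow_le_rpow hn hM (by linarith)).trans ?_
    rw [Real.mul_rpow (by norm_num) (Real.rpow_nonneg hR _), ← Real.rpow_mul hR]
    have e : p * (1 - 2 / p) = p - 2 := by field_simp
    rw [e]
    refine mul_le_mul_of_nonneg_right ?_ (Real.rpow_nonneg hR _)
    calc (2 : ℝ) ^ (1 - 2 / p) ≤ 2 ^ (1 : ℝ) :=
          Real.rpow_le_rpow_of_exponent_le (by norm_num) (by linarith)
      _ = 2 := Real.rpow_one _
  calc ∑ w, (mz (p / 2) (x w) - mz (p / 2) (y w)) ^ 2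
      ≤ ∑ w, (p / 2) ^ 2 *
        ((|x w - y w| ^ p) ^ (2 / p) * (max |x w| |y w| ^ p) ^ (1 - 2 / p)) :=
        sum_le_sum fun w _ => hterm w
    _ = (p / 2) ^ 2 *
        ∑ w, (|x w - y w| ^ p) ^ (2 / p) * (max |x w| |y w| ^ p) ^ (1 - 2 / p) := by
        rw [mul_sum]
    _ ≤ (p / 2) ^ 2 * (nrm p (fun w => x w - y w) ^ 2 * (2 * R ^ (p - 2))) := by
        refine mul_le_mul_of_nonneg_left ?_ (by positivity)
        rw [hsum] at key
        exact key.trans (mul_le_mul_of_nonneg_left hM2 (by positivity))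
    _ = p ^ 2 / 2 * R ^ (p - 2) * nrm p (fun w => x w - y w) ^ 2 := by ring

/-- `p ≤ 2`, upper bound -/
theorem mazur_upper_le (hp0 : 0 < p) (hp : p ≤ 2) (x y : W → ℝ) :
    ∑ w, (mz (p / 2) (x w) - mz (p / 2) (y w)) ^ 2 ≤
      2 ^ (2 - p) * nrm p (fun w => x w - y w) ^ p := by
  rw [nrm_rpow hp0, mul_sum]
  refine sum_le_sum fun w _ => ?_
  have h := mz_upper' (by linarith : 0 < p / 2) (by linarith : p / 2 ≤ 1) (x w) (y w)
  have h2 := pow_le_pow_left₀ (abs_nonneg _) h 2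
  rw [mul_pow, sq_abs, ← Real.rpow_natCast (|x w - y w| ^ (p / 2)),
    ← Real.rpow_mul (abs_nonneg _),
    ← Real.rpow_natCast (2 ^ (1 - p / 2)), ← Real.rpow_mul (by norm_num)] at h2
  have e1 : p / 2 * ((2 : ℕ) : ℝ) = p := by push_cast; ring
  have e2 : (1 - p / 2) * ((2 : ℕ) : ℝ) = 2 - p := by push_cast; ring
  rwa [e1, e2] at h2

/-- `1 ≤ p ≤ 2`, lower bound -/
theorem mazur_lower_le (hp1 : 1 ≤ p) (hp : p ≤ 2) {R : ℝ} (x y : W → ℝ) (hx : nrm p x ≤ R)
    (hy : nrm p y ≤ R) :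
    nrm p (fun w => x w - y w) ^ 2 ≤
      8 / p ^ 2 * R ^ (2 - p) * ∑ w, (mz (p / 2) (x w) - mz (p / 2) (y w)) ^ 2 := by
  have hp0 : 0 < p := by linarith
  have hR : 0 ≤ R := (nrm_nonneg p x).trans hx
  set S := ∑ w, (mz (p / 2) (x w) - mz (p / 2) (y w)) ^ 2 with hS
  have hS0 : 0 ≤ S := sum_nonneg fun w _ => sq_nonneg _
  have key := mz_holder (by linarith : 0 < p / 2) (by linarith : p / 2 ≤ 1)
    (fun w => (mz (p / 2) (x w) - mz (p / 2) (y w)) ^ 2) (fun w => max |x w| |y w| ^ p)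
    (fun w => sq_nonneg _)
    (fun w => Real.rpow_nonneg ((abs_nonneg _).trans (le_max_left _ _)) _)
  rw [← hS] at key
  have hterm : ∀ w, |x w - y w| ^ p ≤ (2 / p) ^ p *
      (((mz (p / 2) (x w) - mz (p / 2) (y w)) ^ 2) ^ (p / 2) *
        (max |x w| |y w| ^ p) ^ (1 - p / 2)) := by
    intro w
    have h := mz_lower' (by linarith : 0 < p / 2) (by linarith : p / 2 ≤ 1) (x w) (y w)
    have hm : 0 ≤ max |x w| |y w| := (abs_nonneg _).trans (le_max_left _ _)
    have h2 := Real.rpow_le_rpow (abs_nonneg _) h hp0.le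
    have hc : (1 : ℝ) / (p / 2) = 2 / p := by field_simp
    rw [hc, Real.mul_rpow (by positivity) (Real.rpow_nonneg hm _),
      Real.mul_rpow (by positivity) (abs_nonneg _)] at h2
    have e1 : ((mz (p / 2) (x w) - mz (p / 2) (y w)) ^ 2) ^ (p / 2) =
        |mz (p / 2) (x w) - mz (p / 2) (y w)| ^ p := by
      rw [← sq_abs, ← Real.rpow_natCast, ← Real.rpow_mul (abs_nonneg _)]
      congr 1
      push_cast
      ring
    have e2 : (max |x w| |y w| ^ p) ^ (1 - p / 2) = (max |x w| |y w| ^ (1 - p / 2)) ^ p := by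
      rw [← Real.rpow_mul hm, ← Real.rpow_mul hm, mul_comm]
    rw [e1, e2]
    linarith
  have hM := mz_max_sum hp0 x y hx hy
  have hn : 0 ≤ ∑ w, max |x w| |y w| ^ p :=
    sum_nonneg fun w _ => Real.rpow_nonneg ((abs_nonneg _).trans (le_max_left _ _)) _
  have hfull : nrm p (fun w => x w - y w) ^ p ≤
      (2 / p) ^ p * (S ^ (p / 2) * (2 * R ^ p) ^ (1 - p / 2)) := by
    rw [nrm_rpow hp0]
    calc ∑ w, |x w - y w| ^ p ≤ ∑ w, (2 / p) ^ p *
          (((mz (p / 2) (x w) - mz (p / 2) (y w)) ^ 2) ^ (p / 2) *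
          (max |x w| |y w| ^ p) ^ (1 - p / 2)) := sum_le_sum fun w _ => hterm w
      _ = (2 / p) ^ p * ∑ w, ((mz (p / 2) (x w) - mz (p / 2) (y w)) ^ 2) ^ (p / 2) *
          (max |x w| |y w| ^ p) ^ (1 - p / 2) := by rw [mul_sum]
      _ ≤ (2 / p) ^ p * (S ^ (p / 2) * (∑ w, max |x w| |y w| ^ p) ^ (1 - p / 2)) :=
          mul_le_mul_of_nonneg_left key (by positivity)
      _ ≤ _ := by
          refine mul_le_mul_of_nonneg_left ?_ (by positivity)
          exact mul_le_mul_of_nonneg_left (Real.rpow_le_rpow hn hM (by linarith))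
            (Real.rpow_nonneg hS0 _)
  have h3 := Real.rpow_le_rpow (Real.rpow_nonneg (nrm_nonneg _ _) _) hfull
    (by positivity : 0 ≤ 2 / p)
  have hN := nrm_nonneg p (fun w => x w - y w)
  have hRp : 0 ≤ R ^ p := Real.rpow_nonneg hR _
  rw [← Real.rpow_mul hN, mul_div_cancel₀ _ hp0.ne', Real.rpow_two,
    Real.mul_rpow (by positivity) (mul_nonneg (Real.rpow_nonneg hS0 _)
      (Real.rpow_nonneg (by positivity) _)),
    Real.mul_rpow (Real.rpow_nonneg hS0 _) (Real.rpow_nonneg (by positivity) _),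
    ← Real.rpow_mul (by positivity : (0:ℝ) ≤ 2 / p), ← Real.rpow_mul hS0,
    ← Real.rpow_mul (by positivity : (0:ℝ) ≤ 2 * R ^ p)] at h3
  have e1 : p * (2 / p) = 2 := by field_simp
  have e2 : p / 2 * (2 / p) = 1 := by field_simp
  have e3 : (1 - p / 2) * (2 / p) = 2 / p - 1 := by field_simp
  rw [e1, e2, e3, Real.rpow_one, Real.rpow_two, Real.mul_rpow (by norm_num) hRp,
    ← Real.rpow_mul hR] at h3
  have e4 : p * (2 / p - 1) = 2 - p := by field_simp
  rw [e4] at h3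
  have h5 : (2 : ℝ) ^ (2 / p - 1) ≤ 2 := by
    calc (2 : ℝ) ^ (2 / p - 1) ≤ 2 ^ (1 : ℝ) := by
          refine Real.rpow_le_rpow_of_exponent_le (by norm_num) ?_
          have : 2 / p ≤ 2 := by rw [div_le_iff₀ hp0]; linarith
          linarith
      _ = 2 := Real.rpow_one _
  have h6 : 0 ≤ R ^ (2 - p) := Real.rpow_nonneg hR _
  calc nrm p (fun w => x w - y w) ^ 2
      ≤ (2 / p) ^ 2 * (S * (2 ^ (2 / p - 1) * R ^ (2 - p))) := h3
    _ ≤ (2 / p) ^ 2 * (S * (2 * R ^ (2 - p))) := by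
        refine mul_le_mul_of_nonneg_left (mul_le_mul_of_nonneg_left
          (mul_le_mul_of_nonneg_right h5 h6) hS0) (by positivity)
    _ = 8 / p ^ 2 * R ^ (2 - p) * S := by ring

end Vector

end Vale.Agent.Lib.P249
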