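import Vale.Agent.Lib.P249.HG2
import Vale.Agent.Lib.P249.Gauss
import Vale.Agent.Lib.P249.Mazur

/-!
# Local kernels from the Mazur map, and small Hajlasz gradients for every `p > 1` (module HG2B of P249)
-/

namespace Vale.Agent.Lib.P249

open Finset

section

variable {A W : Type*} [Fintype A] [Fintype W] {p : ℝ}

theorem sum_dite_subtype {A : Type*} [Fintype A] (P : A → Prop) [DecidablePred P]
    (g : Subtype P → ℝ) : ∑ b : A, (if h : P b then g ⟨b, h⟩ else 0) = ∑ b : Subtype P, g b := by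
  classical
  have h1 : ∑ b ∈ univ.filter P, (if h : P b then g ⟨b, h⟩ else 0) =
      ∑ b : Subtype P, (if h : P b.1 then g ⟨b.1, h⟩ else 0) :=
    sum_subtype (univ.filter P) (fun x => by simp) (fun b => if h : P b then g ⟨b, h⟩ else 0)
  have h2 : ∑ b : Subtype P, (if h : P b.1 then g ⟨b.1, h⟩ else 0) = ∑ b : Subtype P, g b :=
    sum_congr rfl fun b _ => by rw [dif_pos b.2]
  rw [← h2, ← h1]
  symm
  refine sum_subset (filter_subset _ _) fun b _ hb => ?_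
  rw [mem_filter] at hb
  rw [dif_neg]
  intro h
  exact hb ⟨mem_univ _, h⟩

/-- a kernel on the ball from a Gaussian kernel; `S` is the squared distance of the Mazur images -/
theorem ball_kernel [Nonempty A] (hp : 1 ≤ p) (x : A → W → ℝ) (s : ℝ) (hs : 0 < s) (Λ : ℝ)
    (hΛ : 0 ≤ Λ) (c : A) (σ : ℝ) (hσ : 0 < σ) (r B : ℝ) (hr : 1 ≤ r) (hB : 0 ≤ B)
    (h1 : ∀ a b, dd p x a c * s ≤ Λ → dd p x b c * s ≤ Λ → dd p x a b * s ≤ 1 →
      ∑ w, (mz (p / 2) (x a w - x c w) - mz (p / 2) (x b w - x c w)) ^ 2 ≤ σ ^ 2)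
    (h2 : ∀ a b, dd p x a c * s ≤ Λ → dd p x b c * s ≤ Λ →
      (s * dd p x a b) ^ r ≤
        B * (∑ w, (mz (p / 2) (x a w - x c w) - mz (p / 2) (x b w - x c w)) ^ 2 / σ ^ 2)) :
    ∃ k : A → A → ℝ, (∀ a b, 0 ≤ k a b) ∧
      (∀ a, dd p x a c * s ≤ Λ →
        s * ∑ b, k a b * dd p x a b ≤ (B * (16 * (1 + Real.log (Fintype.card A)))) ^ (1 / r)) ∧
      (∀ a a', dd p x a c * s ≤ Λ → dd p x a' c * s ≤ Λ → dd p x a a' * s ≤ 1 →
        1 / 4 ≤ ∑ b, min (k a b) (k a' b)) := by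
  classical
  have hp0 : 0 < p := lt_of_lt_of_le one_pos hp
  set P : A → Prop := fun b => dd p x b c * s ≤ Λ with hP
  have hPc : P c := by
    rw [hP]; simp only; rw [dd_self hp0, zero_mul]; exact hΛ
  have : Nonempty (Subtype P) := ⟨⟨c, hPc⟩⟩
  set u : Subtype P → W → ℝ := fun b w => mz (p / 2) (x b.1 w - x c w) / σ with hu
  obtain ⟨μ, μ0, μ1, _, μe, μo⟩ := Vale.Agent.P249.gauss_kernel u
  have hds : ∀ a b : Subtype P, Vale.Agent.P249.ds (u a) (u b) =
      ∑ w, (mz (p / 2) (x a.1 w - x c w) - mz (p / 2) (x b.1 w - x c w)) ^ 2 / σ ^ 2 := by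
    intro a b
    unfold Vale.Agent.P249.ds
    refine sum_congr rfl fun w _ => ?_
    simp only [hu]
    field_simp
  refine ⟨fun a b => if h : P a then (if h' : P b then μ ⟨a, h⟩ ⟨b, h'⟩ else 0) else 0, ?_, ?_, ?_⟩
  · intro a b
    by_cases h : P a
    · by_cases h' : P b
      · simp only [dif_pos h, dif_pos h']; exact μ0 _ _
      · simp only [dif_pos h, dif_neg h']; exact le_refl _
    · simp only [dif_neg h]; exact le_refl _
  · intro a ha
    have hsum : ∑ b, (if h : P a then (if h' : P b then μ ⟨a, h⟩ ⟨b, h'⟩ else 0) else 0) *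
        dd p x a b = ∑ b : Subtype P, μ ⟨a, ha⟩ b * dd p x a b.1 := by
      rw [← sum_dite_subtype P (fun b => μ ⟨a, ha⟩ b * dd p x a b.1)]
      refine sum_congr rfl fun b _ => ?_
      rw [dif_pos (show P a from ha)]
      by_cases h' : P b
      · rw [dif_pos h', dif_pos h']
      · rw [dif_neg h', dif_neg h', zero_mul]
    rw [hsum]
    have hJ : ∑ b : Subtype P, μ ⟨a, ha⟩ b * (s * dd p x a b.1) ≤
        (∑ b : Subtype P, μ ⟨a, ha⟩ b * (s * dd p x a b.1) ^ r) ^ (1 / r) :=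
      Real.arith_mean_le_rpow_mean univ (fun b => μ ⟨a, ha⟩ b) (fun b => s * dd p x a b.1)
        (fun b _ => μ0 _ _) (μ1 _) (fun b _ => mul_nonneg hs.le (dd_nonneg _ _ _ _)) hr
    have hM : ∑ b : Subtype P, μ ⟨a, ha⟩ b * (s * dd p x a b.1) ^ r ≤
        B * (16 * (1 + Real.log (Fintype.card A))) := by
      have h3 := Vale.Agent.P249.gauss_sq u ⟨a, ha⟩ (μ ⟨a, ha⟩) (μ0 _) (μ1 _) (μe _)
      have h4 : Real.log (Fintype.card (Subtype P)) ≤ Real.log (Fintype.card A) := by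
        refine Real.log_le_log (by exact_mod_cast Fintype.card_pos) ?_
        exact_mod_cast Fintype.card_subtype_le P
      calc ∑ b : Subtype P, μ ⟨a, ha⟩ b * (s * dd p x a b.1) ^ r
          ≤ ∑ b : Subtype P, μ ⟨a, ha⟩ b * (B * Vale.Agent.P249.ds (u ⟨a, ha⟩) (u b)) := by
            refine sum_le_sum fun b _ => mul_le_mul_of_nonneg_left ?_ (μ0 _ _)
            rw [hds]
            exact h2 a b.1 ha b.2
        _ = B * ∑ b : Subtype P, μ ⟨a, ha⟩ b * Vale.Agent.P249.ds (u ⟨a, ha⟩) (u b) := by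
            rw [mul_sum]; exact sum_congr rfl fun b _ => by ring
        _ ≤ B * (16 * (1 + Real.log (Fintype.card (Subtype P)))) :=
            mul_le_mul_of_nonneg_left h3 hB
        _ ≤ B * (16 * (1 + Real.log (Fintype.card A))) :=
            mul_le_mul_of_nonneg_left (by linarith) hB
    have h5 : 0 ≤ ∑ b : Subtype P, μ ⟨a, ha⟩ b * (s * dd p x a b.1) ^ r :=
      sum_nonneg fun b _ => mul_nonneg (μ0 _ _)
        (Real.rpow_nonneg (mul_nonneg hs.le (dd_nonneg _ _ _ _)) _)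
    calc s * ∑ b : Subtype P, μ ⟨a, ha⟩ b * dd p x a b.1
        = ∑ b : Subtype P, μ ⟨a, ha⟩ b * (s * dd p x a b.1) := by
          rw [mul_sum]; exact sum_congr rfl fun b _ => by ring
      _ ≤ _ := hJ
      _ ≤ _ := Real.rpow_le_rpow h5 hM (by positivity)
  · intro a a' ha ha' haa
    have h3 := μo ⟨a, ha⟩ ⟨a', ha'⟩
    have h4 : Vale.Agent.P249.ds (u ⟨a, ha⟩) (u ⟨a', ha'⟩) ≤ 1 := by
      rw [hds, ← sum_div, div_le_one (by positivity)]
      exact h1 a a' ha ha' haa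
    have h5 : (1 : ℝ) / 4 ≤ Real.exp (-Vale.Agent.P249.ds (u ⟨a, ha⟩) (u ⟨a', ha'⟩) / 4) / 2 := by
      have h6 : Real.exp (-(1 / 4)) ≤
          Real.exp (-Vale.Agent.P249.ds (u ⟨a, ha⟩) (u ⟨a', ha'⟩) / 4) :=
        Real.exp_le_exp.mpr (by linarith)
      have h7 := Real.add_one_le_exp (-(1 / 4) : ℝ)
      linarith
    refine h5.trans (h3.trans ?_)
    rw [← sum_dite_subtype P (fun b => min (μ ⟨a, ha⟩ b) (μ ⟨a', ha'⟩ b))]
    refine le_of_eq (sum_congr rfl fun b _ => ?_)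
    beta_reduce
    rw [dif_pos (show P a from ha), dif_pos (show P a' from ha')]
    by_cases h' : P b
    · rw [dif_pos h', dif_pos h', dif_pos h']
    · rw [dif_neg h', dif_neg h', dif_neg h', min_self]

theorem nrm_sub_center (x : A → W → ℝ) (a b c : A) :
    nrm p (fun w => (x a w - x c w) - (x b w - x c w)) = dd p x a b := by
  unfold dd
  congr 1
  funext w
  ring

/-- local kernels, `2 ≤ p` -/
theorem local_kernel_ge [Nonempty A] (hp : 2 ≤ p) (x : A → W → ℝ) (Λ : ℝ) (hΛ : 1 ≤ Λ) (s : ℝ)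
    (hs : 0 < s) (c : A) :
    ∃ k : A → A → ℝ, (∀ a b, 0 ≤ k a b) ∧
      (∀ a, dd p x a c * s ≤ Λ → s * ∑ b, k a b * dd p x a b ≤
        (2 ^ (p - 2) * (p ^ 2 / 2 * Λ ^ (p - 2)) * (16 * (1 + Real.log (Fintype.card A)))) ^ (1 / p)) ∧
      (∀ a a', dd p x a c * s ≤ Λ → dd p x a' c * s ≤ Λ → dd p x a a' * s ≤ 1 →
        1 / 4 ≤ ∑ b, min (k a b) (k a' b)) := by
  have hp1 : 1 ≤ p := by linarith
  have hp0 : 0 < p := by linarith
  have hΛ0 : 0 < Λ := by linarith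
  -- σ² = p²/2 (Λ/s)^(p-2) / s²
  set σ2 : ℝ := p ^ 2 / 2 * (Λ / s) ^ (p - 2) * (1 / s) ^ 2 with hσ2
  have hσ2p : 0 < σ2 := by positivity
  have hσs : Real.sqrt σ2 ^ 2 = σ2 := Real.sq_sqrt hσ2p.le
  have hball : ∀ a, dd p x a c * s ≤ Λ → nrm p (fun w => x a w - x c w) ≤ Λ / s := by
    intro a ha
    rw [le_div_iff₀ hs]
    exact ha
  refine ball_kernel hp1 x s hs Λ hΛ0.le c (Real.sqrt σ2) (Real.sqrt_pos.mpr hσ2p) p
    (2 ^ (p - 2) * (p ^ 2 / 2 * Λ ^ (p - 2))) hp1 (by positivity) ?_ ?_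
  · intro a b ha hb hab
    rw [hσs]
    have h1 := mazur_upper_ge hp (R := Λ / s) (fun w => x a w - x c w) (fun w => x b w - x c w)
      (hball a ha) (hball b hb)
    rw [nrm_sub_center] at h1
    refine h1.trans ?_
    have h2 : dd p x a b ≤ 1 / s := by rw [le_div_iff₀ hs]; exact hab
    have h3 : dd p x a b ^ 2 ≤ (1 / s) ^ 2 := pow_le_pow_left₀ (dd_nonneg _ _ _ _) h2 2
    exact mul_le_mul_of_nonneg_left h3 (by positivity)
  · intro a b ha hb
    rw [hσs]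
    have h1 := mazur_lower_ge hp (fun w => x a w - x c w) (fun w => x b w - x c w)
    rw [nrm_sub_center] at h1
    rw [← sum_div]
    set S := ∑ w, (mz (p / 2) (x a w - x c w) - mz (p / 2) (x b w - x c w)) ^ 2 with hS
    have h4 : p ^ 2 / 2 * Λ ^ (p - 2) = σ2 * s ^ p := by
      rw [hσ2, Real.div_rpow hΛ0.le hs.le]
      have h5 : s ^ p = s ^ (p - 2) * s ^ 2 := by
        rw [← Real.rpow_natCast s 2, ← Real.rpow_add hs]; congr 1; push_cast; ring
      rw [h5]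
      have h6 : 0 < s ^ (p - 2) := by positivity
      field_simp
    rw [h4, Real.mul_rpow hs.le (dd_nonneg _ _ _ _)]
    have h5 : 2 ^ (p - 2) * (σ2 * s ^ p) * (S / σ2) = s ^ p * (2 ^ (p - 2) * S) := by
      field_simp
    rw [h5]
    exact mul_le_mul_of_nonneg_left h1 (by positivity)

/-- local kernels, `1 ≤ p ≤ 2` -/
theorem local_kernel_le [Nonempty A] (hp1 : 1 ≤ p) (hp : p ≤ 2) (x : A → W → ℝ) (Λ : ℝ)
    (hΛ : 1 ≤ Λ) (s : ℝ) (hs : 0 < s) (c : A) :
    ∃ k : A → A → ℝ, (∀ a b, 0 ≤ k a b) ∧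
      (∀ a, dd p x a c * s ≤ Λ → s * ∑ b, k a b * dd p x a b ≤
        (8 / p ^ 2 * Λ ^ (2 - p) * 2 ^ (2 - p) * (16 * (1 + Real.log (Fintype.card A)))) ^
          (1 / (2 : ℝ))) ∧
      (∀ a a', dd p x a c * s ≤ Λ → dd p x a' c * s ≤ Λ → dd p x a a' * s ≤ 1 →
        1 / 4 ≤ ∑ b, min (k a b) (k a' b)) := by
  have hp0 : 0 < p := by linarith
  have hΛ0 : 0 < Λ := by linarith
  set σ2 : ℝ := 2 ^ (2 - p) * (1 / s) ^ p with hσ2
  have hσ2p : 0 < σ2 := by positivity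
  have hσs : Real.sqrt σ2 ^ 2 = σ2 := Real.sq_sqrt hσ2p.le
  have hball : ∀ a, dd p x a c * s ≤ Λ → nrm p (fun w => x a w - x c w) ≤ Λ / s := by
    intro a ha
    rw [le_div_iff₀ hs]
    exact ha
  refine ball_kernel hp1 x s hs Λ hΛ0.le c (Real.sqrt σ2) (Real.sqrt_pos.mpr hσ2p) 2
    (8 / p ^ 2 * Λ ^ (2 - p) * 2 ^ (2 - p)) (by norm_num) (by positivity) ?_ ?_
  · intro a b ha hb hab
    rw [hσs]
    have h1 := mazur_upper_le hp0 hp (fun w => x a w - x c w) (fun w => x b w - x c w)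
    rw [nrm_sub_center] at h1
    refine h1.trans ?_
    have h2 : dd p x a b ≤ 1 / s := by rw [le_div_iff₀ hs]; exact hab
    have h3 : dd p x a b ^ p ≤ (1 / s) ^ p := Real.rpow_le_rpow (dd_nonneg _ _ _ _) h2 hp0.le
    exact mul_le_mul_of_nonneg_left h3 (by positivity)
  · intro a b ha hb
    rw [hσs]
    have h1 := mazur_lower_le hp1 hp (R := Λ / s) (fun w => x a w - x c w)
      (fun w => x b w - x c w) (hball a ha) (hball b hb)
    rw [nrm_sub_center] at h1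
    rw [← sum_div]
    set S := ∑ w, (mz (p / 2) (x a w - x c w) - mz (p / 2) (x b w - x c w)) ^ 2 with hS
    have hr : (s * dd p x a b) ^ (2 : ℝ) = s ^ 2 * dd p x a b ^ 2 := by
      rw [show (2 : ℝ) = ((2 : ℕ) : ℝ) by norm_num, Real.rpow_natCast, mul_pow]
    rw [hr]
    have h4 : 8 / p ^ 2 * Λ ^ (2 - p) * 2 ^ (2 - p) * (S / σ2) =
        s ^ 2 * (8 / p ^ 2 * (Λ / s) ^ (2 - p) * S) := by
      rw [hσ2, Real.div_rpow hΛ0.le hs.le, Real.div_rpow zero_le_one hs.le, Real.one_rpow]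
      have h5 : s ^ 2 = s ^ (2 - p) * s ^ p := by
        rw [← Real.rpow_add hs]
        rw [show 2 - p + p = ((2 : ℕ) : ℝ) by push_cast; ring, Real.rpow_natCast]
      rw [h5]
      have h6 : 0 < s ^ (2 - p) := by positivity
      have h7 : 0 < s ^ p := by positivity
      have h8 : (0:ℝ) < 2 ^ (2 - p) := by positivity
      field_simp
    rw [h4]
    exact mul_le_mul_of_nonneg_left h1 (by positivity)

end

end Vale.Agent.Lib.P249
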