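import Vale.Agent.Lib.P249.HG2B

/-!
# Hajlasz gradients of norm `O ((1 + log n)^θ)`, `θ < 1`, for every `p > 1`
-/

namespace Vale.Agent.Lib.P249

open Finset

universe u v

/-- local kernels with a bound `C (1 + log n)^θ`, `θ < 1` -/
theorem local_kernel {p : ℝ} (hp : 1 < p) : ∃ C th : ℝ, 0 < C ∧ 0 ≤ th ∧ th < 1 ∧
    ∀ (A : Type u) (W : Type v) [Fintype A] [Nonempty A] [Fintype W] (x : A → W → ℝ) (s : ℝ),
      0 < s → ∀ c : A, ∃ k : A → A → ℝ, (∀ a b, 0 ≤ k a b) ∧
      (∀ a, dd p x a c * s ≤ Real.log (Fintype.card A) + 2 →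
        s * ∑ b, k a b * dd p x a b ≤ C * (1 + Real.log (Fintype.card A)) ^ th) ∧
      (∀ a a', dd p x a c * s ≤ Real.log (Fintype.card A) + 2 →
        dd p x a' c * s ≤ Real.log (Fintype.card A) + 2 → dd p x a a' * s ≤ 1 →
        1 / 4 ≤ ∑ b, min (k a b) (k a' b)) := by
  rcases le_total 2 p with h2 | h2
  · -- th = (p-1)/p
    refine ⟨(2 ^ (p - 2) * (p ^ 2 / 2 * 2 ^ (p - 2)) * 16) ^ (1 / p), (p - 1) / p, by positivity,
      div_nonneg (by linarith) (by linarith), by rw [div_lt_one (by linarith)]; linarith, ?_⟩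
    intro A W _ _ _ x s hs c
    have hln : 0 ≤ Real.log (Fintype.card A) :=
      Real.log_nonneg (by exact_mod_cast Fintype.card_pos)
    obtain ⟨k, k0, k1, k2⟩ := local_kernel_ge h2 x (Real.log (Fintype.card A) + 2) (by linarith) s hs c
    refine ⟨k, k0, fun a ha => (k1 a ha).trans ?_, k2⟩
    set L := 1 + Real.log (Fintype.card A) with hL
    have hL1 : 1 ≤ L := by linarith
    have hL0 : 0 < L := by linarith
    have h3 : (Real.log (Fintype.card A) + 2) ^ (p - 2) ≤ 2 ^ (p - 2) * L ^ (p - 2) := by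
      rw [← Real.mul_rpow (by norm_num) hL0.le]
      exact Real.rpow_le_rpow (by linarith) (by linarith) (by linarith)
    have h4 : 2 ^ (p - 2) * (p ^ 2 / 2 * (Real.log (Fintype.card A) + 2) ^ (p - 2)) * (16 * L) ≤
        (2 ^ (p - 2) * (p ^ 2 / 2 * 2 ^ (p - 2)) * 16) * L ^ (p - 1) := by
      have h5 : L ^ (p - 1) = L ^ (p - 2) * L := by
        rw [← Real.rpow_add_one hL0.ne']; congr 1; ring
      rw [h5]
      calc 2 ^ (p - 2) * (p ^ 2 / 2 * (Real.log (Fintype.card A) + 2) ^ (p - 2)) * (16 * L)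
          ≤ 2 ^ (p - 2) * (p ^ 2 / 2 * (2 ^ (p - 2) * L ^ (p - 2))) * (16 * L) := by gcongr
        _ = _ := by ring
    have h6 : 0 ≤ Real.log (Fintype.card A) + 2 := by linarith
    refine (Real.rpow_le_rpow (by positivity) h4 (by positivity)).trans (le_of_eq ?_)
    rw [Real.mul_rpow (by positivity) (by positivity), ← Real.rpow_mul hL0.le]
    congr 2
    ring
  · -- th = (3-p)/2
    refine ⟨(8 / p ^ 2 * 2 ^ (2 - p) * 2 ^ (2 - p) * 16) ^ (1 / (2 : ℝ)), (3 - p) / 2,
      by positivity, by linarith, by linarith, ?_⟩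
    intro A W _ _ _ x s hs c
    have hln : 0 ≤ Real.log (Fintype.card A) :=
      Real.log_nonneg (by exact_mod_cast Fintype.card_pos)
    obtain ⟨k, k0, k1, k2⟩ := local_kernel_le hp.le h2 x (Real.log (Fintype.card A) + 2)
      (by linarith) s hs c
    refine ⟨k, k0, fun a ha => (k1 a ha).trans ?_, k2⟩
    set L := 1 + Real.log (Fintype.card A) with hL
    have hL1 : 1 ≤ L := by linarith
    have hL0 : 0 < L := by linarith
    have h3 : (Real.log (Fintype.card A) + 2) ^ (2 - p) ≤ 2 ^ (2 - p) * L ^ (2 - p) := by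
      rw [← Real.mul_rpow (by norm_num) hL0.le]
      exact Real.rpow_le_rpow (by linarith) (by linarith) (by linarith)
    have h4 : 8 / p ^ 2 * (Real.log (Fintype.card A) + 2) ^ (2 - p) * 2 ^ (2 - p) * (16 * L) ≤
        (8 / p ^ 2 * 2 ^ (2 - p) * 2 ^ (2 - p) * 16) * L ^ (3 - p) := by
      have h5 : L ^ (3 - p) = L ^ (2 - p) * L := by
        rw [← Real.rpow_add_one hL0.ne']; congr 1; ring
      rw [h5]
      calc 8 / p ^ 2 * (Real.log (Fintype.card A) + 2) ^ (2 - p) * 2 ^ (2 - p) * (16 * L)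
          ≤ 8 / p ^ 2 * (2 ^ (2 - p) * L ^ (2 - p)) * 2 ^ (2 - p) * (16 * L) := by gcongr
        _ = _ := by ring
    have h6 : 0 ≤ Real.log (Fintype.card A) + 2 := by linarith
    refine (Real.rpow_le_rpow (by positivity) h4 (by positivity)).trans (le_of_eq ?_)
    rw [Real.mul_rpow (by positivity) (by positivity), ← Real.rpow_mul hL0.le]
    congr 2
    ring

/-- **Hajlasz gradients of norm `C (1 + log n)^θ` with `θ < 1`, for every `p > 1`.** -/
theorem hajlasz_pow {p : ℝ} (hp : 1 < p) : ∃ C th : ℝ, 0 < C ∧ 0 ≤ th ∧ th < 1 ∧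
    ∀ (A : Type u) (W : Type v) [Fintype A] [Nonempty A] [Fintype W] (x : A → W → ℝ),
      ∃ h : A → W → ℝ, (∀ a w, 0 ≤ h a w) ∧
        (∀ a b w, |x a w - x b w| ≤ dd p x a b * (h a w + h b w)) ∧
        ∀ a, nrm p (h a) ≤ C * (1 + Real.log (Fintype.card A)) ^ th := by
  obtain ⟨C, t, hC, ht0, ht1, hker⟩ := local_kernel.{u, v} hp
  have hp0 : 0 < p := by linarith
  set β : ℝ := (1 + t) / 2 with hβ
  set E : ℝ := Real.exp 2 with hE
  have hE0 : 0 < E := Real.exp_pos 2
  set α1 : ℝ := (β * (p - 1) + 1) / p with hα1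
  set α2 : ℝ := 1 + t - β with hα2
  have hβ1 : β < 1 := by rw [hβ]; linarith
  have hβ0 : 0 < β := by rw [hβ]; linarith
  have hα1lt : α1 < 1 := by
    rw [hα1, div_lt_one hp0]; nlinarith
  have hα10 : 0 ≤ α1 := by
    rw [hα1]; exact div_nonneg (by nlinarith) hp0.le
  have hα2lt : α2 < 1 := by rw [hα2, hβ]; linarith
  set th : ℝ := max α1 α2 with hth
  set C1 : ℝ := 2 * (E * (2 * (2 * E) ^ (p - 1)) ^ (1 / p)) with hC1
  set C2 : ℝ := 2 * (8 * E * (2 * C)) with hC2
  refine ⟨C1 + C2, th, by positivity, le_max_of_le_left hα10, max_lt hα1lt hα2lt, ?_⟩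
  intro A W _ _ _ x
  have hln : 0 ≤ Real.log (Fintype.card A) :=
    Real.log_nonneg (by exact_mod_cast Fintype.card_pos)
  set L := 1 + Real.log (Fintype.card A) with hL
  have hL1 : 1 ≤ L := by linarith
  have hL0 : 0 < L := by linarith
  have hLβ : 1 ≤ L ^ β := Real.one_le_rpow hL1 hβ0.le
  obtain ⟨h, h0, h1, h2⟩ := exists_hajlasz_of_kernel hp.le x (C * L ^ t) (2 * E * L ^ β)
    (Real.log (Fintype.card A) + 2) (by nlinarith) (by positivity) le_rfl
    (fun s hs c => hker A W x s hs c)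
  refine ⟨h, h0, h1, fun a => (h2 a).trans ?_⟩
  have hlnL : Real.log (Fintype.card A) ≤ L := by linarith
  -- first part
  have hp1 : 2 * (E * (2 * (2 * E * L ^ β) ^ (p - 1) * Real.log (Fintype.card A)) ^ (1 / p)) ≤
      C1 * L ^ α1 := by
    have h3 : 2 * (2 * E * L ^ β) ^ (p - 1) * Real.log (Fintype.card A) ≤
        (2 * (2 * E) ^ (p - 1)) * L ^ (β * (p - 1) + 1) := by
      rw [Real.mul_rpow (by positivity) (by positivity), ← Real.rpow_mul hL0.le,
        Real.rpow_add_one hL0.ne']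
      calc 2 * ((2 * E) ^ (p - 1) * L ^ (β * (p - 1))) * Real.log (Fintype.card A)
          ≤ 2 * ((2 * E) ^ (p - 1) * L ^ (β * (p - 1))) * L :=
            mul_le_mul_of_nonneg_left hlnL (by positivity)
        _ = _ := by ring
    have h4 := Real.rpow_le_rpow (by positivity) h3 (show 0 ≤ 1 / p by positivity)
    have h5 : ((2 * (2 * E) ^ (p - 1)) * L ^ (β * (p - 1) + 1)) ^ (1 / p) =
        (2 * (2 * E) ^ (p - 1)) ^ (1 / p) * L ^ α1 := by
      rw [Real.mul_rpow (by positivity) (by positivity), ← Real.rpow_mul hL0.le, hα1]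
      congr 2
      ring
    rw [h5] at h4
    calc 2 * (E * (2 * (2 * E * L ^ β) ^ (p - 1) * Real.log (Fintype.card A)) ^ (1 / p))
        ≤ 2 * (E * ((2 * (2 * E) ^ (p - 1)) ^ (1 / p) * L ^ α1)) := by gcongr
      _ = C1 * L ^ α1 := by rw [hC1]; ring
  -- second part
  have hp2 : 2 * (8 * E * ((4 * E * Real.log (Fintype.card A) / (2 * E * L ^ β)) * (C * L ^ t))) ≤
      C2 * L ^ α2 := by
    have h3 : 4 * E * Real.log (Fintype.card A) / (2 * E * L ^ β) ≤ 2 * L ^ (1 - β) := by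
      rw [div_le_iff₀ (by positivity)]
      have h4 : L ^ (1 - β) * L ^ β = L := by
        rw [← Real.rpow_add hL0]; rw [show 1 - β + β = 1 by ring, Real.rpow_one]
      calc 4 * E * Real.log (Fintype.card A) ≤ 4 * E * L := by gcongr
        _ = 4 * E * (L ^ (1 - β) * L ^ β) := by rw [h4]
        _ = _ := by ring
    have h5 : L ^ α2 = L ^ (1 - β) * L ^ t := by
      rw [← Real.rpow_add hL0, hα2]; congr 1; ring
    rw [h5]
    calc 2 * (8 * E * ((4 * E * Real.log (Fintype.card A) / (2 * E * L ^ β)) * (C * L ^ t)))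
        ≤ 2 * (8 * E * ((2 * L ^ (1 - β)) * (C * L ^ t))) := by gcongr
      _ = _ := by rw [hC2]; ring
  have hm1 : L ^ α1 ≤ L ^ th := Real.rpow_le_rpow_of_exponent_le hL1 (le_max_left _ _)
  have hm2 : L ^ α2 ≤ L ^ th := Real.rpow_le_rpow_of_exponent_le hL1 (le_max_right _ _)
  have hC10 : 0 ≤ C1 := by positivity
  have hC20 : 0 ≤ C2 := by positivity
  have h6 := mul_le_mul_of_nonneg_left hm1 hC10
  have h7 := mul_le_mul_of_nonneg_left hm2 hC20
  rw [mul_add]
  calc 2 * (E * (2 * (2 * E * L ^ β) ^ (p - 1) * Real.log (Fintype.card A)) ^ (1 / p)) +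
        2 * (8 * E * ((4 * E * Real.log (Fintype.card A) / (2 * E * L ^ β)) * (C * L ^ t)))
      ≤ C1 * L ^ α1 + C2 * L ^ α2 := add_le_add hp1 hp2
    _ ≤ (C1 + C2) * L ^ th := by linarith

end Vale.Agent.Lib.P249
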