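import Mathlib

/-!
# P249 LOW, part A: the Poincare inequality on the grid `{0, ..., m-1}^r`
-/

namespace Vale.Agent.Lib.P249

open Finset

/-- The average of a function over a finite type. -/
noncomputable def av {Z : Type*} [Fintype Z] (F : Z → ℝ) : ℝ := (∑ z, F z) / Fintype.card Z

/-- The variance of a function over a finite type. -/
noncomputable def vr {Z : Type*} [Fintype Z] (F : Z → ℝ) : ℝ := av (fun z => F z ^ 2) - av F ^ 2

section Basic

variable {Z : Type*} [Fintype Z]

theorem av_add (F G : Z → ℝ) : av (fun z => F z + G z) = av F + av G := by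
  simp [av, Finset.sum_add_distrib, add_div]

theorem av_sub (F G : Z → ℝ) : av (fun z => F z - G z) = av F - av G := by
  simp [av, Finset.sum_sub_distrib, sub_div]

theorem av_smul (c : ℝ) (F : Z → ℝ) : av (fun z => c * F z) = c * av F := by
  simp [av, ← Finset.mul_sum, mul_div_assoc]

theorem av_mono {F G : Z → ℝ} (h : ∀ z, F z ≤ G z) : av F ≤ av G := by
  unfold av
  gcongr
  exact h _

theorem av_nonneg {F : Z → ℝ} (h : ∀ z, 0 ≤ F z) : 0 ≤ av F :=
  div_nonneg (Finset.sum_nonneg fun z _ => h z) (Nat.cast_nonneg _)

theorem av_const [Nonempty Z] (c : ℝ) : av (fun _ : Z => c) = c := by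
  have : (Fintype.card Z : ℝ) ≠ 0 := by exact_mod_cast Fintype.card_ne_zero
  simp only [av, Finset.sum_const, Finset.card_univ, nsmul_eq_mul]
  field_simp

theorem av_sum {I : Type*} (s : Finset I) (F : I → Z → ℝ) :
    av (fun z => ∑ i ∈ s, F i z) = ∑ i ∈ s, av (F i) := by
  unfold av
  rw [Finset.sum_comm, Finset.sum_div]

/-- Jensen for the square -/
theorem av_sq_le [Nonempty Z] (F : Z → ℝ) : av F ^ 2 ≤ av (fun z => F z ^ 2) := by
  have hc : (0:ℝ) < Fintype.card Z := by exact_mod_cast Fintype.card_pos
  unfold av
  rw [div_pow, div_le_div_iff₀ (by positivity) hc]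
  have h := sq_sum_le_card_mul_sum_sq (s := (Finset.univ : Finset Z)) (f := F)
  rw [Finset.card_univ] at h
  calc (∑ z, F z) ^ 2 * (Fintype.card Z : ℝ)
      ≤ (Fintype.card Z * ∑ z, F z ^ 2) * (Fintype.card Z : ℝ) := by gcongr
    _ = (∑ z, F z ^ 2) * (Fintype.card Z : ℝ) ^ 2 := by ring

theorem vr_nonneg [Nonempty Z] (F : Z → ℝ) : 0 ≤ vr F := sub_nonneg.mpr (av_sq_le F)

end Basic

theorem av_comm {Y Z : Type*} [Fintype Y] [Fintype Z] (F : Y → Z → ℝ) :
    av (fun y => av (fun z => F y z)) = av (fun z => av (fun y => F y z)) := by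
  unfold av
  simp only [← Finset.sum_div]
  rw [Finset.sum_comm, div_div, div_div, mul_comm]

theorem av_prod {Y Z : Type*} [Fintype Y] [Fintype Z] (F : Y × Z → ℝ) :
    av F = av (fun y => av (fun z => F (y, z))) := by
  unfold av
  simp only [← Finset.sum_div]
  rw [Fintype.sum_prod_type, div_div, Fintype.card_prod, Nat.cast_mul, mul_comm (Fintype.card Y : ℝ)]

theorem av_equiv {Y Z : Type*} [Fintype Y] [Fintype Z] (e : Y ≃ Z) (F : Z → ℝ) :
    av (fun y => F (e y)) = av F := by
  unfold av
  rw [Equiv.sum_comp e F, Fintype.card_congr e]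

/-- variance decomposition on a product -/
theorem vr_prod_le {Y Z : Type*} [Fintype Y] [Fintype Z] [Nonempty Y] [Nonempty Z]
    (F : Y × Z → ℝ) :
    vr F ≤ av (fun z => vr (fun y => F (y, z))) + av (fun y => vr (fun z => F (y, z))) := by
  -- `g z = av_y F`
  set g : Z → ℝ := fun z => av (fun y => F (y, z)) with hg
  have h1 : vr F = av (fun z => vr (fun y => F (y, z))) + vr g := by
    have e1 : av F = av g := by rw [av_prod, av_comm]
    have e2 : av (fun x => F x ^ 2) = av (fun z => av (fun y => F (y, z) ^ 2)) := by
      rw [av_prod, av_comm]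
    unfold vr
    rw [e1, e2, av_sub]
    ring
  have h2 : vr g ≤ av (fun y => vr (fun z => F (y, z))) := by
    -- convexity
    have e3 : av (fun y => vr (fun z => F (y, z))) - vr g =
        av (fun z => vr (fun y => F (y, z))) - vr (fun y => av (fun z => F (y, z))) := by
      unfold vr
      rw [av_sub, av_sub, av_comm, hg]
      have : av (fun z => av (fun y => F (y, z))) = av (fun y => av (fun z => F (y, z))) :=
        av_comm _
      rw [this]
      ring
    -- it is the average over `z` of the variance of `y ↦ F (y,z) - av_z F (y, z)`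
    have e4 : 0 ≤ av (fun z => vr (fun y => F (y, z) - av (fun z' => F (y, z')))) :=
      av_nonneg fun z => vr_nonneg _
    have e5 : av (fun z => vr (fun y => F (y, z) - av (fun z' => F (y, z')))) =
        av (fun z => vr (fun y => F (y, z))) - vr (fun y => av (fun z => F (y, z))) := by
      obtain ⟨k, hk⟩ : ∃ k : Y → ℝ, ∀ y, av (fun z' => F (y, z')) = k y := ⟨_, fun _ => rfl⟩
      simp only [hk]
      have f1 : ∀ z, vr (fun y => F (y, z) - k y) =
          (av (fun y => F (y, z) ^ 2) - 2 * av (fun y => F (y, z) * k y) + av (fun y => k y ^ 2)) -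
          (av (fun y => F (y, z)) ^ 2 - 2 * av (fun y => F (y, z)) * av k + av k ^ 2) := by
        intro z
        unfold vr
        rw [av_sub]
        have : (fun y => (F (y, z) - k y) ^ 2) =
            fun y => (F (y, z) ^ 2 - 2 * (F (y, z) * k y)) + k y ^ 2 := by
          funext y; ring
        rw [this, av_add, av_sub, av_smul]
        ring
      simp only [f1]
      rw [av_sub, av_add, av_sub, av_add, av_sub, av_smul]
      have g1 : av (fun z => av (fun y => F (y, z) * k y)) = av (fun y => k y ^ 2) := by
        rw [av_comm]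
        congr 1
        funext y
        have : (fun z => F (y, z) * k y) = fun z => k y * F (y, z) := by funext z; ring
        rw [this, av_smul, hk, sq]
      have g2 : av (fun z => 2 * av (fun y => F (y, z)) * av k) = 2 * av k * av k := by
        have : (fun z => 2 * av (fun y => F (y, z)) * av k) =
            fun z => (2 * av k) * av (fun y => F (y, z)) := by funext z; ring
        rw [this, av_smul, av_comm]
        simp only [hk]
      rw [g1, g2, av_const, av_const]
      unfold vr
      rw [av_sub]
      ring
    linarith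
  linarith

/-- the forward difference in a coordinate, squared (zero at the end of the path) -/
noncomputable def fd {m : ℕ} (f : Fin m → ℝ) (a : Fin m) : ℝ :=
  if h : (a : ℕ) + 1 < m then (f ⟨a + 1, h⟩ - f a) ^ 2 else 0

theorem fd_nonneg {m : ℕ} (f : Fin m → ℝ) (a : Fin m) : 0 ≤ fd f a := by
  unfold fd; split_ifs <;> positivity

/-- one dimensional Poincare inequality on a path -/
theorem path_poincare {m : ℕ} (hm : 0 < m) (f : Fin m → ℝ) :
    vr f ≤ (m:ℝ) ^ 2 / 2 * av (fd f) := by
  have : Nonempty (Fin m) := ⟨⟨0, hm⟩⟩
  have hm' : (0:ℝ) < m := by exact_mod_cast hm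
  -- `(f a - f b)^2 ≤ m * ∑ fd`
  have key : ∀ n : ℕ, ∀ a b : Fin m, (b : ℕ) = a + n → |f b - f a| ≤
      ∑ k ∈ (Finset.univ : Finset (Fin m)).filter (fun k : Fin m => (a : ℕ) ≤ k ∧ (k : ℕ) < a + n),
        Real.sqrt (fd f k) := by
    intro n
    induction n with
    | zero =>
      intro a b hab
      have : a = b := by ext; omega
      subst this
      simp only [sub_self, abs_zero]
      exact Finset.sum_nonneg fun _ _ => Real.sqrt_nonneg _
    | succ n ih =>
      intro a b hab
      have hb : (b : ℕ) < m := b.2
      have hlt : (a : ℕ) + n < m := by omega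
      set c : Fin m := ⟨a + n, hlt⟩ with hc
      have h1 := ih a c rfl
      have h2 : |f b - f c| ≤ Real.sqrt (fd f c) := by
        have hcb : (c : ℕ) + 1 < m := by simp [hc]; omega
        have : fd f c = (f b - f c) ^ 2 := by
          unfold fd
          rw [dif_pos hcb]
          congr 2
          congr 1
          ext
          simp [hc]
          omega
        rw [this, Real.sqrt_sq_eq_abs]
      have h3 : ((Finset.univ : Finset (Fin m)).filter
          (fun k : Fin m => (a : ℕ) ≤ k ∧ (k : ℕ) < a + (n + 1))) =
          insert c ((Finset.univ : Finset (Fin m)).filter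
            (fun k : Fin m => (a : ℕ) ≤ k ∧ (k : ℕ) < a + n)) := by
        ext k
        simp only [Finset.mem_filter, Finset.mem_univ, true_and, Finset.mem_insert, Fin.ext_iff, hc]
        omega
      rw [h3, Finset.sum_insert (by simp [hc])]
      calc |f b - f a| = |(f b - f c) + (f c - f a)| := by congr 1; ring
        _ ≤ |f b - f c| + |f c - f a| := abs_add_le _ _
        _ ≤ _ := add_le_add h2 h1
  have key2 : ∀ a b : Fin m, (f a - f b) ^ 2 ≤ m * ∑ k, fd f k := by
    have aux : ∀ a b : Fin m, (a : ℕ) ≤ b → (f a - f b) ^ 2 ≤ m * ∑ k, fd f k := by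
      intro a b hab
      obtain ⟨n, hn⟩ := Nat.exists_eq_add_of_le hab
      have h1 := key n a b hn
      have h2 : |f b - f a| ≤ ∑ k, Real.sqrt (fd f k) :=
        h1.trans (Finset.sum_le_sum_of_subset_of_nonneg (Finset.filter_subset _ _)
          fun _ _ _ => Real.sqrt_nonneg _)
      have h3 : (∑ k, Real.sqrt (fd f k)) ^ 2 ≤ m * ∑ k, fd f k := by
        have := sq_sum_le_card_mul_sum_sq (s := (Finset.univ : Finset (Fin m)))
          (f := fun k => Real.sqrt (fd f k))
        simp only [Finset.card_univ, Fintype.card_fin] at this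
        refine this.trans (le_of_eq ?_)
        congr 1
        apply Finset.sum_congr rfl
        intro k _
        exact Real.sq_sqrt (fd_nonneg f k)
      calc (f a - f b) ^ 2 = |f b - f a| ^ 2 := by rw [sq_abs]; ring
        _ ≤ (∑ k, Real.sqrt (fd f k)) ^ 2 := by
            apply pow_le_pow_left₀ (abs_nonneg _) h2
        _ ≤ _ := h3
    intro a b
    rcases le_total (a : ℕ) b with h | h
    · exact aux a b h
    · have := aux b a h
      calc (f a - f b) ^ 2 = (f b - f a) ^ 2 := by ring
        _ ≤ _ := this
  -- variance as average over pairs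
  have hvar : vr f = av (fun a => av (fun b => (f a - f b) ^ 2)) / 2 := by
    have : (fun a => av (fun b => (f a - f b) ^ 2)) =
        fun a => (f a ^ 2 - 2 * av f * f a) + av (fun b => f b ^ 2) := by
      funext a
      have : (fun b => (f a - f b) ^ 2) = fun b => ((f a ^ 2) - (2 * f a) * f b) + f b ^ 2 := by
        funext b; ring
      rw [this, av_add, av_sub, av_const, av_smul]
      ring
    rw [this, av_add, av_sub, av_smul, av_const]
    unfold vr
    ring
  have h4 : av (fun a => av (fun b => (f a - f b) ^ 2)) ≤ m * ∑ k, fd f k := by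
    calc av (fun a => av (fun b => (f a - f b) ^ 2))
        ≤ av (fun _ : Fin m => av (fun _ : Fin m => (m:ℝ) * ∑ k, fd f k)) :=
          av_mono fun a => av_mono fun b => key2 a b
      _ = _ := by rw [av_const, av_const]
  have h5 : av (fd f) = (∑ k, fd f k) / m := by simp [av]
  rw [hvar, h5]
  have : (m:ℝ) ^ 2 / 2 * ((∑ k, fd f k) / m) = (m * ∑ k, fd f k) / 2 := by
    field_simp
  rw [this]
  linarith

/-- the squared forward difference in direction `i` at a point of the grid -/
noncomputable def gd {r m : ℕ} (F : (Fin r → Fin m) → ℝ) (i : Fin r) (x : Fin r → Fin m) : ℝ :=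
  fd (fun a => F (Function.update x i a)) (x i)

/-- **Poincare inequality on the grid.** -/
theorem grid_poincare {m : ℕ} (hm : 0 < m) : ∀ (r : ℕ) (F : (Fin r → Fin m) → ℝ),
    vr F ≤ (m:ℝ) ^ 2 / 2 * ∑ i, av (gd F i) := by
  have hne : Nonempty (Fin m) := ⟨⟨0, hm⟩⟩
  intro r
  induction r with
  | zero =>
    intro F
    simp only [Finset.univ_eq_empty, Finset.sum_empty, mul_zero]
    unfold vr av
    simp
  | succ r ih =>
    intro F
    let e := Fin.consEquiv (fun _ : Fin (r + 1) => Fin m)
    have he : ∀ (a : Fin m) (y : Fin r → Fin m), e (a, y) = Fin.cons a y := fun a y => rfl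
    have h1 : vr F = vr (fun x => F (e x)) := by
      unfold vr
      rw [av_equiv e F, av_equiv e (fun x => F x ^ 2)]
    have h2 := vr_prod_le (fun x => F (e x))
    have h3 : av (fun y => vr (fun a => F (e (a, y)))) ≤ (m:ℝ) ^ 2 / 2 * av (gd F 0) := by
      have : av (gd F 0) = av (fun y => av (fun a => fd (fun a' => F (e (a', y))) a)) := by
        rw [← av_equiv e (gd F 0), av_prod, av_comm]
        congr 1
        funext y
        congr 1
        funext a
        unfold gd
        simp only [he]
        congr 1
        funext a'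
        rw [Fin.update_cons_zero]
      rw [this, ← av_smul]
      exact av_mono fun y => path_poincare hm _
    have h4 : av (fun a => vr (fun y => F (e (a, y)))) ≤
        (m:ℝ) ^ 2 / 2 * ∑ i : Fin r, av (gd F i.succ) := by
      have h5 : ∀ i : Fin r, av (gd F i.succ) =
          av (fun a => av (gd (fun y => F (e (a, y))) i)) := by
        intro i
        rw [← av_equiv e (gd F i.succ), av_prod]
        congr 1
        funext a
        congr 1
        funext y
        unfold gd
        simp only [he]
        congr 1
        funext a'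
        rw [Fin.cons_update]
      simp only [h5]
      rw [← av_sum, ← av_smul]
      exact av_mono fun a => ih _
    rw [Fin.sum_univ_succ, mul_add, h1]
    linarith

end Vale.Agent.Lib.P249
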