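import Vale.Agent.Lib.P249.LowA

/-!
# P249 LOW, part B: exponential moments under a one-sided gradient bound
-/

namespace Vale.Agent.Lib.P249

open Finset

theorem exp_sub_sq_le (u v : ℝ) :
    (Real.exp u - Real.exp v) ^ 2 ≤ (u - v) ^ 2 * Real.exp (2 * max u v) := by
  have aux : ∀ u v : ℝ, v ≤ u → (Real.exp u - Real.exp v) ^ 2 ≤ (u - v) ^ 2 * Real.exp (2 * u) := by
    intro u v h
    have h1 : Real.exp u - Real.exp v ≤ (u - v) * Real.exp u := by
      have h2 : 1 - (u - v) ≤ Real.exp (-(u - v)) := by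
        have := Real.add_one_le_exp (-(u - v)); linarith
      have h3 : Real.exp v = Real.exp u * Real.exp (-(u - v)) := by
        rw [← Real.exp_add]; congr 1; ring
      have h4 := Real.exp_pos u
      rw [h3]
      nlinarith
    have h5 : 0 ≤ Real.exp u - Real.exp v := by
      have := Real.exp_le_exp.mpr h; linarith
    calc (Real.exp u - Real.exp v) ^ 2 ≤ ((u - v) * Real.exp u) ^ 2 :=
          pow_le_pow_left₀ h5 h1 2
      _ = (u - v) ^ 2 * Real.exp (2 * u) := by
          rw [mul_pow, ← Real.exp_nat_mul]; norm_num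
  rcases le_total v u with h | h
  · rw [max_eq_left h]; exact aux u v h
  · rw [max_eq_right h]
    calc (Real.exp u - Real.exp v) ^ 2 = (Real.exp v - Real.exp u) ^ 2 := by ring
      _ ≤ (v - u) ^ 2 * Real.exp (2 * v) := aux v u h
      _ = _ := by ring

/-- one-sided squared differences to the two neighbours on a path -/
noncomputable def ou1 {m : ℕ} (f : Fin m → ℝ) (a : Fin m) : ℝ :=
  ∑ b : Fin m, ((if (b : ℕ) = a + 1 then (max (f b - f a) 0) ^ 2 else 0) +
    (if (a : ℕ) = b + 1 then (max (f b - f a) 0) ^ 2 else 0))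

theorem fd_eq_sum {m : ℕ} (f : Fin m → ℝ) (a : Fin m) :
    fd f a = ∑ b : Fin m, (if (b : ℕ) = a + 1 then (f b - f a) ^ 2 else 0) := by
  unfold fd
  split_ifs with h
  · rw [Finset.sum_eq_single (⟨a + 1, h⟩ : Fin m)]
    · simp
    · intro b _ hb
      rw [if_neg]
      intro h'
      apply hb
      ext
      exact h'
    · simp
  · symm
    apply Finset.sum_eq_zero
    intro b _
    rw [if_neg]
    have := b.2
    omega

theorem path_exp {m : ℕ} (f : Fin m → ℝ) (t η : ℝ)
    (hη : ∀ a b : Fin m, (b : ℕ) = a + 1 → |f b - f a| ≤ η) :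
    ∑ a, fd (fun b => Real.exp (t * f b)) a ≤
      t ^ 2 * Real.exp (2 * |t| * η) * ∑ a, ou1 f a * Real.exp (2 * (t * f a)) := by
  set C := t ^ 2 * Real.exp (2 * |t| * η) with hC
  have hC0 : 0 ≤ C := by positivity
  have edge : ∀ a b : Fin m, (if (b : ℕ) = a + 1 then
      (Real.exp (t * f b) - Real.exp (t * f a)) ^ 2 else 0) ≤
      C * ((if (b : ℕ) = a + 1 then (max (f b - f a) 0) ^ 2 else 0) * Real.exp (2 * (t * f a))) +
      C * ((if (b : ℕ) = a + 1 then (max (f a - f b) 0) ^ 2 else 0) * Real.exp (2 * (t * f b))) := by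
    intro a b
    split_ifs with h
    · have h1 := exp_sub_sq_le (t * f b) (t * f a)
      have h2 := hη a b h
      have h3 : |t * f b - t * f a| ≤ |t| * η := by
        rw [← mul_sub, abs_mul]
        exact mul_le_mul_of_nonneg_left h2 (abs_nonneg t)
      rw [abs_le] at h3
      have h4 : Real.exp (2 * max (t * f b) (t * f a)) ≤
          Real.exp (2 * |t| * η) * Real.exp (2 * (t * f a)) := by
        rw [← Real.exp_add]
        apply Real.exp_le_exp.mpr
        have : max (t * f b) (t * f a) ≤ t * f a + |t| * η := max_le (by linarith) (by linarith)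
        linarith
      have h5 : Real.exp (2 * max (t * f b) (t * f a)) ≤
          Real.exp (2 * |t| * η) * Real.exp (2 * (t * f b)) := by
        rw [← Real.exp_add]
        apply Real.exp_le_exp.mpr
        have : max (t * f b) (t * f a) ≤ t * f b + |t| * η := max_le (by linarith) (by linarith)
        linarith
      rcases le_total (f a) (f b) with h6 | h6
      · rw [max_eq_left (by linarith : (0:ℝ) ≤ f b - f a), max_eq_right (by linarith : f a - f b ≤ 0)]
        calc (Real.exp (t * f b) - Real.exp (t * f a)) ^ 2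
            ≤ (t * f b - t * f a) ^ 2 * Real.exp (2 * max (t * f b) (t * f a)) := h1
          _ ≤ (t * f b - t * f a) ^ 2 * (Real.exp (2 * |t| * η) * Real.exp (2 * (t * f a))) := by
              gcongr
          _ = _ := by rw [hC]; ring
      · rw [max_eq_right (by linarith : f b - f a ≤ 0), max_eq_left (by linarith : (0:ℝ) ≤ f a - f b)]
        calc (Real.exp (t * f b) - Real.exp (t * f a)) ^ 2
            ≤ (t * f b - t * f a) ^ 2 * Real.exp (2 * max (t * f b) (t * f a)) := h1
          _ ≤ (t * f b - t * f a) ^ 2 * (Real.exp (2 * |t| * η) * Real.exp (2 * (t * f b))) := by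
              gcongr
          _ = _ := by rw [hC]; ring
    · simp
  calc ∑ a, fd (fun b => Real.exp (t * f b)) a
      = ∑ a : Fin m, ∑ b : Fin m, (if (b : ℕ) = a + 1 then
          (Real.exp (t * f b) - Real.exp (t * f a)) ^ 2 else 0) := by
        apply Finset.sum_congr rfl; intro a _; exact fd_eq_sum _ a
    _ ≤ ∑ a : Fin m, ∑ b : Fin m, (C * ((if (b : ℕ) = a + 1 then (max (f b - f a) 0) ^ 2 else 0) *
          Real.exp (2 * (t * f a))) +
        C * ((if (b : ℕ) = a + 1 then (max (f a - f b) 0) ^ 2 else 0) *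
          Real.exp (2 * (t * f b)))) :=
        Finset.sum_le_sum fun a _ => Finset.sum_le_sum fun b _ => edge a b
    _ = C * ∑ a, ou1 f a * Real.exp (2 * (t * f a)) := by
        simp only [Finset.sum_add_distrib, ou1, Finset.sum_mul, add_mul, Finset.mul_sum, mul_add]
        congr 1
        exact Finset.sum_comm

/-- one-sided squared differences in direction `i` on the grid -/
noncomputable def og {r m : ℕ} (F : (Fin r → Fin m) → ℝ) (i : Fin r) (x : Fin r → Fin m) : ℝ :=
  ou1 (fun a => F (Function.update x i a)) (x i)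

theorem grid_exp {r m : ℕ} (F : (Fin r → Fin m) → ℝ) (t η : ℝ) (i : Fin r)
    (hη : ∀ (x : Fin r → Fin m) (a b : Fin m), (b : ℕ) = a + 1 →
      |F (Function.update x i b) - F (Function.update x i a)| ≤ η) :
    av (gd (fun x => Real.exp (t * F x)) i) ≤
      t ^ 2 * Real.exp (2 * |t| * η) * av (fun x => og F i x * Real.exp (2 * (t * F x))) := by
  classical
  let e := (Equiv.funSplitAt i (Fin m)).symm
  have hu : ∀ (a b : Fin m) (y : {j // j ≠ i} → Fin m),
      Function.update (e (b, y)) i a = e (a, y) := by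
    intro a b y
    funext j
    by_cases hj : j = i
    · subst hj; simp [e, Equiv.funSplitAt, Equiv.piSplitAt]
    · simp [e, Equiv.funSplitAt, Equiv.piSplitAt, hj]
  have hi : ∀ (b : Fin m) (y : {j // j ≠ i} → Fin m), e (b, y) i = b := by
    intro b y; simp [e, Equiv.funSplitAt, Equiv.piSplitAt]
  have h1 : av (gd (fun x => Real.exp (t * F x)) i) =
      av (fun y => av (fd (fun a => Real.exp (t * F (e (a, y)))))) := by
    rw [← av_equiv e (gd (fun x => Real.exp (t * F x)) i), av_prod, av_comm]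
    congr 1
    funext y
    congr 1
    funext b
    simp only [gd, hu, hi]
  have h2 : av (fun x => og F i x * Real.exp (2 * (t * F x))) =
      av (fun y => av (fun b => ou1 (fun a => F (e (a, y))) b * Real.exp (2 * (t * F (e (b, y)))))) := by
    rw [← av_equiv e (fun x => og F i x * Real.exp (2 * (t * F x))), av_prod, av_comm]
    congr 1
    funext y
    congr 1
    funext b
    simp only [og, hu, hi]
  rw [h1, h2, ← av_smul]
  apply av_mono
  intro y
  unfold av
  rw [← mul_div_assoc]
  gcongr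
  apply path_exp
  intro a b hab
  have := hη (e (a, y)) a b hab
  rwa [hu, hu] at this

/-- `av exp(λF)` satisfies a doubling inequality. -/
theorem exp_double {r m : ℕ} (hm : 0 < m) (F : (Fin r → Fin m) → ℝ)
    (hF : ∀ x, ∑ i, og F i x ≤ 4 / (m:ℝ) ^ 2)
    (hη : ∀ i (x : Fin r → Fin m) (a b : Fin m), (b : ℕ) = a + 1 →
      |F (Function.update x i b) - F (Function.update x i a)| ≤ 2) {l : ℝ} (hl : |l| ≤ 1 / 4) :
    av (fun x => Real.exp (l * F x)) ≤
      Real.exp (2 * l ^ 2) * av (fun x => Real.exp (l / 2 * F x)) ^ 2 := by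
  have hne : Nonempty (Fin m) := ⟨⟨0, hm⟩⟩
  have hm' : (0:ℝ) < m := by exact_mod_cast hm
  set A := av (fun x => Real.exp (l * F x)) with hA
  set B := av (fun x => Real.exp (l / 2 * F x)) with hB
  have hA0 : 0 ≤ A := av_nonneg fun x => (Real.exp_pos _).le
  have h1 := grid_poincare hm r (fun x => Real.exp (l / 2 * F x))
  have h2 : vr (fun x => Real.exp (l / 2 * F x)) = A - B ^ 2 := by
    unfold vr
    congr 1
    rw [hA]
    congr 1
    funext x
    rw [← Real.exp_nat_mul]
    congr 1
    push_cast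
    ring
  have h3 : ∑ i, av (gd (fun x => Real.exp (l / 2 * F x)) i) ≤
      (l / 2) ^ 2 * Real.exp (2 * |l / 2| * 2) * (4 / (m:ℝ) ^ 2 * A) := by
    calc ∑ i, av (gd (fun x => Real.exp (l / 2 * F x)) i)
        ≤ ∑ i, (l / 2) ^ 2 * Real.exp (2 * |l / 2| * 2) *
          av (fun x => og F i x * Real.exp (2 * (l / 2 * F x))) :=
          Finset.sum_le_sum fun i _ => grid_exp F (l / 2) 2 i (hη i)
      _ = (l / 2) ^ 2 * Real.exp (2 * |l / 2| * 2) *
          av (fun x => ∑ i, og F i x * Real.exp (2 * (l / 2 * F x))) := by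
          rw [← Finset.mul_sum, ← av_sum]
      _ ≤ (l / 2) ^ 2 * Real.exp (2 * |l / 2| * 2) *
          av (fun x => 4 / (m:ℝ) ^ 2 * Real.exp (l * F x)) := by
          apply mul_le_mul_of_nonneg_left _ (by positivity)
          apply av_mono
          intro x
          rw [← Finset.sum_mul]
          have : Real.exp (2 * (l / 2 * F x)) = Real.exp (l * F x) := by congr 1; ring
          rw [this]
          exact mul_le_mul_of_nonneg_right (hF x) (Real.exp_pos _).le
      _ = _ := by rw [av_smul]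
  have h4 : A - B ^ 2 ≤ l ^ 2 * A := by
    rw [← h2]
    refine h1.trans ?_
    have h5 : Real.exp (2 * |l / 2| * 2) ≤ 2 := by
      have h6 : 2 * |l / 2| * 2 ≤ 1 / 2 := by
        rw [abs_div]; norm_num; linarith
      calc Real.exp (2 * |l / 2| * 2) ≤ Real.exp (1 / 2) := Real.exp_le_exp.mpr h6
        _ ≤ 2 := by
          have h7 : Real.exp (1 / 2) ^ 2 = Real.exp 1 := by
            rw [← Real.exp_nat_mul]; norm_num
          have h8 := Real.exp_one_lt_d9
          have h9 := Real.exp_pos (1 / 2)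
          nlinarith
    calc (m:ℝ) ^ 2 / 2 * ∑ i, av (gd (fun x => Real.exp (l / 2 * F x)) i)
        ≤ (m:ℝ) ^ 2 / 2 * ((l / 2) ^ 2 * Real.exp (2 * |l / 2| * 2) * (4 / (m:ℝ) ^ 2 * A)) := by
          gcongr
      _ ≤ (m:ℝ) ^ 2 / 2 * ((l / 2) ^ 2 * 2 * (4 / (m:ℝ) ^ 2 * A)) := by
          gcongr
      _ = l ^ 2 * A := by field_simp; ring
  have hl2 : l ^ 2 ≤ 1 / 16 := by
    have := abs_le.mp hl
    nlinarith
  have h10 : A * (1 - l ^ 2) ≤ B ^ 2 := by linarith
  have h11 : 1 ≤ Real.exp (2 * l ^ 2) * (1 - l ^ 2) := by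
    have h12 : 1 + 2 * l ^ 2 ≤ Real.exp (2 * l ^ 2) := by
      have := Real.add_one_le_exp (2 * l ^ 2); linarith
    have h13 : 0 ≤ 1 - l ^ 2 := by linarith
    have : 1 ≤ (1 + 2 * l ^ 2) * (1 - l ^ 2) := by nlinarith [sq_nonneg l]
    exact this.trans (mul_le_mul_of_nonneg_right h12 h13)
  calc A = A * 1 := by ring
    _ ≤ A * (Real.exp (2 * l ^ 2) * (1 - l ^ 2)) := by gcongr
    _ = Real.exp (2 * l ^ 2) * (A * (1 - l ^ 2)) := by ring
    _ ≤ _ := by gcongr

theorem exp_iter {r m : ℕ} (hm : 0 < m) (F : (Fin r → Fin m) → ℝ)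
    (hF : ∀ x, ∑ i, og F i x ≤ 4 / (m:ℝ) ^ 2)
    (hη : ∀ i (x : Fin r → Fin m) (a b : Fin m), (b : ℕ) = a + 1 →
      |F (Function.update x i b) - F (Function.update x i a)| ≤ 2) (K : ℕ) :
    ∀ l : ℝ, |l| ≤ 1 / 4 → av (fun x => Real.exp (l * F x)) ≤
      Real.exp (4 * l ^ 2) * av (fun x => Real.exp (l / 2 ^ K * F x)) ^ (2 ^ K) := by
  induction K with
  | zero =>
    intro l _
    simp only [pow_zero, div_one, pow_one]
    have h1 : 1 ≤ Real.exp (4 * l ^ 2) := Real.one_le_exp (by positivity)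
    have h2 : 0 ≤ av (fun x => Real.exp (l * F x)) := av_nonneg fun x => (Real.exp_pos _).le
    nlinarith
  | succ K ih =>
    intro l hl
    have h1 := exp_double hm F hF hη hl
    have hl2 : |l / 2| ≤ 1 / 4 := by
      rw [abs_div]
      have := abs_nonneg l
      norm_num
      linarith
    have h2 := ih (l / 2) hl2
    have h3 : 0 ≤ av (fun x => Real.exp (l / 2 * F x)) := av_nonneg fun x => (Real.exp_pos _).le
    have h4 : l / 2 / 2 ^ K = l / 2 ^ (K + 1) := by rw [pow_succ]; field_simp
    rw [h4] at h2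
    set E := av (fun x => Real.exp (l / 2 ^ (K + 1) * F x)) with hE
    calc av (fun x => Real.exp (l * F x))
        ≤ Real.exp (2 * l ^ 2) * av (fun x => Real.exp (l / 2 * F x)) ^ 2 := h1
      _ ≤ Real.exp (2 * l ^ 2) * (Real.exp (4 * (l / 2) ^ 2) * E ^ (2 ^ K)) ^ 2 := by gcongr
      _ = (Real.exp (2 * l ^ 2) * Real.exp (4 * (l / 2) ^ 2) ^ 2) * E ^ (2 ^ (K + 1)) := by
          rw [mul_pow, ← pow_mul, ← pow_succ]; ring
      _ = Real.exp (4 * l ^ 2) * E ^ (2 ^ (K + 1)) := by
          congr 1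
          rw [← Real.exp_nat_mul, ← Real.exp_add]
          congr 1
          push_cast
          ring

/-- **Exponential moments** of centred functions with a one-sided gradient bound. -/
theorem exp_moment {r m : ℕ} (hm : 0 < m) (F : (Fin r → Fin m) → ℝ)
    (hF : ∀ x, ∑ i, og F i x ≤ 4 / (m:ℝ) ^ 2)
    (hη : ∀ i (x : Fin r → Fin m) (a b : Fin m), (b : ℕ) = a + 1 →
      |F (Function.update x i b) - F (Function.update x i a)| ≤ 2) (h0 : av F = 0)
    {l : ℝ} (hl : |l| ≤ 1 / 4) :
    av (fun x => Real.exp (l * F x)) ≤ Real.exp 2 := by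
  have hne : Nonempty (Fin m) := ⟨⟨0, hm⟩⟩
  -- a bound for `|F|`
  set R : ℝ := ∑ x, |F x| with hR
  have hFR : ∀ x, |F x| ≤ R := fun x =>
    Finset.single_le_sum (f := fun x => |F x|) (fun y _ => abs_nonneg (F y)) (Finset.mem_univ x)
  have hR0 : 0 ≤ R := Finset.sum_nonneg fun x _ => abs_nonneg _
  obtain ⟨K, hK⟩ : ∃ K : ℕ, R ^ 2 + R + 1 ≤ 2 ^ K := by
    obtain ⟨K, hK⟩ := pow_unbounded_of_one_lt (R ^ 2 + R + 1) (by norm_num : (1:ℝ) < 2)
    exact ⟨K, hK.le⟩
  set N : ℝ := 2 ^ K with hN
  have hN0 : 0 < N := by positivity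
  have h1 := exp_iter hm F hF hη K l hl
  have hl' := abs_le.mp hl
  have hl2 : l ^ 2 ≤ 1 / 16 := by nlinarith
  have h2 : av (fun x => Real.exp (l / N * F x)) ≤ 1 + 1 / N := by
    have h3 : ∀ x, Real.exp (l / N * F x) ≤ 1 + l / N * F x + 1 / N := by
      intro x
      have h4 : |l / N * F x| ≤ 1 := by
        rw [abs_mul, abs_div, abs_of_pos hN0, div_mul_eq_mul_div, div_le_one hN0]
        calc |l| * |F x| ≤ 1 * R := mul_le_mul (by linarith) (hFR x) (abs_nonneg _) (by norm_num)
          _ ≤ N := by nlinarith [sq_nonneg R]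
      have h5 := Real.abs_exp_sub_one_sub_id_le h4
      have h6 : (l / N * F x) ^ 2 ≤ 1 / N := by
        have h7 : (F x) ^ 2 ≤ R ^ 2 := by
          rw [← sq_abs (F x)]
          exact pow_le_pow_left₀ (abs_nonneg _) (hFR x) 2
        have h8 : l ^ 2 * (F x) ^ 2 ≤ N := by
          calc l ^ 2 * (F x) ^ 2 ≤ 1 * R ^ 2 :=
                mul_le_mul (by linarith) h7 (sq_nonneg _) (by norm_num)
            _ ≤ N := by linarith
        rw [mul_pow, div_pow, div_mul_eq_mul_div, div_le_div_iff₀ (by positivity) hN0]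
        nlinarith
      have h9 := (abs_le.mp h5).2
      linarith
    calc av (fun x => Real.exp (l / N * F x)) ≤ av (fun x => 1 + l / N * F x + 1 / N) :=
          av_mono h3
      _ = 1 + 1 / N := by
          rw [av_add, av_add, av_const, av_const, av_smul, h0]; ring
  have h0' : 0 ≤ av (fun x => Real.exp (l / N * F x)) := av_nonneg fun x => (Real.exp_pos _).le
  have h3 : av (fun x => Real.exp (l / N * F x)) ^ (2 ^ K) ≤ Real.exp 1 := by
    calc av (fun x => Real.exp (l / N * F x)) ^ (2 ^ K) ≤ (1 + 1 / N) ^ (2 ^ K) :=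
          pow_le_pow_left₀ h0' h2 _
      _ ≤ (Real.exp (1 / N)) ^ (2 ^ K) := by
          apply pow_le_pow_left₀ (by positivity)
          have := Real.add_one_le_exp (1 / N)
          linarith
      _ = Real.exp 1 := by
          rw [← Real.exp_nat_mul]
          congr 1
          push_cast
          rw [← hN]
          field_simp
  calc av (fun x => Real.exp (l * F x))
      ≤ Real.exp (4 * l ^ 2) * av (fun x => Real.exp (l / N * F x)) ^ (2 ^ K) := h1
    _ ≤ Real.exp 1 * Real.exp 1 := by
        gcongr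
        linarith
    _ = Real.exp 2 := by rw [← Real.exp_add]; norm_num

end Vale.Agent.Lib.P249
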