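import Vale.Agent.Lib.P249.LowB

/-!
# P249 LOW, part C: Lipschitz functions on the grid have bounded moments
-/

namespace Vale.Agent.Lib.P249

open Finset

/-- squared Euclidean distance of integer points -/
noncomputable def SS {r m : ℕ} (x z : Fin r → Fin m) : ℝ := ∑ i, (((x i : ℕ) : ℝ) - (z i : ℕ)) ^ 2

theorem SS_nonneg {r m : ℕ} (x z : Fin r → Fin m) : 0 ≤ SS x z :=
  Finset.sum_nonneg fun _ _ => sq_nonneg _

theorem SS_self {r m : ℕ} (x : Fin r → Fin m) : SS x x = 0 := by simp [SS]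

theorem SS_update {r m : ℕ} (x z : Fin r → Fin m) (i : Fin r) (b : Fin m) :
    SS (Function.update x i b) z = SS x z +
      ((((b : ℕ) : ℝ) - (z i : ℕ)) ^ 2 - (((x i : ℕ) : ℝ) - (z i : ℕ)) ^ 2) := by
  unfold SS
  rw [← Finset.add_sum_erase _ _ (Finset.mem_univ i),
    ← Finset.add_sum_erase (a := i) (f := fun i => (((x i : ℕ) : ℝ) - (z i : ℕ)) ^ 2) _
      (Finset.mem_univ i)]
  have : ∑ j ∈ Finset.univ.erase i, (((Function.update x i b j : Fin m) : ℕ) - ((z j : ℕ) : ℝ)) ^ 2 =
      ∑ j ∈ Finset.univ.erase i, (((x j : ℕ) : ℝ) - (z j : ℕ)) ^ 2 := by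
    apply Finset.sum_congr rfl
    intro j hj
    rw [Function.update_of_ne (Finset.ne_of_mem_erase hj)]
  rw [this]
  simp only [Function.update_self]
  ring

theorem sq_le_SS {r m : ℕ} (x z : Fin r → Fin m) (i : Fin r) :
    (((x i : ℕ) : ℝ) - (z i : ℕ)) ^ 2 ≤ SS x z :=
  Finset.single_le_sum (f := fun i => (((x i : ℕ) : ℝ) - (z i : ℕ)) ^ 2)
    (fun _ _ => sq_nonneg _) (Finset.mem_univ i)

/-- the regularized distance -/
noncomputable def rho {r m : ℕ} (x z : Fin r → Fin m) : ℝ := Real.sqrt (1 + SS x z / (m:ℝ) ^ 2)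

/-- the inf-convolution -/
noncomputable def ic {r m : ℕ} [Nonempty (Fin r → Fin m)] (f : (Fin r → Fin m) → ℝ)
    (x : Fin r → Fin m) : ℝ :=
  Finset.univ.inf' Finset.univ_nonempty (fun z => f z + rho x z)

section IC

variable {r m : ℕ} [Nonempty (Fin r → Fin m)]

theorem ic_le (f : (Fin r → Fin m) → ℝ) (x z : Fin r → Fin m) : ic f x ≤ f z + rho x z :=
  Finset.inf'_le (fun z => f z + rho x z) (Finset.mem_univ z)

theorem ic_attained (f : (Fin r → Fin m) → ℝ) (x : Fin r → Fin m) :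
    ∃ z, ic f x = f z + rho x z := by
  obtain ⟨z, _, hz⟩ := Finset.exists_mem_eq_inf' (Finset.univ_nonempty (α := Fin r → Fin m))
    (fun z => f z + rho x z)
  exact ⟨z, hz⟩

theorem ic_le_add_one (f : (Fin r → Fin m) → ℝ) (x : Fin r → Fin m) : ic f x ≤ f x + 1 := by
  have := ic_le f x x
  simpa [rho, SS_self] using this

theorem le_ic (f : (Fin r → Fin m) → ℝ)
    (hf : ∀ x z, |f x - f z| ≤ Real.sqrt (SS x z) / m) (x : Fin r → Fin m) : f x ≤ ic f x := by
  obtain ⟨z, hz⟩ := ic_attained f x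
  rw [hz]
  have h1 := (abs_le.mp (hf x z)).2
  have h2 : Real.sqrt (SS x z) / m ≤ rho x z := by
    have h3 : Real.sqrt (SS x z) / m = Real.sqrt (SS x z / (m:ℝ) ^ 2) := by
      rw [Real.sqrt_div (SS_nonneg x z), Real.sqrt_sq (Nat.cast_nonneg m)]
    rw [h3]
    exact Real.sqrt_le_sqrt (by linarith)
  linarith

theorem rho_pos (x z : Fin r → Fin m) : 0 < rho x z := by
  unfold rho
  have : 0 ≤ SS x z / (m:ℝ) ^ 2 := div_nonneg (SS_nonneg x z) (by positivity)
  exact Real.sqrt_pos.mpr (by linarith)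

theorem rho_sq (x z : Fin r → Fin m) : rho x z ^ 2 = 1 + SS x z / (m:ℝ) ^ 2 := by
  unfold rho
  have : 0 ≤ SS x z / (m:ℝ) ^ 2 := div_nonneg (SS_nonneg x z) (by positivity)
  exact Real.sq_sqrt (by linarith)

/-- concavity of the square root -/
theorem rho_sub_le (x y z : Fin r → Fin m) :
    rho y z - rho x z ≤ (SS y z - SS x z) / (2 * (m:ℝ) ^ 2 * rho x z) := by
  have hx := rho_pos x z
  have h1 := rho_sq x z
  have h2 := rho_sq y z
  rcases Nat.eq_zero_or_pos m with hm | hm
  · subst hm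
    unfold rho
    simp
  · have hm' : (0:ℝ) < (m:ℝ) ^ 2 := by positivity
    rw [le_div_iff₀ (by positivity)]
    have h3 : SS y z - SS x z = (m:ℝ) ^ 2 * (rho y z ^ 2 - rho x z ^ 2) := by
      rw [h1, h2]; field_simp; ring
    rw [h3]
    nlinarith [sq_nonneg (rho y z - rho x z)]

/-- one step increases `ic f` by at most `1` -/
theorem ic_step_le (hm : 0 < m) (f : (Fin r → Fin m) → ℝ) (x : Fin r → Fin m) (i : Fin r)
    (b : Fin m) (hb : (b : ℕ) = x i + 1 ∨ (x i : ℕ) = b + 1) :
    ic f (Function.update x i b) ≤ ic f x + 1 := by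
  obtain ⟨z, hz⟩ := ic_attained f x
  have h1 := ic_le f (Function.update x i b) z
  have h2 : rho (Function.update x i b) z ≤ rho x z + 1 := by
    have hx := rho_pos x z
    have hm1 : (1:ℝ) ≤ m := by exact_mod_cast hm
    apply Real.sqrt_le_iff.mpr
    refine ⟨by linarith, ?_⟩
    have h3 := rho_sq x z
    set u : ℝ := ((x i : ℕ) : ℝ) - (z i : ℕ) with hu
    have h4 : SS (Function.update x i b) z ≤ SS x z + 1 + 2 * |u| := by
      rw [SS_update]
      rcases hb with hb | hb
      · have : ((b : ℕ) : ℝ) = (x i : ℕ) + 1 := by exact_mod_cast hb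
        rw [this]
        have := le_abs_self u
        nlinarith
      · have : ((x i : ℕ) : ℝ) = (b : ℕ) + 1 := by exact_mod_cast hb
        have h5 : ((b : ℕ) : ℝ) - (z i : ℕ) = u - 1 := by rw [hu, this]; ring
        rw [h5]
        have := neg_abs_le u
        nlinarith
    have h5 : u ^ 2 ≤ SS x z := sq_le_SS x z i
    have h6 : |u| / m ≤ rho x z := by
      rw [← abs_of_pos (rho_pos x z)]
      have h7 : |(|u| / m)| ≤ |rho x z| := by
        apply sq_le_sq.mp
        rw [h3, div_pow, sq_abs]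
        have : u ^ 2 / (m:ℝ) ^ 2 ≤ SS x z / (m:ℝ) ^ 2 := by gcongr
        linarith
      exact (le_abs_self _).trans h7
    have h7 : (1 + 2 * |u|) / (m:ℝ) ^ 2 ≤ 1 + 2 * rho x z := by
      have h8 : (1:ℝ) / (m:ℝ) ^ 2 ≤ 1 := by
        rw [div_le_one (by positivity)]; nlinarith
      have h9 : 2 * |u| / (m:ℝ) ^ 2 ≤ 2 * (|u| / m) := by
        rw [show 2 * |u| / (m:ℝ) ^ 2 = 2 * (|u| / m) * (1 / m) by field_simp]
        have : (1:ℝ) / m ≤ 1 := by rw [div_le_one (by positivity)]; exact hm1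
        have h10 : 0 ≤ 2 * (|u| / m) := by positivity
        nlinarith
      calc (1 + 2 * |u|) / (m:ℝ) ^ 2 = 1 / (m:ℝ) ^ 2 + 2 * |u| / (m:ℝ) ^ 2 := by ring
        _ ≤ 1 + 2 * (|u| / m) := by linarith
        _ ≤ _ := by linarith
    calc 1 + SS (Function.update x i b) z / (m:ℝ) ^ 2
        ≤ 1 + (SS x z + 1 + 2 * |u|) / (m:ℝ) ^ 2 := by gcongr
      _ = (1 + SS x z / (m:ℝ) ^ 2) + (1 + 2 * |u|) / (m:ℝ) ^ 2 := by ring
      _ ≤ rho x z ^ 2 + (1 + 2 * rho x z) := by rw [← h3]; linarith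
      _ = (rho x z + 1) ^ 2 := by ring
  linarith

theorem sum_ite_val_le {m : ℕ} (c : ℕ → Prop) [DecidablePred c] (g : Fin m → ℝ) (G : ℝ)
    (hG : 0 ≤ G) (huniq : ∀ a b : ℕ, c a → c b → a = b) (h : ∀ b : Fin m, c b → g b ≤ G) :
    ∑ b : Fin m, (if c (b : ℕ) then g b else 0) ≤ G := by
  by_cases hex : ∃ b : Fin m, c b
  · obtain ⟨b, hb⟩ := hex
    rw [Finset.sum_eq_single b]
    · rw [if_pos hb]; exact h b hb
    · intro a _ ha
      rw [if_neg]
      intro hc
      apply ha
      ext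
      exact huniq _ _ hc hb
    · simp
  · have : ∑ b : Fin m, (if c (b : ℕ) then g b else 0) = 0 := by
      apply Finset.sum_eq_zero
      intro b _
      rw [if_neg]
      intro hc
      exact hex ⟨b, hc⟩
    rw [this]; exact hG

/-- the one-sided gradient bound for the inf-convolution -/
theorem ic_og (hm : 0 < m) (hr : r ≤ m ^ 2) (f : (Fin r → Fin m) → ℝ) (x : Fin r → Fin m) :
    ∑ i, og (ic f) i x ≤ 4 / (m:ℝ) ^ 2 := by
  obtain ⟨z, hz⟩ := ic_attained f x
  have hx := rho_pos x z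
  have hm' : (0:ℝ) < m := by exact_mod_cast hm
  set Q : ℝ := (2 * (m:ℝ) ^ 2 * rho x z) ^ 2 with hQ
  have hQ0 : 0 < Q := by positivity
  have step : ∀ (i : Fin r) (b : Fin m) (w : ℝ),
      SS (Function.update x i b) z - SS x z = w →
      (max (ic f (Function.update x i b) - ic f x) 0) ^ 2 ≤ (max w 0) ^ 2 / Q := by
    intro i b w hw
    have h1 := ic_le f (Function.update x i b) z
    have h2 := rho_sub_le x (Function.update x i b) z
    rw [hw] at h2
    have h3 : max (ic f (Function.update x i b) - ic f x) 0 ≤ max w 0 / (2 * (m:ℝ) ^ 2 * rho x z) := by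
      apply max_le
      · calc ic f (Function.update x i b) - ic f x ≤ rho (Function.update x i b) z - rho x z := by
              rw [hz]; linarith
          _ ≤ w / (2 * (m:ℝ) ^ 2 * rho x z) := h2
          _ ≤ _ := by gcongr; exact le_max_left _ _
      · positivity
    rw [hQ, ← div_pow]
    exact pow_le_pow_left₀ (le_max_right _ _) h3 2
  have key : ∀ i, og (ic f) i x ≤ (2 + 8 * (((x i : ℕ) : ℝ) - (z i : ℕ)) ^ 2) / Q := by
    intro i
    set u : ℝ := ((x i : ℕ) : ℝ) - (z i : ℕ) with hu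
    unfold og ou1
    rw [Finset.sum_add_distrib]
    simp only [Function.update_eq_self]
    have h1 : ∑ b : Fin m, (if (b : ℕ) = (x i : ℕ) + 1 then
        (max (ic f (Function.update x i b) - ic f x) 0) ^ 2 else 0) ≤ (max (1 + 2 * u) 0) ^ 2 / Q := by
      apply sum_ite_val_le (fun k => k = (x i : ℕ) + 1)
      · positivity
      · intro a b ha hb; omega
      · intro b hb
        apply step
        rw [SS_update]
        have : ((b : ℕ) : ℝ) = (x i : ℕ) + 1 := by exact_mod_cast hb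
        rw [this, hu]
        ring
    have h2 : ∑ b : Fin m, (if (x i : ℕ) = (b : ℕ) + 1 then
        (max (ic f (Function.update x i b) - ic f x) 0) ^ 2 else 0) ≤ (max (1 - 2 * u) 0) ^ 2 / Q := by
      apply sum_ite_val_le (fun k => (x i : ℕ) = k + 1)
      · positivity
      · intro a b ha hb; omega
      · intro b hb
        apply step
        rw [SS_update]
        have : ((x i : ℕ) : ℝ) = (b : ℕ) + 1 := by exact_mod_cast hb
        have h5 : ((b : ℕ) : ℝ) - (z i : ℕ) = u - 1 := by rw [hu, this]; ring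
        rw [h5]
        ring
    have h3 : (max (1 + 2 * u) 0) ^ 2 + (max (1 - 2 * u) 0) ^ 2 ≤ 2 + 8 * u ^ 2 := by
      rcases le_total 0 (1 + 2 * u) with ha | ha <;> rcases le_total 0 (1 - 2 * u) with hb | hb
      · rw [max_eq_left ha, max_eq_left hb]; nlinarith
      · rw [max_eq_left ha, max_eq_right hb]; nlinarith [sq_nonneg (2 * u - 1)]
      · rw [max_eq_right ha, max_eq_left hb]; nlinarith [sq_nonneg (2 * u + 1)]
      · rw [max_eq_right ha, max_eq_right hb]; nlinarith
    calc _ ≤ (max (1 + 2 * u) 0) ^ 2 / Q + (max (1 - 2 * u) 0) ^ 2 / Q := add_le_add h1 h2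
      _ = ((max (1 + 2 * u) 0) ^ 2 + (max (1 - 2 * u) 0) ^ 2) / Q := by ring
      _ ≤ _ := by gcongr
  have hsum : ∑ i, og (ic f) i x ≤ (2 * r + 8 * SS x z) / Q := by
    calc ∑ i, og (ic f) i x ≤ ∑ i, (2 + 8 * (((x i : ℕ) : ℝ) - (z i : ℕ)) ^ 2) / Q :=
          Finset.sum_le_sum fun i _ => key i
      _ = (2 * r + 8 * SS x z) / Q := by
          rw [← Finset.sum_div, Finset.sum_add_distrib, ← Finset.mul_sum]
          simp [SS]
          ring
  refine hsum.trans ?_
  have hrm : (r:ℝ) ≤ (m:ℝ) ^ 2 := by exact_mod_cast hr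
  have hS := SS_nonneg x z
  have hQ' : Q = 4 * (m:ℝ) ^ 2 * ((m:ℝ) ^ 2 + SS x z) := by
    rw [hQ, mul_pow, rho_sq]
    field_simp
    ring
  rw [hQ', div_le_div_iff₀ (by positivity) (by positivity)]
  have h5 : 2 * (r:ℝ) + 8 * SS x z ≤ 16 * ((m:ℝ) ^ 2 + SS x z) := by nlinarith
  calc (2 * (r:ℝ) + 8 * SS x z) * (m:ℝ) ^ 2 ≤ 16 * ((m:ℝ) ^ 2 + SS x z) * (m:ℝ) ^ 2 := by gcongr
    _ = _ := by ring

end IC

theorem og_sub_const {r m : ℕ} (F : (Fin r → Fin m) → ℝ) (c : ℝ) (i : Fin r)
    (x : Fin r → Fin m) : og (fun x => F x - c) i x = og F i x := by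
  unfold og ou1
  simp

theorem rpow_le_exp {p : ℝ} (hp : 1 ≤ p) (s : ℝ) :
    |s| ^ p ≤ (4 * p) ^ p * (Real.exp (1 / 4 * s) + Real.exp (-1 / 4 * s)) := by
  have hp0 : 0 < p := by linarith
  have h1 : |s| / (4 * p) ≤ Real.exp (|s| / (4 * p)) := by
    have := Real.add_one_le_exp (|s| / (4 * p)); linarith
  have h2 : |s| ^ p ≤ (4 * p) ^ p * Real.exp (|s| / 4) := by
    calc |s| ^ p = (4 * p * (|s| / (4 * p))) ^ p := by congr 1; field_simp
      _ = (4 * p) ^ p * (|s| / (4 * p)) ^ p := Real.mul_rpow (by positivity) (by positivity)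
      _ ≤ (4 * p) ^ p * (Real.exp (|s| / (4 * p))) ^ p := by
          gcongr
      _ = (4 * p) ^ p * Real.exp (|s| / 4) := by
          rw [← Real.exp_mul]
          congr 2
          field_simp
  have h3 : Real.exp (|s| / 4) ≤ Real.exp (1 / 4 * s) + Real.exp (-1 / 4 * s) := by
    have ha := Real.exp_pos (1 / 4 * s)
    have hb := Real.exp_pos (-1 / 4 * s)
    rcases abs_cases s with ⟨h, _⟩ | ⟨h, _⟩
    · rw [h, show s / 4 = 1 / 4 * s by ring]; linarith
    · rw [h, show -s / 4 = -1 / 4 * s by ring]; linarith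
  exact h2.trans (mul_le_mul_of_nonneg_left h3 (by positivity))

/-- **Moments of Lipschitz functions on the grid.** -/
theorem lip_moment {r m : ℕ} (hm : 0 < m) (hr : r ≤ m ^ 2) {p : ℝ} (hp : 1 ≤ p)
    (f : (Fin r → Fin m) → ℝ) (hf : ∀ x z, |f x - f z| ≤ Real.sqrt (SS x z) / m) :
    av (fun x => av (fun y => |f x - f y| ^ p)) ≤
      3 ^ p * (4 * ((4 * p) ^ p * Real.exp 2) + 1) := by
  have hne : Nonempty (Fin m) := ⟨⟨0, hm⟩⟩
  have hp0 : 0 < p := by linarith
  set c := av (ic f) with hc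
  set F : (Fin r → Fin m) → ℝ := fun x => ic f x - c with hF
  have h0 : av F = 0 := by
    rw [hF, av_sub, av_const, hc, sub_self]
  have hog : ∀ x, ∑ i, og F i x ≤ 4 / (m:ℝ) ^ 2 := by
    intro x
    simp only [hF, og_sub_const]
    exact ic_og hm hr f x
  have hst : ∀ i (x : Fin r → Fin m) (a b : Fin m), (b : ℕ) = a + 1 →
      |F (Function.update x i b) - F (Function.update x i a)| ≤ 2 := by
    intro i x a b hab
    have h1 := ic_step_le hm f (Function.update x i a) i b (by simp [hab])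
    have h2 := ic_step_le hm f (Function.update x i b) i a (by simp [hab])
    simp only [Function.update_idem] at h1 h2
    simp only [hF]
    rw [abs_le]
    constructor <;> linarith
  have he1 := exp_moment hm F hog hst h0 (l := 1 / 4) (by norm_num)
  have he2 := exp_moment hm F hog hst h0 (l := -1 / 4) (by rw [abs_le]; norm_num)
  have hM : av (fun x => |F x| ^ p) ≤ 2 * ((4 * p) ^ p * Real.exp 2) := by
    calc av (fun x => |F x| ^ p)
        ≤ av (fun x => (4 * p) ^ p * (Real.exp (1 / 4 * F x) + Real.exp (-1 / 4 * F x))) :=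
          av_mono fun x => rpow_le_exp hp (F x)
      _ = (4 * p) ^ p * (av (fun x => Real.exp (1 / 4 * F x)) +
            av (fun x => Real.exp (-1 / 4 * F x))) := by rw [av_smul, av_add]
      _ ≤ (4 * p) ^ p * (Real.exp 2 + Real.exp 2) := by gcongr
      _ = _ := by ring
  have hpt : ∀ x y, |f x - f y| ^ p ≤ 3 ^ p * (|F x| ^ p + |F y| ^ p + 1) := by
    intro x y
    have a1 := ic_le_add_one f x
    have a2 := ic_le_add_one f y
    have b1 := le_ic f hf x
    have b2 := le_ic f hf y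
    have h1 : |f x - f y| ≤ |F x| + |F y| + 1 := by
      have h2 : |F x - F y| ≤ |F x| + |F y| := abs_sub _ _
      have h3 : F x - F y = ic f x - ic f y := by simp only [hF]; ring
      rw [h3] at h2
      have h4 := abs_le.mp h2
      rw [abs_le]
      constructor <;> linarith
    have h5 : |f x - f y| ≤ 3 * max (max |F x| |F y|) 1 := by
      have c1 : |F x| ≤ max (max |F x| |F y|) 1 := (le_max_left _ _).trans (le_max_left _ _)
      have c2 : |F y| ≤ max (max |F x| |F y|) 1 := (le_max_right _ _).trans (le_max_left _ _)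
      have c3 : (1:ℝ) ≤ max (max |F x| |F y|) 1 := le_max_right _ _
      linarith
    have hx0 : 0 ≤ |F x| ^ p := by positivity
    have hy0 : 0 ≤ |F y| ^ p := by positivity
    calc |f x - f y| ^ p ≤ (3 * max (max |F x| |F y|) 1) ^ p := by gcongr
      _ = 3 ^ p * (max (max |F x| |F y|) 1) ^ p := Real.mul_rpow (by norm_num) (by positivity)
      _ ≤ _ := by
          apply mul_le_mul_of_nonneg_left _ (by positivity)
          rcases max_choice (max |F x| |F y|) 1 with h | h
          · rw [h]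
            rcases max_choice |F x| |F y| with h' | h'
            · rw [h']; linarith
            · rw [h']; linarith
          · rw [h, Real.one_rpow]; linarith
  have : Nonempty (Fin r → Fin m) := inferInstance
  calc av (fun x => av (fun y => |f x - f y| ^ p))
      ≤ av (fun x => av (fun y => 3 ^ p * (|F x| ^ p + |F y| ^ p + 1))) :=
        av_mono fun x => av_mono fun y => hpt x y
    _ = 3 ^ p * (av (fun x => |F x| ^ p) + av (fun x => |F x| ^ p) + 1) := by
        simp only [av_smul, av_add, av_const]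
    _ ≤ 3 ^ p * (2 * ((4 * p) ^ p * Real.exp 2) + 2 * ((4 * p) ^ p * Real.exp 2) + 1) := by
        gcongr
    _ = _ := by ring

end Vale.Agent.Lib.P249
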