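import Vale.Agent.Lib.P249.LowC

/-!
# P249 LOW, part D: the finite inequality on the grid, and Rademacher sums
-/

namespace Vale.Agent.Lib.P249

open Finset

/-- the average of a function of one coordinate -/
theorem av_coord {r m : ℕ} (hm : 0 < m) (i : Fin r) (G : Fin m → ℝ) :
    av (fun x : Fin r → Fin m => G (x i)) = av G := by
  have hne : Nonempty (Fin m) := ⟨⟨0, hm⟩⟩
  let e := Equiv.funSplitAt i (Fin m)
  rw [← av_equiv e.symm (fun x : Fin r → Fin m => G (x i)), av_prod]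
  have : ∀ (a : Fin m) (y : {j // j ≠ i} → Fin m), G ((e.symm (a, y)) i) = G a := by
    intro a y
    congr 1
    simp [e, Equiv.funSplitAt, Equiv.piSplitAt]
  simp only [this, av_const]

theorem sum_range_id_real (m : ℕ) : ∑ a : Fin m, ((a : ℕ) : ℝ) = m * (m - 1) / 2 := by
  rw [Fin.sum_univ_eq_sum_range (fun k => (k : ℝ))]
  induction m with
  | zero => simp
  | succ m ih => rw [Finset.sum_range_succ, ih]; push_cast; ring

theorem sum_range_sq_real (m : ℕ) : ∑ a : Fin m, ((a : ℕ) : ℝ) ^ 2 =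
    m * (m - 1) * (2 * m - 1) / 6 := by
  rw [Fin.sum_univ_eq_sum_range (fun k => (k : ℝ) ^ 2)]
  induction m with
  | zero => simp
  | succ m ih => rw [Finset.sum_range_succ, ih]; push_cast; ring

theorem av_av_sq {m : ℕ} (hm : 0 < m) :
    av (fun a : Fin m => av (fun b : Fin m => (((a : ℕ) : ℝ) - (b : ℕ)) ^ 2)) =
      ((m:ℝ) ^ 2 - 1) / 6 := by
  have hne : Nonempty (Fin m) := ⟨⟨0, hm⟩⟩
  have hm' : (m:ℝ) ≠ 0 := by exact_mod_cast hm.ne'
  have e1 : av (fun a : Fin m => ((a : ℕ) : ℝ)) = (m - 1) / 2 := by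
    unfold av
    rw [sum_range_id_real, Fintype.card_fin]
    field_simp
  have e2 : av (fun a : Fin m => ((a : ℕ) : ℝ) ^ 2) = (m - 1) * (2 * m - 1) / 6 := by
    unfold av
    rw [sum_range_sq_real, Fintype.card_fin]
    field_simp
  have e3 : (fun a : Fin m => av (fun b : Fin m => (((a : ℕ) : ℝ) - (b : ℕ)) ^ 2)) =
      fun a : Fin m => ((((a : ℕ) : ℝ) ^ 2) - (m - 1) * ((a : ℕ) : ℝ)) + (m - 1) * (2 * m - 1) / 6 := by
    funext a
    have : (fun b : Fin m => (((a : ℕ) : ℝ) - (b : ℕ)) ^ 2) =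
        fun b : Fin m => (((a : ℕ) : ℝ) ^ 2 - (2 * ((a : ℕ) : ℝ)) * ((b : ℕ) : ℝ)) +
          ((b : ℕ) : ℝ) ^ 2 := by
      funext b; ring
    rw [this, av_add, av_sub, av_const, av_smul, e1, e2]
    ring
  rw [e3, av_add, av_sub, av_smul, av_const, e1, e2]
  ring

theorem av_av_SS {r m : ℕ} (hm : 0 < m) :
    av (fun x : Fin r → Fin m => av (fun y => SS x y)) = r * (((m:ℝ) ^ 2 - 1) / 6) := by
  have h1 : (fun x : Fin r → Fin m => av (fun y => SS x y)) =
      fun x => ∑ i, (fun a : Fin m => av (fun b : Fin m => (((a : ℕ) : ℝ) - (b : ℕ)) ^ 2)) (x i) := by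
    funext x
    unfold SS
    rw [av_sum]
    apply Finset.sum_congr rfl
    intro i _
    exact av_coord hm i (fun b : Fin m => (((x i : ℕ) : ℝ) - (b : ℕ)) ^ 2)
  rw [h1, av_sum]
  have h2 : ∀ i : Fin r, av (fun x : Fin r → Fin m =>
      (fun a : Fin m => av (fun b : Fin m => (((a : ℕ) : ℝ) - (b : ℕ)) ^ 2)) (x i)) =
      ((m:ℝ) ^ 2 - 1) / 6 := by
    intro i
    exact (av_coord hm i (fun a : Fin m =>
      av (fun b : Fin m => (((a : ℕ) : ℝ) - (b : ℕ)) ^ 2))).trans (av_av_sq hm)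
  rw [Finset.sum_congr rfl fun i _ => h2 i]
  simp

/-- Jensen for powers -/
theorem av_rpow_le {Z : Type*} [Fintype Z] [Nonempty Z] {q : ℝ} (hq : 1 ≤ q) (F : Z → ℝ)
    (hF : ∀ z, 0 ≤ F z) : av F ^ q ≤ av (fun z => F z ^ q) := by
  have hc : (0:ℝ) < Fintype.card Z := by exact_mod_cast Fintype.card_pos
  have h := Real.rpow_arith_mean_le_arith_mean_rpow (Finset.univ : Finset Z)
    (fun _ => 1 / (Fintype.card Z : ℝ)) F (fun _ _ => by positivity)
    (by simp [Finset.card_univ, hc.ne']) (fun z _ => hF z) hq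
  have e1 : ∑ z, 1 / (Fintype.card Z : ℝ) * F z = av F := by
    unfold av; rw [← Finset.mul_sum]; field_simp
  have e2 : ∑ z, 1 / (Fintype.card Z : ℝ) * F z ^ q = av (fun z => F z ^ q) := by
    unfold av; rw [← Finset.mul_sum]; field_simp
  rw [e1, e2] at h
  exact h

theorem sqrt_SS_rpow {r m : ℕ} (x y : Fin r → Fin m) (p : ℝ) :
    (Real.sqrt (SS x y) / m) ^ p = (SS x y / (m:ℝ) ^ 2) ^ (p / 2) := by
  have h0 : 0 ≤ SS x y / (m:ℝ) ^ 2 := div_nonneg (SS_nonneg _ _) (by positivity)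
  have h3 : Real.sqrt (SS x y) / m = Real.sqrt (SS x y / (m:ℝ) ^ 2) := by
    rw [Real.sqrt_div (SS_nonneg x y), Real.sqrt_sq (Nat.cast_nonneg m)]
  rw [h3, Real.sqrt_eq_rpow, ← Real.rpow_mul h0]
  congr 1
  ring

theorem av_av_pow {r m : ℕ} (hm : 2 ≤ m) {p : ℝ} (hp : 2 ≤ p) :
    ((r:ℝ) / 8) ^ (p / 2) ≤
      av (fun x : Fin r → Fin m => av (fun y => (Real.sqrt (SS x y) / m) ^ p)) := by
  have hne : Nonempty (Fin m) := ⟨⟨0, by omega⟩⟩
  have hm2 : (2:ℝ) ≤ m := by exact_mod_cast hm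
  have hq : 1 ≤ p / 2 := by linarith
  simp only [sqrt_SS_rpow]
  have h1 := av_rpow_le hq (fun z : (Fin r → Fin m) × (Fin r → Fin m) => SS z.1 z.2 / (m:ℝ) ^ 2)
    (fun z => div_nonneg (SS_nonneg _ _) (by positivity))
  rw [av_prod, av_prod] at h1
  refine le_trans ?_ h1
  apply Real.rpow_le_rpow (by positivity) _ (by linarith)
  have h2 : av (fun x : Fin r → Fin m => av (fun y => SS x y / (m:ℝ) ^ 2)) =
      (1 / (m:ℝ) ^ 2) * (r * (((m:ℝ) ^ 2 - 1) / 6)) := by
    rw [← av_av_SS (by omega : 0 < m), ← av_smul]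
    congr 1
    funext x
    rw [← av_smul]
    congr 1
    funext y
    ring
  show (r:ℝ) / 8 ≤ av (fun x : Fin r → Fin m => av (fun y => SS x y / (m:ℝ) ^ 2))
  rw [h2]
  have h3 : (1:ℝ) / 8 ≤ 1 / (m:ℝ) ^ 2 * (((m:ℝ) ^ 2 - 1) / 6) := by
    rw [one_div_mul_eq_div, div_div, div_le_div_iff₀ (by norm_num) (by positivity)]
    nlinarith
  calc (r:ℝ) / 8 = r * (1 / 8) := by ring
    _ ≤ r * (1 / (m:ℝ) ^ 2 * (((m:ℝ) ^ 2 - 1) / 6)) := by gcongr
    _ = _ := by ring

/-- the constant in the finite inequality -/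
noncomputable def Kp (p : ℝ) : ℝ := 3 ^ p * (4 * ((4 * p) ^ p * Real.exp 2) + 1)

theorem Kp_pos {p : ℝ} (hp : 1 ≤ p) : 0 < Kp p := by
  unfold Kp
  positivity

/-- **The finite inequality.** -/
theorem fin_low {r m d : ℕ} (hm : 2 ≤ m) (hr : r ≤ m ^ 2) {p : ℝ} (hp : 2 ≤ p)
    (g : (Fin r → Fin m) → Fin d → ℝ) {a b : ℝ} (ha : 0 ≤ a) (hb : 0 < b)
    (h1 : ∀ x y, a * (Real.sqrt (SS x y) / m) ^ p ≤ ∑ j, |g x j - g y j| ^ p)
    (h2 : ∀ x y, ∑ j, |g x j - g y j| ^ p ≤ (b * (Real.sqrt (SS x y) / m)) ^ p) :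
    a * ((r:ℝ) / 8) ^ (p / 2) ≤ d * (b ^ p * Kp p) := by
  have hp1 : 1 ≤ p := by linarith
  have hp0 : 0 < p := by linarith
  have hne : Nonempty (Fin m) := ⟨⟨0, by omega⟩⟩
  have hj : ∀ j : Fin d, av (fun x => av (fun y => |g x j - g y j| ^ p)) ≤ b ^ p * Kp p := by
    intro j
    have hL : ∀ x z, |(1 / b) * g x j - (1 / b) * g z j| ≤ Real.sqrt (SS x z) / m := by
      intro x z
      have h3 : |g x j - g z j| ^ p ≤ (b * (Real.sqrt (SS x z) / m)) ^ p :=
        (Finset.single_le_sum (f := fun j => |g x j - g z j| ^ p)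
          (fun _ _ => by positivity) (Finset.mem_univ j)).trans (h2 x z)
      have h4 : |g x j - g z j| ≤ b * (Real.sqrt (SS x z) / m) :=
        (Real.rpow_le_rpow_iff (abs_nonneg _) (by positivity) hp0).mp h3
      rw [← mul_sub, abs_mul, abs_of_pos (by positivity : 0 < 1 / b)]
      rw [one_div_mul_eq_div, div_le_iff₀ hb]
      linarith
    have h5 := lip_moment (by omega : 0 < m) hr hp1 (fun x => (1 / b) * g x j) hL
    have h6 : (fun x => av (fun y => |g x j - g y j| ^ p)) =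
        fun x => b ^ p * av (fun y => |(1 / b) * g x j - (1 / b) * g y j| ^ p) := by
      funext x
      rw [← av_smul]
      congr 1
      funext y
      rw [← mul_sub, abs_mul, abs_of_pos (by positivity : 0 < 1 / b),
        Real.mul_rpow (by positivity) (abs_nonneg _), ← mul_assoc, ← Real.mul_rpow hb.le (by positivity)]
      rw [mul_one_div_cancel hb.ne', Real.one_rpow, one_mul]
    rw [h6, av_smul]
    exact mul_le_mul_of_nonneg_left h5 (by positivity)
  calc a * ((r:ℝ) / 8) ^ (p / 2)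
      ≤ a * av (fun x : Fin r → Fin m => av (fun y => (Real.sqrt (SS x y) / m) ^ p)) :=
        mul_le_mul_of_nonneg_left (av_av_pow hm hp) ha
    _ = av (fun x : Fin r → Fin m => av (fun y => a * (Real.sqrt (SS x y) / m) ^ p)) := by
        simp only [av_smul]
    _ ≤ av (fun x : Fin r → Fin m => av (fun y => ∑ j, |g x j - g y j| ^ p)) :=
        av_mono fun x => av_mono fun y => h1 x y
    _ = ∑ j, av (fun x => av (fun y => |g x j - g y j| ^ p)) := by
        simp only [av_sum]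
    _ ≤ ∑ _j : Fin d, b ^ p * Kp p := Finset.sum_le_sum fun j _ => hj j
    _ = _ := by simp

/-! ### Rademacher sums -/

/-- sign -/
def sg (b : Bool) : ℝ := if b then 1 else -1

/-- Rademacher sum -/
noncomputable def Rs {r : ℕ} (v : Fin r → ℝ) (w : Fin r → Bool) : ℝ := ∑ i, v i * sg (w i)

theorem Rs_exp {r : ℕ} (v : Fin r → ℝ) :
    av (fun w : Fin r → Bool => Real.exp (Rs v w)) ≤ Real.exp ((∑ i, v i ^ 2) / 2) := by
  have h1 : ∑ w : Fin r → Bool, Real.exp (Rs v w) = ∏ i : Fin r, (2 * Real.cosh (v i)) := by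
    have h2 : ∀ i : Fin r, 2 * Real.cosh (v i) = ∑ b : Bool, Real.exp (v i * sg b) := by
      intro i
      simp [sg, Real.cosh_eq]
      ring
    simp only [h2]
    rw [Finset.prod_univ_sum]
    simp only [Fintype.piFinset_univ]
    apply Finset.sum_congr rfl
    intro w _
    unfold Rs
    rw [Real.exp_sum]
  unfold av
  rw [h1, Finset.prod_mul_distrib]
  simp only [Finset.prod_const, Finset.card_univ, Fintype.card_fin, Fintype.card_pi,
    Fintype.card_bool, Nat.cast_pow, Nat.cast_ofNat]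
  rw [mul_comm, mul_div_assoc, div_self (by positivity), mul_one, Finset.sum_div, Real.exp_sum]
  apply Finset.prod_le_prod
  · intro i _; positivity
  · intro i _
    exact Real.cosh_le_exp_half_sq (v i)

theorem Rs_sq : ∀ {r : ℕ} (v : Fin r → ℝ),
    av (fun w : Fin r → Bool => Rs v w ^ 2) = ∑ i, v i ^ 2 := by
  intro r
  induction r with
  | zero => intro v; simp [Rs, av]
  | succ r ih =>
    intro v
    let e := Fin.consEquiv (fun _ : Fin (r + 1) => Bool)
    rw [← av_equiv e (fun w : Fin (r + 1) → Bool => Rs v w ^ 2), av_prod, av_comm]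
    have h1 : ∀ (b : Bool) (y : Fin r → Bool), Rs v (e (b, y)) =
        v 0 * sg b + Rs (fun i => v i.succ) y := by
      intro b y
      unfold Rs
      rw [Fin.sum_univ_succ]
      rfl
    simp only [h1]
    have h2 : ∀ y : Fin r → Bool, av (fun b : Bool => (v 0 * sg b + Rs (fun i => v i.succ) y) ^ 2) =
        v 0 ^ 2 + Rs (fun i => v i.succ) y ^ 2 := by
      intro y
      simp [av, sg]
      ring
    simp only [h2]
    rw [av_add, av_const, ih, Fin.sum_univ_succ]

/-- lower Khintchine for `p ≥ 2` -/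
theorem Rs_low {r : ℕ} (v : Fin r → ℝ) {p : ℝ} (hp : 2 ≤ p) :
    (∑ i, v i ^ 2) ^ (p / 2) ≤ av (fun w : Fin r → Bool => |Rs v w| ^ p) := by
  rw [← Rs_sq v]
  refine (av_rpow_le (by linarith : 1 ≤ p / 2) _ fun w => sq_nonneg _).trans (le_of_eq ?_)
  congr 1
  funext w
  rw [← sq_abs, ← Real.rpow_natCast, ← Real.rpow_mul (abs_nonneg _)]
  congr 1
  push_cast
  ring

/-- upper Khintchine -/
theorem Rs_up {r : ℕ} (v : Fin r → ℝ) {p : ℝ} (hp : 1 ≤ p) :
    av (fun w : Fin r → Bool => |Rs v w| ^ p) ≤ (4 * (4 * p) ^ p) * (∑ i, v i ^ 2) ^ (p / 2) := by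
  have hp0 : 0 < p := by linarith
  rcases eq_or_lt_of_le (Finset.sum_nonneg (s := Finset.univ) fun i _ => sq_nonneg (v i)) with h0 | h0
  · have hv : ∀ i, v i = 0 := by
      intro i
      have := (Finset.sum_eq_zero_iff_of_nonneg (fun i _ => sq_nonneg (v i))).mp h0.symm i
        (Finset.mem_univ i)
      exact pow_eq_zero_iff (two_ne_zero) |>.mp this
    have : ∀ w, Rs v w = 0 := by intro w; simp [Rs, hv]
    simp only [this, abs_zero, Real.zero_rpow hp0.ne', av_const]
    positivity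
  · set L := Real.sqrt (∑ i, v i ^ 2) with hL
    have hL0 : 0 < L := Real.sqrt_pos.mpr h0
    have hL2 : L ^ 2 = ∑ i, v i ^ 2 := Real.sq_sqrt h0.le
    have hLp : (∑ i, v i ^ 2) ^ (p / 2) = L ^ p := by
      rw [← hL2, ← Real.rpow_natCast, ← Real.rpow_mul hL0.le]
      congr 1
      push_cast
      ring
    have hpt : ∀ w, |Rs v w| ^ p ≤ L ^ p * ((4 * p) ^ p *
        (Real.exp (Rs (fun i => 1 / 4 * (v i / L)) w) +
          Real.exp (Rs (fun i => -1 / 4 * (v i / L)) w))) := by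
      intro w
      have h1 := rpow_le_exp hp (Rs v w / L)
      have h2 : |Rs v w| ^ p = L ^ p * |Rs v w / L| ^ p := by
        rw [abs_div, abs_of_pos hL0, ← Real.mul_rpow hL0.le (by positivity)]
        congr 1
        field_simp
      have h3 : ∀ c : ℝ, Rs (fun i => c * (v i / L)) w = c * (Rs v w / L) := by
        intro c
        unfold Rs
        rw [Finset.sum_div, Finset.mul_sum]
        apply Finset.sum_congr rfl
        intro i _
        ring
      rw [h2, h3, h3]
      exact mul_le_mul_of_nonneg_left h1 (by positivity)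
    have hexp : ∀ c : ℝ, c ^ 2 ≤ 1 / 16 →
        av (fun w : Fin r → Bool => Real.exp (Rs (fun i => c * (v i / L)) w)) ≤ 2 := by
      intro c hc
      refine (Rs_exp _).trans ?_
      have h1 : ∑ i, (c * (v i / L)) ^ 2 = c ^ 2 := by
        have : ∀ i, (c * (v i / L)) ^ 2 = c ^ 2 / L ^ 2 * v i ^ 2 := by intro i; field_simp
        rw [Finset.sum_congr rfl fun i _ => this i, ← Finset.mul_sum, ← hL2]
        field_simp
      rw [h1]
      calc Real.exp (c ^ 2 / 2) ≤ Real.exp (Real.log 2) := by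
            apply Real.exp_le_exp.mpr
            have := Real.log_two_gt_d9
            linarith
        _ = 2 := Real.exp_log (by norm_num)
    calc av (fun w : Fin r → Bool => |Rs v w| ^ p)
        ≤ av (fun w : Fin r → Bool => L ^ p * ((4 * p) ^ p *
          (Real.exp (Rs (fun i => 1 / 4 * (v i / L)) w) +
            Real.exp (Rs (fun i => -1 / 4 * (v i / L)) w)))) := av_mono hpt
      _ = L ^ p * ((4 * p) ^ p *
          (av (fun w : Fin r → Bool => Real.exp (Rs (fun i => 1 / 4 * (v i / L)) w)) +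
            av (fun w : Fin r → Bool => Real.exp (Rs (fun i => -1 / 4 * (v i / L)) w)))) := by
          rw [av_smul, av_smul, av_add]
      _ ≤ L ^ p * ((4 * p) ^ p * (2 + 2)) := by
          gcongr
          · exact hexp _ (by norm_num)
          · exact hexp _ (by norm_num)
      _ = _ := by rw [hLp]; ring

end Vale.Agent.Lib.P249
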