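import Vale.Agent.Lib.P249.LowD

/-!
# P249 LOW, part E: the grid inside `L_p`, and the lower bound for `d_p(n, D)`
-/

namespace Vale.Agent.Lib.P249

open Finset MeasureTheory
open scoped ENNReal

universe u

/-- The grid `{0, ..., m-1}^r / m` with its Euclidean metric embeds into an `L_p` space with
bounded distortion. -/
theorem grid_embed (p : ℝ≥0∞) [Fact (1 ≤ p)] (hp : p ≠ ∞) (hp2 : 2 ≤ p.toReal) (r m : ℕ) :
    ∃ (Ω : Type u) (_ : MeasurableSpace Ω) (μ : Measure Ω) (E : (Fin r → Fin m) → Lp ℝ p μ),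
      ∀ x y,
        (2:ℝ) ^ r * (Real.sqrt (SS x y) / m) ^ p.toReal ≤ ‖E x - E y‖ ^ p.toReal ∧
        ‖E x - E y‖ ^ p.toReal ≤
          (2:ℝ) ^ r * (4 * (4 * p.toReal) ^ p.toReal) * (Real.sqrt (SS x y) / m) ^ p.toReal := by
  have hq0 : 0 < p.toReal := by linarith
  have hp0 : p ≠ 0 := by
    rintro rfl
    simp at hq0
  let mΩ : MeasurableSpace (ULift.{u} (Fin r → Bool)) := ⊤
  have : DiscreteMeasurableSpace (ULift.{u} (Fin r → Bool)) := ⟨fun _ => trivial⟩
  have hmem : ∀ F : ULift.{u} (Fin r → Bool) → ℝ,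
      MemLp F p (Measure.count : Measure (ULift.{u} (Fin r → Bool))) := fun F => MemLp.of_discrete
  refine ⟨ULift.{u} (Fin r → Bool), mΩ, Measure.count,
    fun x => (hmem (fun w => Rs (fun i => ((x i : ℕ) : ℝ) / m) w.down)).toLp, ?_⟩
  intro x y
  set v : Fin r → ℝ := fun i => ((x i : ℕ) : ℝ) / m - ((y i : ℕ) : ℝ) / m with hv
  have h1 : ‖(hmem (fun w => Rs (fun i => ((x i : ℕ) : ℝ) / m) w.down)).toLp -
      (hmem (fun w => Rs (fun i => ((y i : ℕ) : ℝ) / m) w.down)).toLp‖ ^ p.toReal =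
      (2:ℝ) ^ r * av (fun w : Fin r → Bool => |Rs v w| ^ p.toReal) := by
    rw [← MemLp.toLp_sub, Lp.norm_toLp, MemLp.eLpNorm_eq_integral_rpow_norm hp0 hp
      ((hmem _).sub (hmem _)), integral_count,
      ENNReal.toReal_ofReal (by positivity), ← Real.rpow_mul (by positivity),
      inv_mul_cancel₀ hq0.ne', Real.rpow_one]
    unfold av
    simp only [Fintype.card_pi, Fintype.card_bool, Finset.prod_const, Finset.card_univ,
      Fintype.card_fin, Nat.cast_pow, Nat.cast_ofNat]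
    rw [mul_div_cancel₀ _ (by positivity)]
    rw [← Equiv.sum_comp (Equiv.ulift.{u}.symm : (Fin r → Bool) ≃ ULift.{u} (Fin r → Bool))]
    apply Finset.sum_congr rfl
    intro w _
    rw [Real.norm_eq_abs]
    congr 2
    simp only [Pi.sub_apply, Equiv.ulift_symm_apply]
    unfold Rs
    rw [← Finset.sum_sub_distrib]
    apply Finset.sum_congr rfl
    intro i _
    rw [hv]
    ring
  have h2 : ∑ i, v i ^ 2 = SS x y / (m:ℝ) ^ 2 := by
    unfold SS
    rw [Finset.sum_div]
    apply Finset.sum_congr rfl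
    intro i _
    rw [hv]
    ring
  rw [h1, sqrt_SS_rpow, ← h2]
  constructor
  · exact mul_le_mul_of_nonneg_left (Rs_low v hp2) (by positivity)
  · rw [mul_assoc]
    exact mul_le_mul_of_nonneg_left (Rs_up v (by linarith)) (by positivity)

/-- The constant of the lower bound. -/
noncomputable def Lc (q D : ℝ) : ℝ := D ^ q * (4 * (4 * q) ^ q) * Kp q

theorem Lc_pos {q D : ℝ} (hq : 1 ≤ q) (hD : 0 < D) : 0 < Lc q D := by
  have := Kp_pos hq
  unfold Lc
  positivity

/-- The lower bound with explicit parameters. -/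
theorem low_param (p : ℝ≥0∞) [Fact (1 ≤ p)] (hp : p ≠ ∞) (hp2 : 2 ≤ p.toReal) {D : ℝ} (hD : 0 < D)
    {n d r m : ℕ} (hr1 : 1 ≤ r) (hm : 2 ≤ m) (hr : r ≤ m ^ 2) (hn : m ^ r ≤ n)
    (h : ∀ (Ω : Type u) [MeasurableSpace Ω] (μ : Measure Ω) (X : Finset (Lp ℝ p μ)), X.card = n →
      ∃ f : Lp ℝ p μ → PiLp p (fun _ : Fin d => ℝ), ∃ s : ℝ, 0 < s ∧ ∀ x ∈ X, ∀ y ∈ X,
        s * ‖x - y‖ ≤ ‖f x - f y‖ ∧ ‖f x - f y‖ ≤ D * s * ‖x - y‖) :
    ((r:ℝ) / 8) ^ (p.toReal / 2) ≤ d * Lc p.toReal D := by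
  classical
  have hq0 : 0 < p.toReal := by linarith
  have hm0 : (0:ℝ) < m := by exact_mod_cast (by omega : 0 < m)
  obtain ⟨Ω, mΩ, μ, E, hE⟩ := grid_embed.{u} p hp hp2 r m
  -- the space is infinite
  have hE0 : E (fun _ => ⟨1, by omega⟩) ≠ E (fun _ => ⟨0, by omega⟩) := by
    intro heq
    have h1 := (hE (fun _ => ⟨1, by omega⟩) (fun _ => ⟨0, by omega⟩)).1
    rw [heq, sub_self, norm_zero, Real.zero_rpow hq0.ne'] at h1
    have h2 : SS (fun _ : Fin r => (⟨1, by omega⟩ : Fin m)) (fun _ => ⟨0, by omega⟩) = r := by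
      simp [SS]
    rw [h2] at h1
    have hr0 : (0:ℝ) < r := by exact_mod_cast hr1
    have : 0 < (2:ℝ) ^ r * (Real.sqrt (r:ℝ) / m) ^ p.toReal := by
      have := Real.sqrt_pos.mpr hr0
      positivity
    linarith
  have : Nontrivial (Lp ℝ p μ) := ⟨_, _, hE0⟩
  have : Infinite (Lp ℝ p μ) := Module.Free.infinite ℝ (Lp ℝ p μ)
  have hcard : (Finset.univ.image E).card ≤ n := by
    refine Finset.card_image_le.trans ?_
    simpa using hn
  obtain ⟨X, hsub, hXn⟩ := Infinite.exists_superset_card_eq (Finset.univ.image E) n hcard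
  obtain ⟨f, s, hs, hf⟩ := h Ω μ X hXn
  have hX : ∀ x, E x ∈ X := fun x => hsub (Finset.mem_image_of_mem E (Finset.mem_univ x))
  set q := p.toReal with hq
  set B := 4 * (4 * q) ^ q with hB
  have hB0 : 0 < B := by positivity
  set A := (2:ℝ) ^ r with hA
  have hA0 : 0 < A := by positivity
  have hnorm : ∀ x y, ∑ j, |f (E x) j - f (E y) j| ^ q = ‖f (E x) - f (E y)‖ ^ q := by
    intro x y
    rw [PiLp.norm_eq_sum hq0, ← Real.rpow_mul (by positivity), one_div,
      inv_mul_cancel₀ hq0.ne', Real.rpow_one]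
    simp only [Real.norm_eq_abs]
    rfl
  have key := fin_low hm hr hp2 (fun x j => f (E x) j) (a := s ^ q * A)
    (b := D * s * (A * B) ^ (1 / q)) (by positivity) (by positivity) ?_ ?_
  · have h3 : (D * s * (A * B) ^ (1 / q)) ^ q = D ^ q * s ^ q * (A * B) := by
      rw [Real.mul_rpow (by positivity) (by positivity), Real.mul_rpow hD.le hs.le,
        ← Real.rpow_mul (by positivity), one_div, inv_mul_cancel₀ hq0.ne', Real.rpow_one]
    rw [h3] at key
    have h4 : 0 < s ^ q * A := by positivity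
    have h5 : s ^ q * A * ((r:ℝ) / 8) ^ (q / 2) ≤ s ^ q * A * (d * Lc q D) := by
      refine key.trans (le_of_eq ?_)
      unfold Lc
      ring
    exact le_of_mul_le_mul_left h5 h4
  · intro x y
    rw [hnorm]
    calc s ^ q * A * (Real.sqrt (SS x y) / m) ^ q = s ^ q * (A * (Real.sqrt (SS x y) / m) ^ q) := by
          ring
      _ ≤ s ^ q * ‖E x - E y‖ ^ q := mul_le_mul_of_nonneg_left (hE x y).1 (by positivity)
      _ = (s * ‖E x - E y‖) ^ q := (Real.mul_rpow hs.le (norm_nonneg _)).symm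
      _ ≤ _ := Real.rpow_le_rpow (by positivity) (hf _ (hX x) _ (hX y)).1 hq0.le
  · intro x y
    rw [hnorm]
    calc ‖f (E x) - f (E y)‖ ^ q ≤ (D * s * ‖E x - E y‖) ^ q :=
          Real.rpow_le_rpow (norm_nonneg _) (hf _ (hX x) _ (hX y)).2 hq0.le
      _ = (D * s) ^ q * ‖E x - E y‖ ^ q := Real.mul_rpow (by positivity) (norm_nonneg _)
      _ ≤ (D * s) ^ q * (A * B * (Real.sqrt (SS x y) / m) ^ q) :=
          mul_le_mul_of_nonneg_left (hE x y).2 (by positivity)
      _ = _ := by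
          have e1 : (D * s * (A * B) ^ (1 / q) * (Real.sqrt (SS x y) / m)) ^ q =
              (D * s) ^ q * ((A * B) ^ (1 / q)) ^ q * (Real.sqrt (SS x y) / m) ^ q := by
            rw [Real.mul_rpow (by positivity) (by positivity),
              Real.mul_rpow (x := D * s) (by positivity) (by positivity)]
          rw [e1, ← Real.rpow_mul (by positivity), one_div, inv_mul_cancel₀ hq0.ne', Real.rpow_one]
          ring

/-- choice of the parameters -/
theorem low_choice {n : ℕ} (hn : 55 ≤ n) : ∃ r m : ℕ, 1 ≤ r ∧ 2 ≤ m ∧ r ≤ m ^ 2 ∧ m ^ r ≤ n ∧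
    Real.log n / Real.log (Real.log n) / 2 ≤ r := by
  have hn' : (55:ℝ) ≤ n := by exact_mod_cast hn
  have hn0 : (0:ℝ) < n := by linarith
  set L := Real.log n with hL
  have he4 : Real.exp 4 ≤ 55 := by
    have h1 := Real.exp_one_lt_d9
    have h2 : Real.exp 4 = Real.exp 1 ^ 4 := by rw [← Real.exp_nat_mul]; norm_num
    rw [h2]
    have h3 : 0 < Real.exp 1 := Real.exp_pos 1
    calc Real.exp 1 ^ 4 ≤ (2.7182818286:ℝ) ^ 4 := by gcongr
      _ ≤ 55 := by norm_num
  have hL4 : 4 ≤ L := by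
    rw [hL, Real.le_log_iff_exp_le hn0]
    linarith
  set M := Real.log L with hM
  have hM2 : 2 * Real.log 2 ≤ M := by
    have : Real.log ((2:ℝ) ^ 2) ≤ M := Real.log_le_log (by norm_num) (by linarith)
    rw [Real.log_pow] at this
    exact_mod_cast this
  have hl2 := Real.log_two_gt_d9
  have hM0 : 0 < M := by linarith
  have hML : M ≤ L / 2 := by
    -- `log L ≤ L / 2`
    have h1 := Real.log_le_sub_one_of_pos (x := L / 2) (by linarith)
    have h2 : Real.log (L / 2) = M - Real.log 2 := by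
      rw [Real.log_div (by linarith) (by norm_num)]
    have hl3 := Real.log_two_lt_d9
    linarith
  set y := L / M with hy
  have hy2 : 2 ≤ y := by rw [hy, le_div_iff₀ hM0]; linarith
  set r := ⌊y⌋₊ with hr
  have hry : (r:ℝ) ≤ y := Nat.floor_le (by linarith)
  have hyr : y < r + 1 := Nat.lt_floor_add_one y
  have hr2 : 2 ≤ r := Nat.le_floor (by exact_mod_cast hy2)
  have hr2' : (2:ℝ) ≤ r := by exact_mod_cast hr2
  set m := ⌈Real.sqrt r⌉₊ with hm
  have hsq : Real.sqrt r ^ 2 = r := Real.sq_sqrt (by positivity)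
  have hs1 : 1 < Real.sqrt r := by
    rw [show (1:ℝ) = Real.sqrt 1 by simp]
    exact Real.sqrt_lt_sqrt (by norm_num) (by linarith)
  have hm1 : Real.sqrt r ≤ m := Nat.le_ceil _
  have hm2 : (m:ℝ) < Real.sqrt r + 1 := Nat.ceil_lt_add_one (by positivity)
  have hmge : 2 ≤ m := by
    have : (1:ℝ) < m := by linarith
    have : 1 < m := by exact_mod_cast this
    omega
  refine ⟨r, m, by omega, hmge, ?_, ?_, ?_⟩
  · have : (r:ℝ) ≤ (m:ℝ) ^ 2 := by
      calc (r:ℝ) = Real.sqrt r ^ 2 := hsq.symm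
        _ ≤ (m:ℝ) ^ 2 := by gcongr
    exact_mod_cast this
  · have hm0 : (0:ℝ) < m := by linarith
    have hlogm : Real.log m ≤ M := by
      have h1 : (m:ℝ) ≤ 2 * Real.sqrt r := by linarith
      have h2 : Real.log m ≤ Real.log (2 * Real.sqrt r) := Real.log_le_log hm0 h1
      rw [Real.log_mul (by norm_num) (by linarith), Real.log_sqrt (by linarith)] at h2
      have h3 : Real.log r ≤ M := by
        apply Real.log_le_log (by linarith)
        calc (r:ℝ) ≤ y := hry
          _ ≤ L := by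
            rw [hy, div_le_iff₀ hM0]
            have : 1 ≤ M := by linarith
            nlinarith
      linarith
    have h4 : (r:ℝ) * Real.log m ≤ L := by
      calc (r:ℝ) * Real.log m ≤ y * M := by
            have : 0 ≤ Real.log m := Real.log_nonneg (by linarith)
            gcongr
        _ = L := by rw [hy]; field_simp
    have h5 : ((m:ℝ)) ^ r ≤ n := by
      rw [← Real.log_le_log_iff (by positivity) hn0, Real.log_pow]
      exact h4
    exact_mod_cast h5
  · have : y ≤ 2 * r := by linarith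
    linarith

/-- **The lower bound.** -/
theorem low_main (p : ℝ≥0∞) [Fact (1 ≤ p)] (hp : p ≠ ∞) (hp2 : 2 ≤ p.toReal) {D : ℝ}
    (hD : 0 < D) : ∃ c : ℝ, 0 < c ∧ ∀ n : ℕ, 55 ≤ n → ∀ d : ℕ,
    (∀ (Ω : Type u) [MeasurableSpace Ω] (μ : Measure Ω) (X : Finset (Lp ℝ p μ)), X.card = n →
      ∃ f : Lp ℝ p μ → PiLp p (fun _ : Fin d => ℝ), ∃ s : ℝ, 0 < s ∧ ∀ x ∈ X, ∀ y ∈ X,
        s * ‖x - y‖ ≤ ‖f x - f y‖ ∧ ‖f x - f y‖ ≤ D * s * ‖x - y‖) →
    c * (Real.log n / Real.log (Real.log n)) ^ (p.toReal / 2) ≤ d := by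
  have hL := Lc_pos (q := p.toReal) (D := D) (by linarith) hD
  refine ⟨(1 / 16) ^ (p.toReal / 2) / Lc p.toReal D, by positivity, ?_⟩
  intro n hn d h
  obtain ⟨r, m, hr1, hm, hrm, hmn, hr⟩ := low_choice hn
  have h1 := low_param.{u} p hp hp2 hD hr1 hm hrm hmn h
  have hy0 : 0 ≤ Real.log n / Real.log (Real.log n) := by
    have hn' : (55:ℝ) ≤ n := by exact_mod_cast hn
    have h2 : 1 ≤ Real.log n := by
      rw [Real.le_log_iff_exp_le (by linarith)]
      have := Real.exp_one_lt_d9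
      linarith
    have : 0 ≤ Real.log (Real.log n) := Real.log_nonneg h2
    positivity
  rw [div_mul_eq_mul_div, div_le_iff₀ hL, ← Real.mul_rpow (by norm_num) hy0]
  refine le_trans ?_ h1
  apply Real.rpow_le_rpow (by positivity) _ (by linarith)
  linarith

end Vale.Agent.Lib.P249
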