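import Mathlib

/-!
# Choice of parameters for the sub-polynomial dimension reduction (module ASM2 of P249)
-/

open Filter Topology

namespace Vale.Agent.Lib.P249

theorem eta_exists (p D : ℝ) (hp : 1 ≤ p) (hD : 1 < D) :
    ∃ η : ℝ, 0 < η ∧ η ≤ 1 / 2 ∧
      (1 + η) ^ p + η ≤ D ^ p * ((1 - η) * (1 - η) ^ p - η) := by
  have hp0 : (0 : ℝ) < p := by linarith
  have h1 : (1 : ℝ) < D ^ p := Real.one_lt_rpow hD hp0
  have hc : ContinuousAt (fun η : ℝ => D ^ p * ((1 - η) * (1 - η) ^ p - η) - ((1 + η) ^ p + η)) 0 := by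
    have c1 : ContinuousAt (fun η : ℝ => (1 - η) ^ p) 0 := by
      apply ContinuousAt.rpow_const
      · fun_prop
      · right; linarith
    have c2 : ContinuousAt (fun η : ℝ => (1 + η) ^ p) 0 := by
      apply ContinuousAt.rpow_const
      · fun_prop
      · right; linarith
    fun_prop
  have h0 : (0 : ℝ) < D ^ p * ((1 - 0) * (1 - 0) ^ p - 0) - ((1 + 0) ^ p + 0) := by
    simp only [sub_zero, add_zero, Real.one_rpow, mul_one]
    linarith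
  have h2 : ∀ᶠ η in 𝓝 (0 : ℝ),
      0 < D ^ p * ((1 - η) * (1 - η) ^ p - η) - ((1 + η) ^ p + η) :=
    hc.eventually (lt_mem_nhds h0)
  have h3 : ∀ᶠ η in 𝓝[>] (0 : ℝ),
      0 < D ^ p * ((1 - η) * (1 - η) ^ p - η) - ((1 + η) ^ p + η) :=
    h2.filter_mono nhdsWithin_le_nhds
  have h4 : ∀ᶠ η in 𝓝[>] (0 : ℝ), η ∈ Set.Ioo (0 : ℝ) (1 / 2) :=
    Ioo_mem_nhdsGT (by norm_num)
  obtain ⟨η, ha, hb⟩ := (h3.and h4).exists
  exact ⟨η, hb.1, hb.2.le, by linarith⟩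

/-- polynomial against exponential, in the form used below -/
theorem ev_poly (p a b c s : ℝ) (hp : 1 ≤ p) (ha : 0 ≤ a) (hb : 0 ≤ b) (hc : 0 ≤ c) (hs : 0 < s) :
    ∀ᶠ l : ℝ in atTop, (c * (a * l + b)) ^ p * (2 * l + 2) ≤ Real.exp (s * l) := by
  have h1 := isLittleO_rpow_exp_pos_mul_atTop (p + 1) hs
  have h2 : (0 : ℝ) < 1 / ((c * (a + b)) ^ p * 4 + 1) := by positivity
  have h3 := h1.bound h2
  filter_upwards [h3, eventually_ge_atTop (1 : ℝ)] with l hl hl1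
  have hl0 : (0 : ℝ) < l := by linarith
  rw [Real.norm_of_nonneg (Real.rpow_nonneg hl0.le _), Real.norm_of_nonneg (Real.exp_pos _).le] at hl
  have h4 : c * (a * l + b) ≤ (c * (a + b)) * l := by
    have : a * l + b ≤ (a + b) * l := by nlinarith
    nlinarith [mul_le_mul_of_nonneg_left this hc]
  have h5 : (c * (a * l + b)) ^ p ≤ (c * (a + b)) ^ p * l ^ p := by
    rw [← Real.mul_rpow (by positivity) hl0.le]
    exact Real.rpow_le_rpow (by positivity) h4 (by linarith)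
  have h6 : (c * (a * l + b)) ^ p * (2 * l + 2) ≤ ((c * (a + b)) ^ p * l ^ p) * (4 * l) := by
    apply mul_le_mul h5 (by linarith) (by linarith) (by positivity)
  have h7 : l ^ (p + 1) = l ^ p * l := by
    rw [Real.rpow_add hl0, Real.rpow_one]
  have h8 : ((c * (a + b)) ^ p * l ^ p) * (4 * l) = ((c * (a + b)) ^ p * 4) * l ^ (p + 1) := by
    rw [h7]; ring
  have h9 : 0 ≤ (c * (a + b)) ^ p * 4 := by positivity
  have h10 : ((c * (a + b)) ^ p * 4) * l ^ (p + 1) ≤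
      ((c * (a + b)) ^ p * 4) * (1 / ((c * (a + b)) ^ p * 4 + 1) * Real.exp (s * l)) :=
    mul_le_mul_of_nonneg_left hl h9
  have h11 : ((c * (a + b)) ^ p * 4) * (1 / ((c * (a + b)) ^ p * 4 + 1)) ≤ 1 := by
    rw [mul_one_div, div_le_one (by positivity)]
    linarith
  calc (c * (a * l + b)) ^ p * (2 * l + 2) ≤ _ := h6
    _ = _ := h8
    _ ≤ _ := h10
    _ = (((c * (a + b)) ^ p * 4) * (1 / ((c * (a + b)) ^ p * 4 + 1))) * Real.exp (s * l) := by ring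
    _ ≤ 1 * Real.exp (s * l) := by
        apply mul_le_mul_of_nonneg_right h11 (Real.exp_pos _).le
    _ = _ := one_mul _

theorem ev_lin (a b c s : ℝ) (hs : 0 < s) (hc : 0 < c) :
    ∀ᶠ l : ℝ in atTop, a * l + b ≤ c * Real.exp (s * l) := by
  have h1 := isLittleO_rpow_exp_pos_mul_atTop 1 hs
  have h2 := (h1.bound (show (0 : ℝ) < c / (|a| + |b| + 1) by positivity))
  filter_upwards [h2, eventually_ge_atTop (1 : ℝ)] with l hl hl1
  rw [Real.rpow_one, Real.norm_of_nonneg (by linarith), Real.norm_of_nonneg (Real.exp_pos _).le] at hl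
  have h3 : a * l + b ≤ (|a| + |b| + 1) * l := by
    nlinarith [le_abs_self a, le_abs_self b, abs_nonneg a, abs_nonneg b,
      mul_le_mul_of_nonneg_right (le_abs_self a) (show (0:ℝ) ≤ l by linarith),
      mul_le_mul_of_nonneg_left hl1 (abs_nonneg b)]
  have h4 : (|a| + |b| + 1) * l ≤ (|a| + |b| + 1) * (c / (|a| + |b| + 1) * Real.exp (s * l)) :=
    mul_le_mul_of_nonneg_left hl (by positivity)
  have h5 : (|a| + |b| + 1) * (c / (|a| + |b| + 1) * Real.exp (s * l)) = c * Real.exp (s * l) := by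
    field_simp
  linarith

/-- error of the truncation to finitely many windows -/
theorem numB (p η ν l H C1 : ℝ) (n w N P K : ℕ) (hp : 1 ≤ p) (hν : 0 < ν)
    (hC1 : 1 ≤ C1) (hl0 : 0 ≤ l) (hnl : (n : ℝ) = Real.exp l) (hH : 0 ≤ H)
    (hw : (w : ℝ) ≤ C1 * (n : ℝ) ^ 3) (hN : ν * l ≤ N) (hP : 1 ≤ P) (hK : 8 / ν ≤ K)
    (hF : 4 * H * C1 ≤ η * Real.exp l) :
    2 * (H * 2 ^ ((P + 1) * N) / 2 ^ ((K + 2) * P * N)) * (w : ℝ) ^ (1 / p) ≤ η / 2 := by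
  have hp0 : (0 : ℝ) < p := by linarith
  have e1 : (P + 1) * N + K * N ≤ (K + 2) * P * N := by
    rw [← Nat.add_mul]
    apply Nat.mul_le_mul_right
    nlinarith
  have e2 : (2 : ℝ) ^ ((P + 1) * N) * 2 ^ (K * N) ≤ 2 ^ ((K + 2) * P * N) := by
    rw [← pow_add]
    exact pow_le_pow_right₀ (by norm_num) e1
  have e3 : Real.exp (4 * l) ≤ (2 : ℝ) ^ (K * N) := by
    have h1 : (2 : ℝ) ^ (K * N) = Real.exp (Real.log 2 * ((K : ℝ) * N)) := by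
      rw [Real.exp_mul, Real.exp_log (by norm_num)]
      rw [← Real.rpow_natCast]
      push_cast
      rfl
    rw [h1]
    apply Real.exp_le_exp.2
    have h2 : 8 * l ≤ (K : ℝ) * N := by
      calc 8 * l = 8 / ν * (ν * l) := by field_simp
        _ ≤ (K : ℝ) * N := mul_le_mul hK hN (by positivity) (by positivity)
    have h3 := Real.log_two_gt_d9
    nlinarith
  have e4 : (w : ℝ) ^ (1 / p) ≤ C1 * Real.exp (3 * l) := by
    have h0 : (1 : ℝ) ≤ C1 * Real.exp (3 * l) := by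
      have : (1 : ℝ) ≤ Real.exp (3 * l) := Real.one_le_exp (by positivity)
      nlinarith
    have h1 : (w : ℝ) ≤ C1 * Real.exp (3 * l) := by
      have : Real.exp (3 * l) = (n : ℝ) ^ 3 := by
        rw [hnl, ← Real.exp_nat_mul]; norm_num
      rw [this]; exact hw
    calc (w : ℝ) ^ (1 / p) ≤ (C1 * Real.exp (3 * l)) ^ (1 / p) :=
          Real.rpow_le_rpow (by positivity) h1 (by positivity)
      _ ≤ (C1 * Real.exp (3 * l)) ^ (1 : ℝ) := by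
          apply Real.rpow_le_rpow_of_exponent_le h0
          rw [div_le_one hp0]; exact hp
      _ = _ := Real.rpow_one _
  have e5 : (2 : ℝ) ^ ((P + 1) * N) / 2 ^ ((K + 2) * P * N) ≤ Real.exp (-(4 * l)) := by
    rw [div_le_iff₀ (by positivity), Real.exp_neg]
    have h1 : (2 : ℝ) ^ ((P + 1) * N) * Real.exp (4 * l) ≤ 2 ^ ((K + 2) * P * N) :=
      (mul_le_mul_of_nonneg_left e3 (by positivity)).trans e2
    have h2 : (0 : ℝ) < Real.exp (4 * l) := Real.exp_pos _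
    rw [← div_le_iff₀' (by positivity)] 
    rw [div_eq_mul_inv, inv_inv]
    exact h1
  have e6 : H * 2 ^ ((P + 1) * N) / 2 ^ ((K + 2) * P * N) ≤ H * Real.exp (-(4 * l)) := by
    rw [mul_div_assoc]
    exact mul_le_mul_of_nonneg_left e5 hH
  have e7 : 0 ≤ (w : ℝ) ^ (1 / p) := by positivity
  have e8 : Real.exp (-(4 * l)) * Real.exp (3 * l) * Real.exp l = 1 := by
    rw [← Real.exp_add, ← Real.exp_add]
    have : -(4 * l) + 3 * l + l = 0 := by ring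
    rw [this, Real.exp_zero]
  have e9 : 2 * (H * Real.exp (-(4 * l))) * (C1 * Real.exp (3 * l)) ≤ η / 2 := by
    have hx : 0 < Real.exp l := Real.exp_pos l
    have h1 : 2 * (H * Real.exp (-(4 * l))) * (C1 * Real.exp (3 * l)) * Real.exp l =
        2 * H * C1 := by
      calc _ = 2 * H * C1 * (Real.exp (-(4 * l)) * Real.exp (3 * l) * Real.exp l) := by ring
        _ = _ := by rw [e8, mul_one]
    have h2 : 2 * (H * Real.exp (-(4 * l))) * (C1 * Real.exp (3 * l)) * Real.exp l ≤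
        η / 2 * Real.exp l := by
      rw [h1]; linarith
    exact le_of_mul_le_mul_right h2 hx
  calc 2 * (H * 2 ^ ((P + 1) * N) / 2 ^ ((K + 2) * P * N)) * (w : ℝ) ^ (1 / p)
      ≤ 2 * (H * Real.exp (-(4 * l))) * (C1 * Real.exp (3 * l)) := by
        apply mul_le_mul _ e4 e7 (by positivity)
        linarith
    _ ≤ η / 2 := e9

/-- the collision error -/
theorem numC (p ε l C1 : ℝ) (n w q : ℕ) (hε : 0 < ε) (hC1 : 1 ≤ C1) (hl0 : 0 ≤ l)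
    (hnl : (n : ℝ) = Real.exp l) (hw : (w : ℝ) ≤ C1 * (n : ℝ) ^ 3) (hq : 20 / ε ≤ q) :
    (2 * (q : ℝ)) ^ p * (2 / Real.exp (ε / 4 * l)) + 2 / Real.exp (ε / 4 * l) +
        (w : ℝ) * n / Real.exp (ε / 4 * l) ^ q ≤
      ((2 * (q : ℝ)) ^ p * 2 + 2) * Real.exp (-(ε / 4 * l)) + C1 * Real.exp (-(1 * l)) := by
  have e1 : (w : ℝ) * n / Real.exp (ε / 4 * l) ^ q ≤ C1 * Real.exp (-(1 * l)) := by
    rw [← Real.exp_nat_mul, div_le_iff₀ (Real.exp_pos _), mul_assoc, ← Real.exp_add]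
    have h1 : 5 * l ≤ (q : ℝ) * (ε / 4 * l) := by
      have : (5 : ℝ) ≤ q * (ε / 4) := by
        calc (5 : ℝ) = 20 / ε * (ε / 4) := by field_simp; norm_num
          _ ≤ q * (ε / 4) := mul_le_mul_of_nonneg_right hq (by positivity)
      nlinarith
    have h2 : Real.exp (4 * l) ≤ Real.exp (-(1 * l) + (q : ℝ) * (ε / 4 * l)) := by
      apply Real.exp_le_exp.2; linarith
    have h3 : (w : ℝ) * n ≤ C1 * Real.exp (4 * l) := by
      have : Real.exp (4 * l) = (n : ℝ) ^ 3 * n := by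
        rw [hnl, ← Real.exp_nat_mul, ← Real.exp_add]; congr 1; push_cast; ring
      rw [this, ← mul_assoc]
      exact mul_le_mul_of_nonneg_right hw (by positivity)
    exact h3.trans (mul_le_mul_of_nonneg_left h2 (by linarith))
  have e2 : (2 * (q : ℝ)) ^ p * (2 / Real.exp (ε / 4 * l)) + 2 / Real.exp (ε / 4 * l) =
      ((2 * (q : ℝ)) ^ p * 2 + 2) * Real.exp (-(ε / 4 * l)) := by
    rw [Real.exp_neg]; ring
  rw [e2]
  linarith

/-- the number of samples -/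
theorem numD (p ε ν l H G e : ℝ) (n N P q : ℕ) (hp : 1 ≤ p)
    (hν : ((P : ℝ) + 1) * ν * p = ε / 4) (hl0 : 0 ≤ l) (hnl : (n : ℝ) = Real.exp l) (hH : 0 ≤ H)
    (hN : (N : ℝ) ≤ ν * l + 1) (he : 0 < e) (hG0 : 0 ≤ G) (hG : G ≤ 1)
    (hF : (8 * ((q : ℝ) + 1) * H) ^ p * (2 * l + 2) ≤ Real.exp (ε / 4 * l)) :
    8 * (1 + G) ^ p * (2 * Real.exp (ε / 4 * l) * (8 * ((q : ℝ) + 1) * H * 2 ^ ((P + 1) * N)) ^ p) *
        Real.log (2 * (n : ℝ) ^ 2 + 1) / e ^ 2 ≤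
      (16 * 2 ^ p / e ^ 2 * Real.exp (((P : ℝ) + 1) * p)) * Real.exp (3 / 4 * ε * l) := by
  have hp0 : (0 : ℝ) < p := by linarith
  have hn1 : (1 : ℝ) ≤ n := by rw [hnl]; exact Real.one_le_exp hl0
  have e1 : Real.log (2 * (n : ℝ) ^ 2 + 1) ≤ 2 * l + 2 := by
    have h1 : 2 * (n : ℝ) ^ 2 + 1 ≤ Real.exp (2 * l + 2) := by
      rw [Real.exp_add]
      have h2 : Real.exp (2 * l) = (n : ℝ) ^ 2 := by
        rw [hnl, ← Real.exp_nat_mul]; norm_num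
      have h3 : (3 : ℝ) ≤ Real.exp 2 := by
        have := Real.add_one_le_exp (2 : ℝ)
        linarith
      rw [h2]
      nlinarith [one_le_pow₀ (n := 2) hn1]
    calc Real.log (2 * (n : ℝ) ^ 2 + 1) ≤ Real.log (Real.exp (2 * l + 2)) :=
          Real.log_le_log (by positivity) h1
      _ = _ := Real.log_exp _
  have e1' : 0 ≤ Real.log (2 * (n : ℝ) ^ 2 + 1) := Real.log_nonneg (by nlinarith [sq_nonneg (n : ℝ)])
  have e2 : ((2 : ℝ) ^ ((P + 1) * N)) ^ p ≤ Real.exp (((P : ℝ) + 1) * p) * Real.exp (ε / 4 * l) := by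
    have h1 : (2 : ℝ) ^ ((P + 1) * N) ≤ Real.exp (((P : ℝ) + 1) * (ν * l + 1)) := by
      calc (2 : ℝ) ^ ((P + 1) * N) ≤ (Real.exp 1) ^ ((P + 1) * N) := by
            apply pow_le_pow_left₀ (by norm_num)
            have := Real.add_one_le_exp (1 : ℝ)
            linarith
        _ = Real.exp ((((P + 1) * N : ℕ) : ℝ) * 1) := (Real.exp_nat_mul _ _).symm
        _ ≤ _ := by
            apply Real.exp_le_exp.2
            push_cast
            rw [mul_one]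
            exact mul_le_mul_of_nonneg_left hN (by positivity)
    calc ((2 : ℝ) ^ ((P + 1) * N)) ^ p ≤ (Real.exp (((P : ℝ) + 1) * (ν * l + 1))) ^ p :=
          Real.rpow_le_rpow (by positivity) h1 hp0.le
      _ = Real.exp ((((P : ℝ) + 1) * (ν * l + 1)) * p) := by rw [← Real.exp_mul]
      _ = Real.exp (((P : ℝ) + 1) * p + ε / 4 * l) := by
          congr 1
          rw [← hν]; ring
      _ = _ := Real.exp_add _ _
  have e3 : (8 * ((q : ℝ) + 1) * H * 2 ^ ((P + 1) * N)) ^ p =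
      (8 * ((q : ℝ) + 1) * H) ^ p * ((2 : ℝ) ^ ((P + 1) * N)) ^ p :=
    Real.mul_rpow (by positivity) (by positivity)
  have e4 : (1 + G) ^ p ≤ 2 ^ p := Real.rpow_le_rpow (by linarith) (by linarith) hp0.le
  have e5 : 3 / 4 * ε * l = ε / 4 * l + ε / 4 * l + ε / 4 * l := by ring
  set E := Real.exp (ε / 4 * l) with hE
  have hE0 : 0 < E := Real.exp_pos _
  have e6 : Real.exp (3 / 4 * ε * l) = E * E * E := by
    rw [e5, Real.exp_add, Real.exp_add]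
  set a := (8 * ((q : ℝ) + 1) * H) ^ p with ha
  have ha0 : 0 ≤ a := by positivity
  set b := ((2 : ℝ) ^ ((P + 1) * N)) ^ p with hb
  have hb0 : 0 ≤ b := by positivity
  set c := Real.exp (((P : ℝ) + 1) * p) with hc
  have hc0 : 0 < c := Real.exp_pos _
  have e7 : a * Real.log (2 * (n : ℝ) ^ 2 + 1) ≤ E :=
    (mul_le_mul_of_nonneg_left e1 ha0).trans hF
  have e8 : (a * Real.log (2 * (n : ℝ) ^ 2 + 1)) * b ≤ E * (c * E) :=
    mul_le_mul e7 e2 hb0 hE0.le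
  rw [e3, e6, div_le_iff₀ (by positivity)]
  have e9 : 0 ≤ (a * Real.log (2 * (n : ℝ) ^ 2 + 1)) * b := by positivity
  calc 8 * (1 + G) ^ p * (2 * E * (a * b)) * Real.log (2 * (n : ℝ) ^ 2 + 1)
      = (16 * (1 + G) ^ p) * E * ((a * Real.log (2 * (n : ℝ) ^ 2 + 1)) * b) := by ring
    _ ≤ (16 * 2 ^ p) * E * (E * (c * E)) := by
        apply mul_le_mul _ e8 e9 (by positivity)
        apply mul_le_mul_of_nonneg_right _ hE0.le
        linarith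
    _ = _ := by
        field_simp

/-- the error terms of the windows -/
theorem numE (p ε l C1 η k g e G : ℝ) (K : ℕ) (hp : 1 ≤ p) (hη0 : 0 < η) (hk0 : 0 ≤ k)
    (hG0 : 0 ≤ G) (hG1 : G ≤ 1)
    (hC2 : k ≤ g * Real.exp (-(ε / 4 * l)) + C1 * Real.exp (-(1 * l)))
    (F3 : 0 * l + ((K : ℝ) + 2) * 2 ^ p * g ≤ η / 4 * Real.exp (ε / 4 * l))
    (F3' : 0 * l + ((K : ℝ) + 2) * 2 ^ p * C1 ≤ η / 4 * Real.exp (1 * l))
    (hη1 : η ≤ 1 / 2) (hJe : ((K : ℝ) + 2) * e = η / 2) :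
    k ≤ 1 ∧ ((K : ℝ) + 2) * (k * (1 + G) ^ p + e) ≤ η := by
  have hp0 : (0 : ℝ) < p := by linarith
  have h2p : (1 : ℝ) ≤ 2 ^ p := Real.one_le_rpow (by norm_num) hp0.le
  have hkJ : ((K : ℝ) + 2) * 2 ^ p * k ≤ η / 2 := by
    have a1 : ((K : ℝ) + 2) * 2 ^ p * (g * Real.exp (-(ε / 4 * l))) ≤ η / 4 := by
      rw [zero_mul, zero_add] at F3
      have hx : 0 < Real.exp (ε / 4 * l) := Real.exp_pos _
      rw [Real.exp_neg, ← mul_assoc, ← div_eq_mul_inv, div_le_iff₀ hx]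
      exact F3
    have a2 : ((K : ℝ) + 2) * 2 ^ p * (C1 * Real.exp (-(1 * l))) ≤ η / 4 := by
      rw [zero_mul, zero_add] at F3'
      have hx : 0 < Real.exp (1 * l) := Real.exp_pos _
      rw [Real.exp_neg, ← mul_assoc, ← div_eq_mul_inv, div_le_iff₀ hx]
      exact F3'
    have a3 : ((K : ℝ) + 2) * 2 ^ p * k ≤ ((K : ℝ) + 2) * 2 ^ p *
        (g * Real.exp (-(ε / 4 * l)) + C1 * Real.exp (-(1 * l))) :=
      mul_le_mul_of_nonneg_left hC2 (by positivity)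
    rw [mul_add] at a3
    linarith
  have hk1 : k ≤ 1 := by
    have b1 : (1 : ℝ) ≤ ((K : ℝ) + 2) * 2 ^ p := by
      have : (0 : ℝ) ≤ K := by positivity
      nlinarith
    have b2 : k ≤ ((K : ℝ) + 2) * 2 ^ p * k := by nlinarith
    linarith
  have hpow2 : (1 + G) ^ p ≤ 2 ^ p := Real.rpow_le_rpow (by linarith) (by linarith) hp0.le
  refine ⟨hk1, ?_⟩
  have b1 : ((K : ℝ) + 2) * (k * (1 + G) ^ p) ≤ ((K : ℝ) + 2) * 2 ^ p * k := by
    have : k * (1 + G) ^ p ≤ k * 2 ^ p := mul_le_mul_of_nonneg_left hpow2 hk0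
    have h3 : ((K : ℝ) + 2) * (k * (1 + G) ^ p) ≤ ((K : ℝ) + 2) * (k * 2 ^ p) :=
      mul_le_mul_of_nonneg_left this (by positivity)
    linarith
  have : ((K : ℝ) + 2) * (k * (1 + G) ^ p + e) = ((K : ℝ) + 2) * (k * (1 + G) ^ p) + ((K : ℝ) + 2) * e := by
    ring
  rw [this, hJe]
  linarith

/-- the two-sided bound -/
theorem numF (p D η G E Pi : ℝ) (hp : 1 ≤ p) (hη0 : 0 < η) (hη1 : η ≤ 1 / 2) (hD : 1 < D)
    (hη : (1 + η) ^ p + η ≤ D ^ p * ((1 - η) * (1 - η) ^ p - η)) (hG0 : 0 ≤ G) (hGη : G ≤ η / 2)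
    (hE0 : 0 ≤ E) (hE : E ≤ η) (hPi : Pi ≤ η) :
    (1 + G) ^ p + E ≤ D ^ p * ((1 - Pi) * (1 - η) ^ p - E) ∧
      0 < (1 - Pi) * (1 - η) ^ p - E := by
  have hp0 : (0 : ℝ) < p := by linarith
  have hDp : 0 < D ^ p := by positivity
  have hpowη : (1 + G) ^ p ≤ (1 + η) ^ p := Real.rpow_le_rpow (by linarith) (by linarith) hp0.le
  have hmain : (1 + G) ^ p + E ≤ D ^ p * ((1 - Pi) * (1 - η) ^ p - E) := by
    have c1 : (1 - η) * (1 - η) ^ p ≤ (1 - Pi) * (1 - η) ^ p := by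
      apply mul_le_mul_of_nonneg_right _ (Real.rpow_nonneg (by linarith) _)
      linarith
    calc _ ≤ (1 + η) ^ p + η := by linarith
      _ ≤ _ := hη
      _ ≤ _ := by
        apply mul_le_mul_of_nonneg_left _ hDp.le
        linarith
  refine ⟨hmain, ?_⟩
  have hup0 : 0 < (1 + G) ^ p + E := by positivity
  by_contra hcon
  have := mul_nonpos_of_nonneg_of_nonpos hDp.le (not_lt.1 hcon)
  linarith

/-- the number of samples, as a natural number -/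
theorem numM (p ε ν l H G e : ℝ) (n N P q K : ℕ) (hp : 1 ≤ p) (hε : 0 < ε)
    (hν : ((P : ℝ) + 1) * ν * p = ε / 4) (hl0 : 0 < l) (hnl : (n : ℝ) = Real.exp l) (hH : 0 < H)
    (hN : (N : ℝ) ≤ ν * l + 1) (he : 0 < e) (hG0 : 0 ≤ G) (hG : G ≤ 1)
    (hF : (8 * ((q : ℝ) + 1) * H) ^ p * (2 * l + 2) ≤ Real.exp (ε / 4 * l)) :
    ∃ M : ℕ, 0 < M ∧ 8 * (1 + G) ^ p *
      (2 * Real.exp (ε / 4 * l) * (8 * ((q : ℝ) + 1) * H * 2 ^ ((P + 1) * N)) ^ p) *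
        Real.log (2 * (n : ℝ) ^ 2 + 1) ≤ e ^ 2 * M ∧
      ((P * (K + 2) * M : ℕ) : ℝ) ≤ ((P : ℝ) * (K + 2) *
        (16 * 2 ^ p / e ^ 2 * Real.exp (((P : ℝ) + 1) * p) + 1)) * (n : ℝ) ^ ε := by
  have hD3 := numD p ε ν l H G e n N P q hp hν hl0.le hnl hH.le hN he hG0 hG hF
  have hn0 : (0 : ℝ) < n := by rw [hnl]; exact Real.exp_pos _
  obtain ⟨X, hX⟩ : ∃ X : ℝ, X = 8 * (1 + G) ^ p *
    (2 * Real.exp (ε / 4 * l) * (8 * ((q : ℝ) + 1) * H * 2 ^ ((P + 1) * N)) ^ p) *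
        Real.log (2 * (n : ℝ) ^ 2 + 1) / e ^ 2 := ⟨_, rfl⟩
  rw [← hX] at hD3
  have hlogpos : 0 < Real.log (2 * (n : ℝ) ^ 2 + 1) :=
    Real.log_pos (by nlinarith [sq_nonneg (n : ℝ), hn0])
  have hX0 : 0 < X := by rw [hX]; positivity
  have hXe : 8 * (1 + G) ^ p *
      (2 * Real.exp (ε / 4 * l) * (8 * ((q : ℝ) + 1) * H * 2 ^ ((P + 1) * N)) ^ p) *
        Real.log (2 * (n : ℝ) ^ 2 + 1) = e ^ 2 * X := by
    rw [hX, mul_div_cancel₀ _ (by positivity)]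
  rw [hXe]
  clear hXe hX hF
  refine ⟨⌈X⌉₊, Nat.ceil_pos.2 hX0, mul_le_mul_of_nonneg_left (Nat.le_ceil _) (by positivity), ?_⟩
  have hM2 : ((⌈X⌉₊ : ℕ) : ℝ) ≤ X + 1 := (Nat.ceil_lt_add_one hX0.le).le
  push_cast
  have d1 : Real.exp (3 / 4 * ε * l) ≤ (n : ℝ) ^ ε := by
    rw [hnl, ← Real.exp_mul]
    apply Real.exp_le_exp.2
    nlinarith [mul_pos hε hl0]
  have d2 : (1 : ℝ) ≤ (n : ℝ) ^ ε :=
    Real.one_le_rpow (by rw [hnl]; exact Real.one_le_exp hl0.le) hε.le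
  obtain ⟨c, hc⟩ : ∃ c : ℝ, c = 16 * 2 ^ p / e ^ 2 * Real.exp (((P : ℝ) + 1) * p) := ⟨_, rfl⟩
  have hc0 : 0 ≤ c := by rw [hc]; positivity
  rw [← hc] at hD3 ⊢
  have d3 : ((⌈X⌉₊ : ℕ) : ℝ) ≤ (c + 1) * (n : ℝ) ^ ε := by
    have : c * Real.exp (3 / 4 * ε * l) ≤ c * (n : ℝ) ^ ε := mul_le_mul_of_nonneg_left d1 hc0
    linarith
  calc (P : ℝ) * (K + 2) * (⌈X⌉₊ : ℕ) ≤ (P : ℝ) * (K + 2) * ((c + 1) * (n : ℝ) ^ ε) :=
        mul_le_mul_of_nonneg_left d3 (by positivity)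
    _ = _ := by ring

/-- the statement for one `n` -/
theorem numG (p D ε C1 η ν B e g l H : ℝ) (P K q n w : ℕ) (hp : 1 ≤ p) (hD : 1 < D)
    (hε : 0 < ε) (hC1 : 1 ≤ C1) (hη0 : 0 < η) (hη1 : η ≤ 1 / 2)
    (hη : (1 + η) ^ p + η ≤ D ^ p * ((1 - η) * (1 - η) ^ p - η)) (hP0 : 0 < P)
    (hPinv : 1 / (P : ℝ) ≤ η) (hν0 : 0 < ν) (hνe : ((P : ℝ) + 1) * ν * p = ε / 4)
    (hK : 8 / ν ≤ K) (hq : 20 / ε ≤ q) (hB : 0 ≤ B) (he0 : 0 < e)
    (hJe : ((K : ℝ) + 2) * e = η / 2) (hg : g = (2 * (q : ℝ)) ^ p * 2 + 2)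
    (hw : (w : ℝ) ≤ C1 * (n : ℝ) ^ 3) (hnl : (n : ℝ) = Real.exp l)
    (hH : H = η * ν / 64 * l + B)
    (F1 : 16 * B ≤ η * ν / 4 * l)
    (F2 : 4 * C1 * (η * ν / 64) * l + 4 * C1 * B ≤ η * Real.exp (1 * l))
    (F3 : 0 * l + ((K : ℝ) + 2) * 2 ^ p * g ≤ η / 4 * Real.exp (ε / 4 * l))
    (F3' : 0 * l + ((K : ℝ) + 2) * 2 ^ p * C1 ≤ η / 4 * Real.exp (1 * l))
    (F4 : (8 * ((q : ℝ) + 1) * (η * ν / 64 * l + B)) ^ p * (2 * l + 2) ≤ Real.exp (ε / 4 * l))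
    (F5 : 1 ≤ l) :
    ∃ (N J M : ℕ) (Rf k z : ℝ), 0 < H ∧ 0 < N ∧ 0 < J ∧ 0 < M ∧ 1 ≤ Rf ∧
        (2 * (q : ℝ)) ^ p * (2 / Rf) + 2 / Rf + (w : ℝ) * n / Rf ^ q ≤ k ∧ k ≤ 1 ∧
        8 * (1 + 16 * H / N) ^ p * (2 * Rf * (8 * ((q : ℝ) + 1) * H * 2 ^ ((P + 1) * N)) ^ p) *
          Real.log (2 * (n : ℝ) ^ 2 + 1) ≤ e ^ 2 * M ∧
        ((P * J * M : ℕ) : ℝ) ≤ ((P : ℝ) * (K + 2) *
          (16 * 2 ^ p / e ^ 2 * Real.exp (((P : ℝ) + 1) * p) + 1)) * (n : ℝ) ^ ε ∧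
        0 ≤ z ∧
        z ≤ 1 - 16 * H / N - 2 * (H * 2 ^ ((P + 1) * N) / 2 ^ (J * P * N)) * (w : ℝ) ^ (1 / p) ∧
        0 < (1 - 1 / (P : ℝ)) * z ^ p - J * (k * (1 + 16 * H / N) ^ p + e) ∧
        (1 + 16 * H / N) ^ p + J * (k * (1 + 16 * H / N) ^ p + e) ≤
          D ^ p * ((1 - 1 / (P : ℝ)) * z ^ p - J * (k * (1 + 16 * H / N) ^ p + e)) := by
  have hl0 : 0 < l := by linarith
  have hH0 : 0 < H := by rw [hH]; positivity
  obtain ⟨N, hNdef⟩ : ∃ N : ℕ, N = ⌈ν * l⌉₊ := ⟨_, rfl⟩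
  have hN1 : ν * l ≤ N := by rw [hNdef]; exact Nat.le_ceil _
  have hN2 : (N : ℝ) ≤ ν * l + 1 := by rw [hNdef]; exact (Nat.ceil_lt_add_one (by positivity)).le
  have hN0 : 0 < N := by rw [hNdef]; exact Nat.ceil_pos.2 (by positivity)
  have hN0' : (0 : ℝ) < N := by exact_mod_cast hN0
  obtain ⟨G, hGdef⟩ : ∃ G : ℝ, G = 16 * H / N := ⟨_, rfl⟩
  have hG0 : 0 ≤ G := by rw [hGdef]; positivity
  have hGη : G ≤ η / 2 := by
    rw [hGdef, div_le_iff₀ hN0']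
    have : η / 2 * (ν * l) ≤ η / 2 * N := mul_le_mul_of_nonneg_left hN1 (by positivity)
    rw [hH]
    nlinarith
  have hG1 : G ≤ 1 := by linarith
  have hB1 := numB p η ν l H C1 n w N P K hp hν0 hC1 hl0.le hnl hH0.le hw hN1 hP0 hK (by
    rw [hH]
    have : 4 * (η * ν / 64 * l + B) * C1 = 4 * C1 * (η * ν / 64) * l + 4 * C1 * B := by ring
    rw [this]
    rw [one_mul] at F2
    exact F2)
  have hF4' : (8 * ((q : ℝ) + 1) * H) ^ p * (2 * l + 2) ≤ Real.exp (ε / 4 * l) := by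
    rw [hH]; exact F4
  obtain ⟨M, hM0, hM1, hM2⟩ :=
    numM p ε ν l H G e n N P q K hp hε hνe hl0 hnl hH0 hN2 he0 hG0 hG1 hF4'
  have hC2 := numC p ε l C1 n w q hε hC1 hl0.le hnl hw hq
  obtain ⟨k, hk⟩ : ∃ k : ℝ, k = (2 * (q : ℝ)) ^ p * (2 / Real.exp (ε / 4 * l)) +
    2 / Real.exp (ε / 4 * l) + (w : ℝ) * n / Real.exp (ε / 4 * l) ^ q := ⟨_, rfl⟩
  rw [← hk, ← hg] at hC2
  have hk0 : 0 ≤ k := by rw [hk]; positivity
  obtain ⟨hk1, herr⟩ := numE p ε l C1 η k g e G K hp hη0 hk0 hG0 hG1 hC2 F3 F3' hη1 hJe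
  obtain ⟨hmain, hlo⟩ := numF p D η G (((K : ℝ) + 2) * (k * (1 + G) ^ p + e)) (1 / (P : ℝ))
    hp hη0 hη1 hD hη hG0 hGη (by positivity) herr hPinv
  have hcast : ((K + 2 : ℕ) : ℝ) = (K : ℝ) + 2 := by push_cast; ring
  refine ⟨N, K + 2, M, Real.exp (ε / 4 * l), k, 1 - η, hH0, hN0, by positivity, hM0,
    Real.one_le_exp (by positivity), hk.ge, hk1, ?_, ?_, by linarith, ?_, ?_, ?_⟩
  · rw [← hGdef]; exact hM1
  · exact hM2
  · rw [← hGdef]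
    linarith
  · rw [← hGdef, hcast]; exact hlo
  · rw [← hGdef, hcast]; exact hmain

/-- **Choice of the parameters.** -/
theorem num (p D ε C1 : ℝ) (hp : 1 ≤ p) (hD : 1 < D) (hε : 0 < ε) (hC1 : 1 ≤ C1) :
    ∃ δ : ℝ, 0 < δ ∧ ∀ B : ℝ, 0 ≤ B → ∃ (C : ℝ) (n0 P q : ℕ) (e : ℝ), 0 < C ∧ 2 ≤ n0 ∧ 0 < P ∧
      0 < e ∧ e ≤ 1 ∧
      ∀ n w : ℕ, n0 ≤ n → (w : ℝ) ≤ C1 * (n : ℝ) ^ 3 → ∀ H : ℝ, H = δ * Real.log n + B →
      ∃ (N J M : ℕ) (Rf k z : ℝ), 0 < H ∧ 0 < N ∧ 0 < J ∧ 0 < M ∧ 1 ≤ Rf ∧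
        (2 * (q : ℝ)) ^ p * (2 / Rf) + 2 / Rf + (w : ℝ) * n / Rf ^ q ≤ k ∧ k ≤ 1 ∧
        8 * (1 + 16 * H / N) ^ p * (2 * Rf * (8 * ((q : ℝ) + 1) * H * 2 ^ ((P + 1) * N)) ^ p) *
          Real.log (2 * (n : ℝ) ^ 2 + 1) ≤ e ^ 2 * M ∧
        ((P * J * M : ℕ) : ℝ) ≤ C * (n : ℝ) ^ ε ∧
        0 ≤ z ∧
        z ≤ 1 - 16 * H / N - 2 * (H * 2 ^ ((P + 1) * N) / 2 ^ (J * P * N)) * (w : ℝ) ^ (1 / p) ∧
        0 < (1 - 1 / (P : ℝ)) * z ^ p - J * (k * (1 + 16 * H / N) ^ p + e) ∧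
        (1 + 16 * H / N) ^ p + J * (k * (1 + 16 * H / N) ^ p + e) ≤
          D ^ p * ((1 - 1 / (P : ℝ)) * z ^ p - J * (k * (1 + 16 * H / N) ^ p + e)) := by
  have hp0 : (0 : ℝ) < p := by linarith
  obtain ⟨η, hη0, hη1, hη⟩ := eta_exists p D hp hD
  obtain ⟨P, hPdef⟩ : ∃ P : ℕ, P = ⌈1 / η⌉₊ := ⟨_, rfl⟩
  have hPη : 1 / η ≤ P := by rw [hPdef]; exact Nat.le_ceil _
  have hP0 : 0 < P := by rw [hPdef]; exact Nat.ceil_pos.2 (by positivity)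
  have hP0' : (0 : ℝ) < P := by exact_mod_cast hP0
  have hPinv : 1 / (P : ℝ) ≤ η := by
    rw [div_le_iff₀ hP0']
    rw [div_le_iff₀ hη0] at hPη
    linarith
  obtain ⟨ν, hνdef⟩ : ∃ ν : ℝ, ν = ε / (4 * (((P : ℝ) + 1) * p)) := ⟨_, rfl⟩
  have hν0 : 0 < ν := by rw [hνdef]; positivity
  have hνe : ((P : ℝ) + 1) * ν * p = ε / 4 := by
    rw [hνdef]; field_simp
  obtain ⟨K, hK⟩ : ∃ K : ℕ, 8 / ν ≤ K := ⟨_, Nat.le_ceil _⟩
  obtain ⟨q, hq⟩ : ∃ q : ℕ, 20 / ε ≤ q := ⟨_, Nat.le_ceil _⟩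
  refine ⟨η * ν / 64, by positivity, fun B hB => ?_⟩
  obtain ⟨e, hedef⟩ : ∃ e : ℝ, e = η / (2 * ((K : ℝ) + 2)) := ⟨_, rfl⟩
  have hK2 : (0 : ℝ) < (K : ℝ) + 2 := by positivity
  have he0 : 0 < e := by rw [hedef]; positivity
  have he1 : e ≤ 1 := by
    rw [hedef, div_le_one (by positivity)]
    have : (0 : ℝ) ≤ K := by positivity
    linarith
  have hJe : ((K : ℝ) + 2) * e = η / 2 := by
    rw [hedef]; field_simp
  -- the eventual facts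
  obtain ⟨g, hg⟩ : ∃ g : ℝ, g = (2 * (q : ℝ)) ^ p * 2 + 2 := ⟨_, rfl⟩
  have E1 : ∀ᶠ l : ℝ in atTop, 16 * B ≤ η * ν / 4 * l := by
    filter_upwards [eventually_ge_atTop (16 * B / (η * ν / 4))] with l hl
    rw [div_le_iff₀ (by positivity)] at hl
    linarith
  have E2 := ev_lin (4 * C1 * (η * ν / 64)) (4 * C1 * B) η 1 one_pos hη0
  have E3 := ev_lin 0 (((K : ℝ) + 2) * 2 ^ p * g) (η / 4) (ε / 4) (by positivity) (by positivity)
  have E3' := ev_lin 0 (((K : ℝ) + 2) * 2 ^ p * C1) (η / 4) 1 one_pos (by positivity)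
  have E4 := ev_poly p (η * ν / 64) B (8 * ((q : ℝ) + 1)) (ε / 4) hp (by positivity) hB
    (by positivity) (by positivity)
  have Eall := ((((E1.and E2).and E3).and E3').and E4).and (eventually_ge_atTop (1 : ℝ))
  have Elog : Tendsto (fun n : ℕ => Real.log n) atTop atTop :=
    Real.tendsto_log_atTop.comp tendsto_natCast_atTop_atTop
  obtain ⟨n1, hn1⟩ := eventually_atTop.1 (Elog.eventually Eall)
  refine ⟨(P : ℝ) * (K + 2) * (16 * 2 ^ p / e ^ 2 * Real.exp (((P : ℝ) + 1) * p) + 1), max n1 2,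
    P, q, e, by positivity, le_max_right _ _, hP0, he0, he1, fun n w hn hw H hH => ?_⟩
  obtain ⟨⟨⟨⟨⟨F1, F2⟩, F3⟩, F3'⟩, F4⟩, F5⟩ := hn1 n ((le_max_left _ _).trans hn)
  have hn2 : 2 ≤ n := (le_max_right _ _).trans hn
  have hnpos : (0 : ℝ) < n := by positivity
  exact numG p D ε C1 η ν B e g (Real.log n) H P K q n w hp hD hε hC1 hη0 hη1 hη hP0 hPinv hν0 hνe
    hK hq hB he0 hJe hg hw (Real.exp_log hnpos).symm hH F1 F2 F3 F3' F4 F5

end Vale.Agent.Lib.P249
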