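import Mathlib

/-! P249 MODULE RAND (random sparse sums).

Theta = Finset (Fin m), w S = rho^|S| (1-rho)^(m-|S|), rho = kap / M (rho <= 1).
S is good if |S ∩ Act a| <= K0 for every a. Y S a = rho^(-1/p) * sum_{i in S} u i a if S is good, and
 0 otherwise.
Facts: sum_S w S = 1; sum_{S ⊇ T} w S = rho^|T|; sum over S with S ∩ A = {i} (i in A) of
 w S is rho (1-rho)^(|A|-1) >= rho (1 - (|A|-1) rho); here A = Act a ∪ Act b, |A| <= 2M.
 sup bound: only i in S ∩ (Act a ∪ Act b) contribute, at most 2 K0 of them.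
 Upper bound: |sum_{i in S∩A} z_i|^p <= k^(p-1) sum_{i in S ∩ A} |z_i|^p, k = |S ∩ A|,
  k^(p-1) <= exp((p-1)(k-1)); sum_{S ∋ i} w S exp((p-1)|(S∩A) \ i|) <= rho (1 + rho (e^(p-1) - 1))^(2M)
  <= rho exp(2 kap e^(p-1)).
 Lower bound: events S ∩ A = {i} are disjoint for different i; minus the bad ones: for fixed i the
  weight of {S ∋ i, S bad} is at most sum_c sum over K0-subsets T of Act c \ {i} of rho^(K0+1)
  <= rho * card V * (M rho)^K0 = rho * card V * kap^K0. -/

open Finset

namespace P249

/-- the weight of a set -/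
noncomputable def randWt {m : ℕ} (ρ : ℝ) (S : Finset (Fin m)) : ℝ := ρ ^ S.card * (1 - ρ) ^ Sᶜ.card

theorem randWt_nonneg {m : ℕ} {ρ : ℝ} (h0 : 0 ≤ ρ) (h1 : ρ ≤ 1) (S : Finset (Fin m)) :
    0 ≤ randWt ρ S := by
  unfold randWt
  have : 0 ≤ 1 - ρ := by linarith
  positivity

theorem randWt_sum {m : ℕ} (ρ : ℝ) : ∑ S : Finset (Fin m), randWt ρ S = 1 := by
  have h := Fintype.prod_add (fun _ : Fin m => ρ) (fun _ : Fin m => 1 - ρ)
  simp only [prod_const, add_sub_cancel, one_pow] at h
  exact h.symm

theorem rand_prod_aux {m : ℕ} (ρ X : ℝ) (i : Fin m) (B : Finset (Fin m)) (hi : i ∉ B) :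
    ∏ j, (if j = i then ρ else if j ∈ B then X else 1) = ρ * X ^ B.card := by
  rw [← mul_prod_erase univ _ (mem_univ i), if_pos rfl]
  congr 1
  have : ∀ j ∈ univ.erase i, (if j = i then ρ else if j ∈ B then X else 1) =
      if j ∈ B then X else 1 := by
    intro j hj
    rw [if_neg (ne_of_mem_erase hj)]
  rw [prod_congr rfl this, prod_ite, prod_const_one, mul_one, prod_const]
  congr 2
  ext j
  simp only [mem_filter, mem_erase, mem_univ, and_true]
  constructor
  · rintro ⟨_, h⟩; exact h
  · intro h; exact ⟨fun e => hi (e ▸ h), h⟩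

theorem randWt_superset {m : ℕ} (ρ : ℝ) (T : Finset (Fin m)) :
    ∑ S : Finset (Fin m), (if T ⊆ S then randWt ρ S else 0) = ρ ^ T.card := by
  have h := Fintype.prod_add (fun _ : Fin m => ρ) (fun j : Fin m => if j ∉ T then 1 - ρ else 0)
  have h1 : ∏ j : Fin m, (ρ + if j ∉ T then 1 - ρ else 0) = ρ ^ T.card := by
    have : ∀ j : Fin m, (ρ + if j ∉ T then 1 - ρ else 0) = if j ∈ T then ρ else 1 := by
      intro j; by_cases hj : j ∈ T <;> simp [hj]
    simp only [this]
    rw [prod_ite, prod_const_one, mul_one, prod_const]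
    congr 2
    ext j; simp
  rw [← h1, h]
  refine sum_congr rfl fun S _ => ?_
  rw [prod_ite_zero, prod_const, prod_const]
  have e : (∀ j ∈ Sᶜ, j ∉ T) ↔ T ⊆ S := by
    constructor
    · intro h j hj
      by_contra hS
      exact h j (mem_compl.mpr hS) hj
    · intro h j hj hT
      exact (mem_compl.mp hj) (h hT)
  simp only [e]
  split_ifs
  · rfl
  · simp

theorem randWt_only {m : ℕ} (ρ : ℝ) (i : Fin m) (B : Finset (Fin m)) (hi : i ∉ B) :
    ∑ S : Finset (Fin m), (if i ∈ S ∧ ∀ j ∈ S, j ∉ B then randWt ρ S else 0) =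
      ρ * (1 - ρ) ^ B.card := by
  have h := Fintype.prod_add (fun j : Fin m => if j ∉ B then ρ else 0)
    (fun j : Fin m => if j ≠ i then 1 - ρ else 0)
  have h1 : ∏ j : Fin m, ((if j ∉ B then ρ else 0) + if j ≠ i then 1 - ρ else 0) =
      ρ * (1 - ρ) ^ B.card := by
    rw [← rand_prod_aux ρ (1 - ρ) i B hi]
    refine prod_congr rfl fun j _ => ?_
    by_cases hj : j = i
    · simp [hj, hi]
    · by_cases hB : j ∈ B <;> simp [hj, hB]
  rw [← h1, h]
  refine sum_congr rfl fun S _ => ?_
  rw [prod_ite_zero, prod_ite_zero, prod_const, prod_const]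
  have e : (∀ j ∈ Sᶜ, j ≠ i) ↔ i ∈ S := by
    constructor
    · intro h
      by_contra hS
      exact h i (mem_compl.mpr hS) rfl
    · intro h j hj hji
      exact (mem_compl.mp hj) (hji ▸ h)
  simp only [e]
  by_cases h2 : i ∈ S <;> by_cases h3 : ∀ j ∈ S, j ∉ B
  · rw [if_pos ⟨h2, h3⟩, if_pos h3, if_pos h2]; rfl
  · rw [if_neg (fun h => h3 h.2), if_neg h3, zero_mul]
  · rw [if_neg (fun h => h2 h.1), if_neg h2, mul_zero]
  · rw [if_neg (fun h => h3 h.2), if_neg h3, zero_mul]

theorem randWt_exp {m : ℕ} (ρ E : ℝ) (i : Fin m) (B : Finset (Fin m)) (hi : i ∉ B) :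
    ∑ S : Finset (Fin m), (if i ∈ S then randWt ρ S * E ^ (S ∩ B).card else 0) =
      ρ * (1 - ρ + ρ * E) ^ B.card := by
  have h := Fintype.prod_add (fun j : Fin m => ρ * (if j ∈ B then E else 1))
    (fun j : Fin m => if j ≠ i then 1 - ρ else 0)
  have h1 : ∏ j : Fin m, ((ρ * (if j ∈ B then E else 1)) + if j ≠ i then 1 - ρ else 0) =
      ρ * (1 - ρ + ρ * E) ^ B.card := by
    rw [← rand_prod_aux ρ (1 - ρ + ρ * E) i B hi]
    refine prod_congr rfl fun j _ => ?_
    by_cases hj : j = i
    · simp [hj, hi]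
    · by_cases hB : j ∈ B
      · simp [hj, hB]; ring
      · simp [hj, hB]
  rw [← h1, h]
  refine sum_congr rfl fun S _ => ?_
  rw [prod_ite_zero, prod_mul_distrib, prod_const, prod_const, prod_ite, prod_const_one, mul_one,
    prod_const]
  have e : (∀ j ∈ Sᶜ, j ≠ i) ↔ i ∈ S := by
    constructor
    · intro h
      by_contra hS
      exact h i (mem_compl.mpr hS) rfl
    · intro h j hj hji
      exact (mem_compl.mp hj) (hji ▸ h)
  have e2 : (filter (fun j => j ∈ B) S) = S ∩ B := by
    ext j; simp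
  rw [e2]
  simp only [e]
  split_ifs
  · unfold randWt; ring
  · simp

/-- the set is bad: some point has more than `K0` active coordinates in it -/
def RandBad {V : Type} {m : ℕ} (Act : V → Finset (Fin m)) (K0 : ℕ) (S : Finset (Fin m)) : Prop :=
  ∃ c, K0 < (S ∩ Act c).card

open Classical in
/-- weight of the bad sets containing `i` -/
theorem rand_bad {V : Type} [Fintype V] {m : ℕ} (Act : V → Finset (Fin m)) (M κ : ℝ)
    (hM : 1 ≤ M) (hκ : 0 < κ) (hκ1 : κ ≤ 1) (K0 : ℕ) (hAct : ∀ a, ((Act a).card : ℝ) ≤ M)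
    (i : Fin m) :
    ∑ S : Finset (Fin m), (if i ∈ S ∧ RandBad Act K0 S then randWt (κ / M) S else 0) ≤
      κ / M * (Fintype.card V * κ ^ K0) := by
  have hM0 : 0 < M := by linarith
  set ρ := κ / M with hρ
  have hρ0 : 0 < ρ := by positivity
  have hρ1 : ρ ≤ 1 := by rw [hρ, div_le_one hM0]; linarith
  have h1 : ∀ S : Finset (Fin m), (if i ∈ S ∧ RandBad Act K0 S then randWt ρ S else 0) ≤
      ∑ c : V, ∑ T ∈ ((Act c).erase i).powersetCard K0,
        (if insert i T ⊆ S then randWt ρ S else 0) := by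
    intro S
    have hnn : ∀ (c : V) (T : Finset (Fin m)), 0 ≤ (if insert i T ⊆ S then randWt ρ S else 0) := by
      intro c T
      split_ifs
      · exact randWt_nonneg hρ0.le hρ1 S
      · exact le_refl _
    by_cases h : i ∈ S ∧ RandBad Act K0 S
    · rw [if_pos h]
      obtain ⟨hi, c, hc⟩ := h
      have hc2 : K0 ≤ ((S ∩ Act c).erase i).card := by
        have := pred_card_le_card_erase (s := S ∩ Act c) (a := i)
        omega
      obtain ⟨T, hT, hTc⟩ := exists_subset_card_eq hc2
      have hTm : T ∈ ((Act c).erase i).powersetCard K0 := by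
        rw [mem_powersetCard]
        refine ⟨fun j hj => ?_, hTc⟩
        have := hT hj
        rw [mem_erase, mem_inter] at this
        rw [mem_erase]
        exact ⟨this.1, this.2.2⟩
      have hTS : insert i T ⊆ S := by
        intro j hj
        rw [mem_insert] at hj
        rcases hj with rfl | hj
        · exact hi
        · have := hT hj
          rw [mem_erase, mem_inter] at this
          exact this.2.1
      calc randWt ρ S = (if insert i T ⊆ S then randWt ρ S else 0) := by rw [if_pos hTS]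
        _ ≤ ∑ T ∈ ((Act c).erase i).powersetCard K0, (if insert i T ⊆ S then randWt ρ S else 0) :=
            single_le_sum (f := fun T => if insert i T ⊆ S then randWt ρ S else 0)
              (fun T _ => hnn c T) hTm
        _ ≤ _ := single_le_sum (f := fun c => ∑ T ∈ ((Act c).erase i).powersetCard K0,
            (if insert i T ⊆ S then randWt ρ S else 0)) (fun c _ => sum_nonneg fun T _ => hnn c T)
            (mem_univ c)
    · rw [if_neg h]
      exact sum_nonneg fun c _ => sum_nonneg fun T _ => hnn c T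
  refine (sum_le_sum fun S _ => h1 S).trans ?_
  rw [sum_comm]
  have h2 : ∀ c : V, ∑ S : Finset (Fin m), ∑ T ∈ ((Act c).erase i).powersetCard K0,
        (if insert i T ⊆ S then randWt ρ S else 0) ≤ ρ * κ ^ K0 := by
    intro c
    rw [sum_comm]
    have h3 : ∀ T ∈ ((Act c).erase i).powersetCard K0,
        ∑ S : Finset (Fin m), (if insert i T ⊆ S then randWt ρ S else 0) = ρ ^ (K0 + 1) := by
      intro T hT
      rw [randWt_superset]
      rw [mem_powersetCard] at hT
      have : i ∉ T := fun h => (mem_erase.mp (hT.1 h)).1 rfl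
      rw [card_insert_of_notMem this, hT.2]
    rw [sum_congr rfl h3, sum_const, card_powersetCard, nsmul_eq_mul]
    have h4 : ((((Act c).erase i).card.choose K0 : ℕ) : ℝ) ≤ M ^ K0 := by
      have h5 : ((((Act c).erase i).card.choose K0 : ℕ) : ℝ) ≤ (((Act c).card.choose K0 : ℕ) : ℝ) := by
        exact_mod_cast Nat.choose_le_choose _ (card_le_card (erase_subset _ _))
      refine h5.trans ((Nat.choose_le_pow_div K0 _).trans ?_)
      refine (div_le_self (by positivity)
        (by exact_mod_cast Nat.one_le_iff_ne_zero.mpr (Nat.factorial_ne_zero _))).trans ?_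
      exact pow_le_pow_left₀ (Nat.cast_nonneg _) (hAct c) _
    refine (mul_le_mul_of_nonneg_right h4 (by positivity)).trans (le_of_eq ?_)
    rw [pow_succ, ← mul_assoc, ← mul_pow, hρ]
    have : M * (κ / M) = κ := by field_simp
    rw [this]; ring
  refine (sum_le_sum fun c _ => h2 c).trans (le_of_eq ?_)
  rw [sum_const, card_univ, nsmul_eq_mul]
  ring

theorem rand {V : Type} [Fintype V] {m : ℕ} {p : ℝ} (hp : 1 ≤ p) (d : V → V → ℝ)
    (hd0 : ∀ a b, 0 ≤ d a b) (u : Fin m → V → ℝ) (Act : V → Finset (Fin m)) (M Λ κ : ℝ)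
    (hM : 1 ≤ M) (hΛ : 0 ≤ Λ) (hκ : 0 < κ) (hκ1 : κ ≤ 1) (K0 : ℕ) (hK0 : 1 ≤ K0)
    (hAct : ∀ a, ((Act a).card : ℝ) ≤ M) (hu0 : ∀ i a, i ∉ Act a → u i a = 0)
    (hu : ∀ i a b, |u i a - u i b| ≤ Λ * d a b) :
    ∃ (w : Finset (Fin m) → ℝ) (Y : Finset (Fin m) → V → ℝ), (∀ S, 0 ≤ w S) ∧ ∑ S, w S = 1 ∧
      (∀ S a b, |Y S a - Y S b| ^ p ≤ M / κ * (2 * K0 * Λ) ^ p * d a b ^ p) ∧
      (∀ a b, (1 - 2 * κ - Fintype.card V * κ ^ K0) * ∑ i, |u i a - u i b| ^ p ≤
        ∑ S, w S * |Y S a - Y S b| ^ p) ∧
      (∀ a b, ∑ S, w S * |Y S a - Y S b| ^ p ≤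
        Real.exp (2 * κ * Real.exp (p - 1)) * ∑ i, |u i a - u i b| ^ p) := by
  classical
  have hp0 : (0 : ℝ) < p := by linarith
  have hM0 : 0 < M := by linarith
  set ρ := κ / M with hρ
  have hρ0 : 0 < ρ := by positivity
  have hρ1 : ρ ≤ 1 := by rw [hρ, div_le_one hM0]; linarith
  set Y : Finset (Fin m) → V → ℝ := fun S a =>
    if RandBad Act K0 S then 0 else (ρ⁻¹) ^ (1 / p) * ∑ i ∈ S, u i a with hY
  -- the union of the active sets
  have hA : ∀ a b, ∀ i ∉ Act a ∪ Act b, u i a - u i b = 0 := by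
    intro a b i hi
    rw [mem_union, not_or] at hi
    rw [hu0 i a hi.1, hu0 i b hi.2, sub_zero]
  have hAc : ∀ a b, ((Act a ∪ Act b).card : ℝ) ≤ 2 * M := by
    intro a b
    have h1 : ((Act a ∪ Act b).card : ℝ) ≤ (Act a).card + (Act b).card := by
      exact_mod_cast card_union_le _ _
    have := hAct a
    have := hAct b
    linarith
  have hsum : ∀ (S : Finset (Fin m)) a b, ∑ i ∈ S, (u i a - u i b) =
      ∑ i ∈ S ∩ (Act a ∪ Act b), (u i a - u i b) := by
    intro S a b
    symm
    refine sum_subset inter_subset_left ?_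
    intro i hi hi2
    refine hA a b i fun h => hi2 (mem_inter.mpr ⟨hi, h⟩)
  have hYd : ∀ S a b, ¬ RandBad Act K0 S → |Y S a - Y S b| ^ p =
      ρ⁻¹ * |∑ i ∈ S ∩ (Act a ∪ Act b), (u i a - u i b)| ^ p := by
    intro S a b h
    simp only [hY, if_neg h]
    rw [← mul_sub, ← sum_sub_distrib, hsum S a b, abs_mul,
      abs_of_nonneg (Real.rpow_nonneg (by positivity) _),
      Real.mul_rpow (Real.rpow_nonneg (by positivity) _) (abs_nonneg _),
      ← Real.rpow_mul (by positivity), one_div_mul_cancel hp0.ne', Real.rpow_one]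
  have hYb : ∀ S a b, RandBad Act K0 S → |Y S a - Y S b| ^ p = 0 := by
    intro S a b h
    simp only [hY, if_pos h]
    simp [hp0.ne']
  refine ⟨randWt ρ, Y, randWt_nonneg hρ0.le hρ1, randWt_sum ρ, ?_, ?_, ?_⟩
  · -- sup bound
    intro S a b
    have hR : 0 ≤ M / κ * (2 * K0 * Λ) ^ p * d a b ^ p := by
      have := hd0 a b
      have : 0 ≤ 2 * (K0 : ℝ) * Λ := by positivity
      positivity
    by_cases h : RandBad Act K0 S
    · rw [hYb S a b h]; exact hR
    · rw [hYd S a b h]
      have h1 : |∑ i ∈ S ∩ (Act a ∪ Act b), (u i a - u i b)| ≤ 2 * K0 * Λ * d a b := by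
        refine (abs_sum_le_sum_abs _ _).trans ?_
        refine (sum_le_card_nsmul _ _ (Λ * d a b) fun i _ => hu i a b).trans ?_
        rw [nsmul_eq_mul]
        have h2 : ((S ∩ (Act a ∪ Act b)).card : ℝ) ≤ 2 * K0 := by
          have h3 : (S ∩ (Act a ∪ Act b)).card ≤ (S ∩ Act a).card + (S ∩ Act b).card := by
            rw [inter_union_distrib_left]; exact card_union_le _ _
          have h4 : ∀ c, (S ∩ Act c).card ≤ K0 := by
            intro c
            by_contra hc
            exact h ⟨c, by omega⟩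
          have := h4 a
          have := h4 b
          have h5 : (S ∩ (Act a ∪ Act b)).card ≤ 2 * K0 := by omega
          exact_mod_cast h5
        refine (mul_le_mul_of_nonneg_right h2 (mul_nonneg hΛ (hd0 a b))).trans (le_of_eq ?_)
        ring
      have h6 : |∑ i ∈ S ∩ (Act a ∪ Act b), (u i a - u i b)| ^ p ≤ (2 * K0 * Λ * d a b) ^ p :=
        Real.rpow_le_rpow (abs_nonneg _) h1 hp0.le
      rw [Real.mul_rpow (by positivity) (hd0 a b)] at h6
      have h7 : ρ⁻¹ = M / κ := by rw [hρ, inv_div]
      rw [h7, mul_assoc]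
      exact mul_le_mul_of_nonneg_left h6 (by positivity)
  · -- lower bound
    intro a b
    set A := Act a ∪ Act b with hAdef
    set z : Fin m → ℝ := fun i => u i a - u i b with hz
    have hlow : ∀ S : Finset (Fin m), ρ⁻¹ * ∑ i, |z i| ^ p *
        ((if i ∈ S ∧ ∀ j ∈ S, j ∉ A.erase i then randWt ρ S else 0) -
          (if i ∈ S ∧ RandBad Act K0 S then randWt ρ S else 0)) ≤
        randWt ρ S * |Y S a - Y S b| ^ p := by
      intro S
      have hw := randWt_nonneg hρ0.le hρ1 S
      by_cases h : RandBad Act K0 S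
      · rw [hYb S a b h, mul_zero]
        refine mul_nonpos_of_nonneg_of_nonpos (by positivity) (sum_nonpos fun i _ => ?_)
        refine mul_nonpos_of_nonneg_of_nonpos (Real.rpow_nonneg (abs_nonneg _) _) ?_
        by_cases hi : i ∈ S
        · rw [if_pos (⟨hi, h⟩ : i ∈ S ∧ RandBad Act K0 S)]
          split_ifs <;> linarith
        · rw [if_neg (fun hh => hi hh.1), if_neg (fun hh => hi hh.1)]; simp
      · rw [hYd S a b h]
        have e : ∀ i, |z i| ^ p *
            ((if i ∈ S ∧ ∀ j ∈ S, j ∉ A.erase i then randWt ρ S else 0) -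
              (if i ∈ S ∧ RandBad Act K0 S then randWt ρ S else 0)) =
            randWt ρ S * (if i ∈ S ∧ ∀ j ∈ S, j ∉ A.erase i then |z i| ^ p else 0) := by
          intro i
          rw [if_neg (fun hh : i ∈ S ∧ RandBad Act K0 S => h hh.2), sub_zero]
          split_ifs <;> ring
        rw [sum_congr rfl fun i _ => e i, ← mul_sum, ← mul_assoc, mul_comm ρ⁻¹, mul_assoc]
        refine mul_le_mul_of_nonneg_left (mul_le_mul_of_nonneg_left ?_ (by positivity)) hw
        -- at most one index
        by_cases hex : ∃ i ∈ S ∩ A, ∀ j ∈ S, j ∉ A.erase i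
        · obtain ⟨i, hi, hi2⟩ := hex
          have hSA : S ∩ A = {i} := by
            ext j
            rw [mem_singleton]
            constructor
            · intro hj
              by_contra hne
              exact hi2 j (mem_inter.mp hj).1 (mem_erase.mpr ⟨hne, (mem_inter.mp hj).2⟩)
            · rintro rfl; exact hi
          rw [hSA, sum_singleton]
          have : ∀ j, (if j ∈ S ∧ ∀ j' ∈ S, j' ∉ A.erase j then |z j| ^ p else 0) ≤
              if j = i then |z j| ^ p else 0 := by
            intro j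
            by_cases hj : j = i
            · rw [if_pos hj]
              split_ifs
              · exact le_refl _
              · exact Real.rpow_nonneg (abs_nonneg _) _
            · rw [if_neg hj]
              by_cases hj2 : j ∈ S ∧ ∀ j' ∈ S, j' ∉ A.erase j
              · rw [if_pos hj2]
                by_cases hjA : j ∈ A
                · exfalso
                  have : j ∈ S ∩ A := mem_inter.mpr ⟨hj2.1, hjA⟩
                  rw [hSA, mem_singleton] at this
                  exact hj this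
                · have : z j = 0 := hA a b j hjA
                  rw [this]; simp [hp0.ne']
              · rw [if_neg hj2]
          refine (sum_le_sum fun j _ => this j).trans (le_of_eq ?_)
          rw [sum_ite_eq' univ i, if_pos (mem_univ i)]
        · have : ∀ j, (if j ∈ S ∧ ∀ j' ∈ S, j' ∉ A.erase j then |z j| ^ p else 0) = 0 := by
            intro j
            by_cases hj2 : j ∈ S ∧ ∀ j' ∈ S, j' ∉ A.erase j
            · rw [if_pos hj2]
              have hjA : j ∉ A := fun hjA => hex ⟨j, mem_inter.mpr ⟨hj2.1, hjA⟩, hj2.2⟩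
              have : z j = 0 := hA a b j hjA
              rw [this]; simp [hp0.ne']
            · rw [if_neg hj2]
          rw [sum_eq_zero fun j _ => this j]
          exact Real.rpow_nonneg (abs_nonneg _) _
    refine le_trans ?_ (sum_le_sum fun S _ => hlow S)
    rw [← mul_sum, sum_comm, mul_sum, mul_sum]
    refine sum_le_sum fun i _ => ?_
    rw [← mul_sum, sum_sub_distrib, randWt_only ρ i (A.erase i) (notMem_erase i A)]
    have hb := rand_bad Act M κ hM hκ hκ1 K0 hAct i
    rw [← hρ] at hb
    have hzn : 0 ≤ |z i| ^ p := Real.rpow_nonneg (abs_nonneg _) _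
    have h1 : 1 - 2 * κ ≤ (1 - ρ) ^ (A.erase i).card := by
      have h2 := one_add_mul_le_pow (a := -ρ) (by linarith) (A.erase i).card
      have h3 : ((A.erase i).card : ℝ) * ρ ≤ 2 * κ := by
        have h4 : ((A.erase i).card : ℝ) ≤ 2 * M := by
          have h5 : ((A.erase i).card : ℝ) ≤ (A.card : ℝ) := by
            exact_mod_cast card_le_card (erase_subset _ _)
          exact h5.trans (hAc a b)
        refine (mul_le_mul_of_nonneg_right h4 hρ0.le).trans (le_of_eq ?_)
        rw [hρ]; field_simp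
      have e : 1 + -ρ = 1 - ρ := by ring
      rw [e] at h2
      linarith
    have h2 : ρ * (1 - 2 * κ - Fintype.card V * κ ^ K0) ≤
        ρ * (1 - ρ) ^ (A.erase i).card -
        ∑ S : Finset (Fin m), (if i ∈ S ∧ RandBad Act K0 S then randWt ρ S else 0) := by
      have := mul_le_mul_of_nonneg_left h1 hρ0.le
      linarith
    calc (1 - 2 * κ - Fintype.card V * κ ^ K0) * |u i a - u i b| ^ p
        = ρ⁻¹ * (|z i| ^ p * (ρ * (1 - 2 * κ - Fintype.card V * κ ^ K0))) := by
          rw [hz]; field_simp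
      _ ≤ _ := mul_le_mul_of_nonneg_left (mul_le_mul_of_nonneg_left h2 hzn) (by positivity)
  · -- upper bound
    intro a b
    set A := Act a ∪ Act b with hAdef
    set z : Fin m → ℝ := fun i => u i a - u i b with hz
    set E := Real.exp (p - 1) with hE
    have hE1 : 1 ≤ E := Real.one_le_exp (by linarith)
    have hup : ∀ S : Finset (Fin m), randWt ρ S * |Y S a - Y S b| ^ p ≤
        ρ⁻¹ * ∑ i, |z i| ^ p * (if i ∈ S then randWt ρ S * E ^ (S ∩ A.erase i).card else 0) := by
      intro S
      have hw := randWt_nonneg hρ0.le hρ1 S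
      have hnn : 0 ≤ ρ⁻¹ * ∑ i, |z i| ^ p *
          (if i ∈ S then randWt ρ S * E ^ (S ∩ A.erase i).card else 0) := by
        refine mul_nonneg (by positivity) (sum_nonneg fun i _ => ?_)
        refine mul_nonneg (Real.rpow_nonneg (abs_nonneg _) _) ?_
        split_ifs
        · positivity
        · exact le_refl _
      by_cases h : RandBad Act K0 S
      · rw [hYb S a b h, mul_zero]; exact hnn
      · rw [hYd S a b h]
        have g1 : |∑ i ∈ S ∩ A, z i| ^ p ≤ (∑ i ∈ S ∩ A, |z i|) ^ p :=
          Real.rpow_le_rpow (abs_nonneg _) (abs_sum_le_sum_abs _ _) hp0.le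
        have g2 := Real.rpow_sum_le_const_mul_sum_rpow (S ∩ A) z hp
        have g3 : ((S ∩ A).card : ℝ) ^ (p - 1) * ∑ i ∈ S ∩ A, |z i| ^ p ≤
            ∑ i ∈ S ∩ A, |z i| ^ p * E ^ (S ∩ A.erase i).card := by
          rw [mul_sum]
          refine sum_le_sum fun i hi => ?_
          rw [mul_comm]
          refine mul_le_mul_of_nonneg_left ?_ (Real.rpow_nonneg (abs_nonneg _) _)
          have hc : (S ∩ A.erase i).card + 1 = (S ∩ A).card := by
            have : S ∩ A.erase i = (S ∩ A).erase i := by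
              ext j; simp only [mem_inter, mem_erase]; tauto
            rw [this, card_erase_add_one hi]
          have h5 : ((S ∩ A).card : ℝ) ≤ Real.exp ((S ∩ A.erase i).card : ℝ) := by
            have := Real.add_one_le_exp ((S ∩ A.erase i).card : ℝ)
            have h6 : (((S ∩ A.erase i).card : ℝ)) + 1 = ((S ∩ A).card : ℝ) := by exact_mod_cast hc
            linarith
          refine (Real.rpow_le_rpow (Nat.cast_nonneg _) h5 (by linarith)).trans (le_of_eq ?_)
          rw [hE, ← Real.exp_mul, ← Real.exp_nat_mul]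
        have g4 : ∑ i ∈ S ∩ A, |z i| ^ p * E ^ (S ∩ A.erase i).card ≤
            ∑ i, |z i| ^ p * (if i ∈ S then E ^ (S ∩ A.erase i).card else 0) := by
          rw [← sum_filter_add_sum_filter_not univ (fun i => i ∈ S ∩ A)]
          have e1 : (filter (fun i => i ∈ S ∩ A) univ) = S ∩ A := by ext j; simp
          rw [e1]
          have e2 : ∑ i ∈ S ∩ A, |z i| ^ p * E ^ (S ∩ A.erase i).card =
              ∑ i ∈ S ∩ A, |z i| ^ p * (if i ∈ S then E ^ (S ∩ A.erase i).card else 0) := by
            refine sum_congr rfl fun i hi => ?_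
            rw [if_pos (mem_inter.mp hi).1]
          rw [e2]
          refine le_add_of_nonneg_right (sum_nonneg fun i _ => ?_)
          refine mul_nonneg (Real.rpow_nonneg (abs_nonneg _) _) ?_
          split_ifs
          · positivity
          · exact le_refl _
        have g5 := (g1.trans g2).trans (g3.trans g4)
        have g6 : randWt ρ S * (ρ⁻¹ * |∑ i ∈ S ∩ A, z i| ^ p) ≤ randWt ρ S * (ρ⁻¹ *
            ∑ i, |z i| ^ p * (if i ∈ S then E ^ (S ∩ A.erase i).card else 0)) :=
          mul_le_mul_of_nonneg_left (mul_le_mul_of_nonneg_left g5 (by positivity)) hw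
        refine g6.trans (le_of_eq ?_)
        rw [← mul_assoc, mul_comm (randWt ρ S), mul_assoc, mul_sum]
        congr 1
        refine sum_congr rfl fun i _ => ?_
        split_ifs <;> ring
    refine (sum_le_sum fun S _ => hup S).trans ?_
    rw [← mul_sum, sum_comm, mul_sum, mul_sum]
    refine sum_le_sum fun i _ => ?_
    rw [← mul_sum, randWt_exp ρ E i (A.erase i) (notMem_erase i A)]
    have h1 : (1 - ρ + ρ * E) ^ (A.erase i).card ≤ Real.exp (2 * κ * E) := by
      have h2 : 1 - ρ + ρ * E ≤ Real.exp (ρ * E) := by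
        have := Real.add_one_le_exp (ρ * E)
        linarith
      have h3 : 0 ≤ 1 - ρ + ρ * E := by nlinarith
      refine (pow_le_pow_left₀ h3 h2 _).trans ?_
      rw [← Real.exp_nat_mul]
      apply Real.exp_le_exp.mpr
      have h4 : ((A.erase i).card : ℝ) ≤ 2 * M := by
        have h5 : ((A.erase i).card : ℝ) ≤ (A.card : ℝ) := by
          exact_mod_cast card_le_card (erase_subset _ _)
        exact h5.trans (hAc a b)
      refine (mul_le_mul_of_nonneg_right h4 (by positivity)).trans (le_of_eq ?_)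
      have h7 : M * ρ = κ := by rw [hρ]; field_simp
      linear_combination (2 * E) * h7
    have hzn : 0 ≤ |z i| ^ p := Real.rpow_nonneg (abs_nonneg _) _
    calc ρ⁻¹ * (|z i| ^ p * (ρ * (1 - ρ + ρ * E) ^ (A.erase i).card))
        = |z i| ^ p * (1 - ρ + ρ * E) ^ (A.erase i).card * (ρ⁻¹ * ρ) := by ring
      _ = |z i| ^ p * (1 - ρ + ρ * E) ^ (A.erase i).card := by
          rw [inv_mul_cancel₀ hρ0.ne', mul_one]
      _ ≤ |z i| ^ p * Real.exp (2 * κ * E) := mul_le_mul_of_nonneg_left h1 hzn
      _ = _ := by rw [mul_comm]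

end P249
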