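import Vale.Agent.Lib.H20.Sampling

/-! P249: Chernoff sampling from a finite weighted family (multiplicative form). -/

open Finset

namespace Vale.Agent.Lib.P249

theorem samp_exists {Θ : Type*} [Fintype Θ] (w : Θ → ℝ) (hw : ∀ S, 0 ≤ w S)
    (hw1 : ∑ S, w S = 1) (Φ : Θ → ℝ) (C : ℝ) (h : ∑ S, w S * Φ S ≤ C) : ∃ S, Φ S ≤ C := by
  by_contra hc
  push Not at hc
  have h1 : ∑ S, w S * (Φ S - C) ≤ 0 := by
    have e : ∑ S, w S * (Φ S - C) = ∑ S, w S * Φ S - (∑ S, w S) * C := by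
      rw [sum_mul, ← sum_sub_distrib]
      exact sum_congr rfl fun S _ => by ring
    rw [e, hw1]
    linarith
  have h2 : ∀ S ∈ (univ : Finset Θ), 0 ≤ w S * (Φ S - C) := fun S _ =>
    mul_nonneg (hw S) (by have := hc S; linarith)
  have h3 : ∑ S, w S * (Φ S - C) = 0 := le_antisymm h1 (sum_nonneg h2)
  have h4 := (sum_eq_zero_iff_of_nonneg h2).1 h3
  have h5 : ∀ S, w S = 0 := by
    intro S
    have h6 := h4 S (mem_univ S)
    rcases mul_eq_zero.1 h6 with h7 | h7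
    · exact h7
    · have := hc S
      linarith
  simp [h5] at hw1

/-- derandomized multiplicative Chernoff bound, weighted family, different means -/
theorem samp_core {J Θ : Type*} [Fintype Θ] (T : Finset J) (w : Θ → ℝ) (hw : ∀ S, 0 ≤ w S)
    (hw1 : ∑ S, w S = 1) (g : J → Θ → ℝ)
    (h0 : ∀ j ∈ T, ∀ S, 0 ≤ g j S) (h1 : ∀ j ∈ T, ∀ S, g j S ≤ 1) (θ : J → ℝ)
    (hθ : ∀ j ∈ T, ∑ S, w S * g j S = θ j) (ε : ℝ) (hε0 : 0 < ε) (hε1 : ε ≤ 1) (m : ℕ)
    (hm : ∀ j ∈ T, 4 * Real.log (2 * T.card) ≤ ε ^ 2 * (m * θ j)) :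
    ∃ ω : Fin m → Θ, ∀ j ∈ T, (1 - ε) * (m * θ j) ≤ ∑ t, g j (ω t) ∧
      ∑ t, g j (ω t) ≤ (1 + ε) * (m * θ j) := by
  classical
  set l := ε / 2 with hl
  have hl0 : 0 < l := by positivity
  have hl1 : l ≤ 1 := by linarith
  -- one step
  have hstep1 : ∀ j ∈ T, ∑ S, w S * Real.exp (l * g j S - (l + l ^ 2) * θ j) ≤ 1 := by
    intro j hj
    have e : ∀ S, w S * Real.exp (l * g j S - (l + l ^ 2) * θ j) =
        (w S * Real.exp (l * g j S)) * Real.exp (-((l + l ^ 2) * θ j)) := by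
      intro S; rw [mul_assoc, ← Real.exp_add]; congr 2
    simp only [e]
    rw [← sum_mul]
    have h2 : ∑ S, w S * Real.exp (l * g j S) ≤ ∑ S, w S * (1 + (l + l ^ 2) * g j S) :=
      sum_le_sum fun S _ => mul_le_mul_of_nonneg_left
        (Vale.Agent.Lib.H20.exp_pos_bound hl0.le hl1 (h0 j hj S) (h1 j hj S)) (hw S)
    have h3 : ∑ S, w S * (1 + (l + l ^ 2) * g j S) = 1 + (l + l ^ 2) * θ j := by
      have e5 : ∑ S, w S * (1 + (l + l ^ 2) * g j S) =
          (∑ S, w S) + (l + l ^ 2) * ∑ S, w S * g j S := by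
        rw [mul_sum, ← sum_add_distrib]
        exact sum_congr rfl fun S _ => by ring
      rw [e5, hw1, hθ j hj]
    have h4 : 1 + (l + l ^ 2) * θ j ≤ Real.exp ((l + l ^ 2) * θ j) := by
      have := Real.add_one_le_exp ((l + l ^ 2) * θ j)
      linarith
    calc (∑ S, w S * Real.exp (l * g j S)) * Real.exp (-((l + l ^ 2) * θ j)) ≤
          Real.exp ((l + l ^ 2) * θ j) * Real.exp (-((l + l ^ 2) * θ j)) :=
          mul_le_mul_of_nonneg_right ((h2.trans h3.le).trans h4) (Real.exp_pos _).le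
      _ = 1 := by rw [← Real.exp_add, add_neg_cancel, Real.exp_zero]
  have hstep2 : ∀ j ∈ T, ∑ S, w S * Real.exp (-(l * g j S) + (l - l ^ 2) * θ j) ≤ 1 := by
    intro j hj
    have e : ∀ S, w S * Real.exp (-(l * g j S) + (l - l ^ 2) * θ j) =
        (w S * Real.exp (-(l * g j S))) * Real.exp ((l - l ^ 2) * θ j) := by
      intro S; rw [mul_assoc, ← Real.exp_add]
    simp only [e]
    rw [← sum_mul]
    have h2 : ∑ S, w S * Real.exp (-(l * g j S)) ≤ ∑ S, w S * (1 - (l - l ^ 2) * g j S) :=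
      sum_le_sum fun S _ => mul_le_mul_of_nonneg_left
        (Vale.Agent.Lib.H20.exp_neg_bound hl0.le hl1 (h0 j hj S) (h1 j hj S)) (hw S)
    have h3 : ∑ S, w S * (1 - (l - l ^ 2) * g j S) = 1 - (l - l ^ 2) * θ j := by
      have e5 : ∑ S, w S * (1 - (l - l ^ 2) * g j S) =
          (∑ S, w S) - (l - l ^ 2) * ∑ S, w S * g j S := by
        rw [mul_sum, ← sum_sub_distrib]
        exact sum_congr rfl fun S _ => by ring
      rw [e5, hw1, hθ j hj]
    have h4 : 1 - (l - l ^ 2) * θ j ≤ Real.exp (-((l - l ^ 2) * θ j)) := by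
      have := Real.add_one_le_exp (-((l - l ^ 2) * θ j))
      linarith
    calc (∑ S, w S * Real.exp (-(l * g j S))) * Real.exp ((l - l ^ 2) * θ j) ≤
          Real.exp (-((l - l ^ 2) * θ j)) * Real.exp ((l - l ^ 2) * θ j) :=
          mul_le_mul_of_nonneg_right ((h2.trans h3.le).trans h4) (Real.exp_pos _).le
      _ = 1 := by rw [← Real.exp_add, neg_add_cancel, Real.exp_zero]
  -- potential argument
  have key : ∀ k : ℕ, ∃ ω : Fin k → Θ,
      ∑ j ∈ T, (Real.exp (l * ∑ t, g j (ω t) - k * ((l + l ^ 2) * θ j))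
        + Real.exp (-(l * ∑ t, g j (ω t)) + k * ((l - l ^ 2) * θ j))) ≤ 2 * T.card := by
    intro k
    induction k with
    | zero =>
      refine ⟨Fin.elim0, le_of_eq ?_⟩
      simp
      ring
    | succ k ih =>
      obtain ⟨ω, hω⟩ := ih
      set a : J → ℝ := fun j =>
        Real.exp (l * ∑ t, g j (ω t) - k * ((l + l ^ 2) * θ j)) with ha
      set b : J → ℝ := fun j =>
        Real.exp (-(l * ∑ t, g j (ω t)) + k * ((l - l ^ 2) * θ j)) with hb
      have ha0 : ∀ j, 0 ≤ a j := fun j => (Real.exp_pos _).le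
      have hb0 : ∀ j, 0 ≤ b j := fun j => (Real.exp_pos _).le
      have htot : ∑ S : Θ, w S * ∑ j ∈ T, (a j * Real.exp (l * g j S - (l + l ^ 2) * θ j) +
          b j * Real.exp (-(l * g j S) + (l - l ^ 2) * θ j)) ≤ 2 * (T.card : ℝ) := by
        have e : ∑ S : Θ, w S * ∑ j ∈ T, (a j * Real.exp (l * g j S - (l + l ^ 2) * θ j) +
            b j * Real.exp (-(l * g j S) + (l - l ^ 2) * θ j)) =
            ∑ j ∈ T, (a j * ∑ S, w S * Real.exp (l * g j S - (l + l ^ 2) * θ j) +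
              b j * ∑ S, w S * Real.exp (-(l * g j S) + (l - l ^ 2) * θ j)) := by
          simp only [mul_sum]
          rw [sum_comm]
          refine sum_congr rfl fun j _ => ?_
          rw [← sum_add_distrib]
          exact sum_congr rfl fun S _ => by ring
        rw [e]
        refine le_trans (sum_le_sum fun j hj => ?_) hω
        have := mul_le_mul_of_nonneg_left (hstep1 j hj) (ha0 j)
        have := mul_le_mul_of_nonneg_left (hstep2 j hj) (hb0 j)
        linarith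
      obtain ⟨x, hx⟩ := samp_exists w hw hw1 _ _ htot
      refine ⟨Fin.snoc ω x, le_trans (le_of_eq ?_) hx⟩
      refine sum_congr rfl fun j _ => ?_
      have e2 : ∑ t : Fin (k + 1), g j ((Fin.snoc ω x : Fin (k + 1) → Θ) t)
          = ∑ t, g j (ω t) + g j x := by
        rw [Fin.sum_univ_castSucc]
        simp
      rw [e2, ha, hb]
      simp only
      rw [← Real.exp_add, ← Real.exp_add]
      congr 1
      · congr 1; push_cast; ring
      · congr 1; push_cast; ring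
  obtain ⟨ω, hω⟩ := key m
  refine ⟨ω, fun j hj => ?_⟩
  have hTpos : (0 : ℝ) < 2 * T.card := by
    have : (0 : ℝ) < T.card := by exact_mod_cast card_pos.mpr ⟨j, hj⟩
    linarith
  have hterm : Real.exp (l * ∑ t, g j (ω t) - m * ((l + l ^ 2) * θ j))
        + Real.exp (-(l * ∑ t, g j (ω t)) + m * ((l - l ^ 2) * θ j)) ≤ 2 * T.card := by
    refine le_trans ?_ hω
    exact Finset.single_le_sum
      (f := fun j => Real.exp (l * ∑ t, g j (ω t) - m * ((l + l ^ 2) * θ j))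
        + Real.exp (-(l * ∑ t, g j (ω t)) + m * ((l - l ^ 2) * θ j)))
      (fun i _ => by positivity) hj
  have t1 : Real.exp (l * ∑ t, g j (ω t) - m * ((l + l ^ 2) * θ j)) ≤ 2 * T.card :=
    le_trans (le_add_of_nonneg_right (Real.exp_pos _).le) hterm
  have t2 : Real.exp (-(l * ∑ t, g j (ω t)) + m * ((l - l ^ 2) * θ j)) ≤ 2 * T.card :=
    le_trans (le_add_of_nonneg_left (Real.exp_pos _).le) hterm
  have s1 := (Real.le_log_iff_exp_le hTpos).mpr t1
  have s2 := (Real.le_log_iff_exp_le hTpos).mpr t2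
  have e4 : ε = 2 * l := by rw [hl]; ring
  have hmε := hm j hj
  rw [e4] at hmε ⊢
  constructor
  · have : l * ((1 - 2 * l) * (m * θ j)) ≤ l * ∑ t, g j (ω t) := by nlinarith
    exact le_of_mul_le_mul_left this hl0
  · have : l * ∑ t, g j (ω t) ≤ l * ((1 + 2 * l) * (m * θ j)) := by nlinarith
    exact le_of_mul_le_mul_left this hl0

theorem samp_w {V : Type} [Fintype V] {Θ : Type} [Fintype Θ] {p : ℝ} (hp : 1 ≤ p) (d : V → V → ℝ)
    (hd0 : ∀ a b, 0 ≤ d a b) (hds : ∀ a, d a a = 0) (hd : ∀ a b, a ≠ b → 0 < d a b)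
    (w : Θ → ℝ) (Y : Θ → V → ℝ) (hw : ∀ S, 0 ≤ w S) (hw1 : ∑ S, w S = 1) (K lo hi : ℝ)
    (hK : 0 < K) (hlo : 0 < lo) (hsup : ∀ S a b, |Y S a - Y S b| ^ p ≤ K * d a b ^ p)
    (h1 : ∀ a b, lo * d a b ^ p ≤ ∑ S, w S * |Y S a - Y S b| ^ p)
    (h2 : ∀ a b, ∑ S, w S * |Y S a - Y S b| ^ p ≤ hi * d a b ^ p)
    (ε : ℝ) (hε0 : 0 < ε) (hε1 : ε ≤ 1 / 2) (N : ℕ)
    (hN : 4 * Real.log (2 * Fintype.card V ^ 2) * K ≤ ε ^ 2 * (N * lo)) (hN1 : 1 ≤ N)
    (hV : 2 ≤ Fintype.card V) :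
    ∃ f : V → Fin N → ℝ, ∀ a b, (1 - ε) * lo * d a b ^ p ≤ ∑ t, |f a t - f b t| ^ p ∧
      ∑ t, |f a t - f b t| ^ p ≤ (1 + ε) * hi * d a b ^ p := by
  classical
  have hp0 : 0 < p := by linarith
  have hN0 : (0 : ℝ) < N := by exact_mod_cast hN1
  set T : Finset (V × V) := univ.filter fun j => j.1 ≠ j.2 with hT
  have hTc : (T.card : ℝ) ≤ (Fintype.card V : ℝ) ^ 2 := by
    have h3 : T.card ≤ (univ : Finset (V × V)).card := card_le_card (filter_subset _ _)
    rw [card_univ, Fintype.card_prod, ← sq] at h3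
    exact_mod_cast h3
  have hT1 : 1 ≤ T.card := by
    obtain ⟨a, b, hab⟩ := Fintype.exists_pair_of_one_lt_card (show 1 < Fintype.card V by omega)
    exact card_pos.2 ⟨(a, b), by rw [hT, mem_filter]; exact ⟨mem_univ _, hab⟩⟩
  have hT1' : (1 : ℝ) ≤ T.card := by exact_mod_cast hT1
  have hdp : ∀ j ∈ T, 0 < d j.1 j.2 ^ p := fun j hj =>
    Real.rpow_pos_of_pos (hd _ _ (mem_filter.1 hj).2) p
  have hKd : ∀ j ∈ T, 0 < K * d j.1 j.2 ^ p := fun j hj => mul_pos hK (hdp j hj)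
  obtain ⟨ω, hω⟩ := samp_core T w hw hw1
    (fun j S => |Y S j.1 - Y S j.2| ^ p / (K * d j.1 j.2 ^ p))
    (fun j hj S => div_nonneg (Real.rpow_nonneg (abs_nonneg _) _) (hKd j hj).le)
    (fun j hj S => (div_le_one (hKd j hj)).2 (hsup _ _ _))
    (fun j => (∑ S, w S * |Y S j.1 - Y S j.2| ^ p) / (K * d j.1 j.2 ^ p))
    (fun j _ => by
      rw [sum_div]
      exact sum_congr rfl fun S _ => by ring)
    ε hε0 (by linarith) N
    (fun j hj => by
      have h3 : lo / K ≤ (∑ S, w S * |Y S j.1 - Y S j.2| ^ p) / (K * d j.1 j.2 ^ p) := by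
        rw [div_le_div_iff₀ hK (hKd j hj)]
        have := mul_le_mul_of_nonneg_right (h1 j.1 j.2) hK.le
        linarith
      have h4 : Real.log (2 * T.card) ≤ Real.log (2 * Fintype.card V ^ 2) :=
        Real.log_le_log (by linarith) (by linarith)
      have h5 : 4 * Real.log (2 * Fintype.card V ^ 2) ≤ ε ^ 2 * (N * (lo / K)) := by
        have e : ε ^ 2 * (N * (lo / K)) = (ε ^ 2 * (N * lo)) / K := by ring
        rw [e, le_div_iff₀ hK]
        exact hN
      have h6 : ε ^ 2 * (N * (lo / K)) ≤ ε ^ 2 *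
          (N * ((∑ S, w S * |Y S j.1 - Y S j.2| ^ p) / (K * d j.1 j.2 ^ p))) :=
        mul_le_mul_of_nonneg_left (mul_le_mul_of_nonneg_left h3 hN0.le) (by positivity)
      linarith)
  refine ⟨fun a t => Y (ω t) a / (N : ℝ) ^ (1 / p), fun a b => ?_⟩
  have hNp : (0 : ℝ) < (N : ℝ) ^ (1 / p) := Real.rpow_pos_of_pos hN0 _
  have hf : ∑ t, |Y (ω t) a / (N : ℝ) ^ (1 / p) - Y (ω t) b / (N : ℝ) ^ (1 / p)| ^ p =
      (∑ t, |Y (ω t) a - Y (ω t) b| ^ p) / N := by
    rw [sum_div]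
    refine sum_congr rfl fun t _ => ?_
    rw [← sub_div, abs_div, abs_of_pos hNp, Real.div_rpow (abs_nonneg _) hNp.le,
      ← Real.rpow_mul hN0.le, one_div_mul_cancel hp0.ne', Real.rpow_one]
  simp only
  rw [hf]
  by_cases hab : a = b
  · subst hab
    have h7 : ∀ t, |Y (ω t) a - Y (ω t) a| ^ p = 0 := by
      intro t
      rw [sub_self, abs_zero, Real.zero_rpow hp0.ne']
    simp only [h7, hds, Real.zero_rpow hp0.ne', sum_const_zero, mul_zero, zero_div, le_refl,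
      and_self]
  · have hj : (a, b) ∈ T := by rw [hT, mem_filter]; exact ⟨mem_univ _, hab⟩
    have h8 := hω (a, b) hj
    simp only at h8
    have hKd' : 0 < K * d a b ^ p := hKd (a, b) hj
    rw [← sum_div] at h8
    set X := ∑ t, |Y (ω t) a - Y (ω t) b| ^ p
    set E := ∑ S, w S * |Y S a - Y S b| ^ p with hE
    have e1 : (1 - ε) * (N * (E / (K * d a b ^ p))) = ((1 - ε) * N * E) / (K * d a b ^ p) := by
      ring
    have e2 : (1 + ε) * (N * (E / (K * d a b ^ p))) = ((1 + ε) * N * E) / (K * d a b ^ p) := by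
      ring
    rw [e1, e2, div_le_div_iff_of_pos_right hKd', div_le_div_iff_of_pos_right hKd'] at h8
    have h9 := h1 a b
    have h10 := h2 a b
    constructor
    · rw [le_div_iff₀ hN0]
      have h11 : (1 - ε) * N * (lo * d a b ^ p) ≤ (1 - ε) * N * E :=
        mul_le_mul_of_nonneg_left h9 (mul_nonneg (by linarith) hN0.le)
      linarith [h8.1]
    · rw [div_le_iff₀ hN0]
      have h11 : (1 + ε) * N * E ≤ (1 + ε) * N * (hi * d a b ^ p) :=
        mul_le_mul_of_nonneg_left h10 (mul_nonneg (by linarith) hN0.le)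
      linarith [h8.2]

end Vale.Agent.Lib.P249
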