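import Vale.Agent.Lib.P249.HG
import Vale.Agent.Lib.P249.Gauss
import Vale.Agent.Lib.P249.Mazur

/-!
P249, one bad scale (T2SCALE): random centre, Mazur map to `ℓ_2`, Gaussian kernel.
-/

open Finset

namespace Vale.Agent.Lib.P249

open Vale.Agent.P249 (ds ds_nonneg ds_self gauss_kernel gauss_sq)

theorem sc2_rpow_le {t e : ℝ} (ht : 0 ≤ t) (he0 : 0 ≤ e) (he1 : e ≤ 1) : t ^ e ≤ 1 + t := by
  rcases le_total t 1 with h | h
  · have := Real.rpow_le_one ht h he0
    linarith
  · have := Real.rpow_le_rpow_of_exponent_le h he1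
    rw [Real.rpow_one] at this
    linarith

theorem sc2_pow {L D e : ℝ} (hL : 1 ≤ L) (hD : 0 ≤ D) (he0 : 0 ≤ e) (he1 : e ≤ 1) :
    D ^ e ≤ L ^ e * (1 + D / L) := by
  have hL0 : 0 < L := by linarith
  have h1 : D = L * (D / L) := by field_simp
  have h2 : D ^ e = L ^ e * (D / L) ^ e := by
    conv_lhs => rw [h1]
    rw [Real.mul_rpow hL0.le (by positivity)]
  rw [h2]
  exact mul_le_mul_of_nonneg_left (sc2_rpow_le (by positivity) he0 he1) (by positivity)

theorem sc2_ds_div {W : Type*} [Fintype W] (f g : W → ℝ) {t : ℝ} (ht : 0 < t) :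
    ds (fun w => f w / Real.sqrt t) (fun w => g w / Real.sqrt t) =
      (∑ w, (f w - g w) ^ 2) / t := by
  unfold ds
  rw [sum_div]
  refine sum_congr rfl fun w _ => ?_
  rw [← sub_div, div_pow, Real.sq_sqrt ht.le]

/-- the local map into `ℓ_2` around the centre `c` -/
theorem sc2_local {p : ℝ} (hp : 1 < p) : ∃ C th : ℝ, 0 < C ∧ 0 ≤ th ∧ th < 1 ∧
    ∀ {A W : Type*} [Fintype W] (y : A → W → ℝ) (L : ℝ), 1 ≤ L → ∀ c : A,
      ∃ u : A → W → ℝ, (∀ a a', dd p y a c ≤ 5 * L → dd p y a' c ≤ 5 * L → dd p y a a' ≤ 1 →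
        ds (u a) (u a') ≤ 1) ∧
        ∀ a b, dd p y a c ≤ 5 * L → dd p y a b ≤ C * L ^ th * (1 + ds (u a) (u b) / L) := by
  have hp0 : 0 < p := by linarith
  rcases le_total 2 p with h2 | h2
  · -- p ≥ 2
    set K : ℝ := 2 ^ (p - 2) * (p ^ 2 / 2 * 5 ^ (p - 2)) with hK
    have hK0 : 0 < K := by positivity
    refine ⟨K ^ (1 / p), 1 - 1 / p, by positivity, ?_, ?_, ?_⟩
    · have : 1 / p ≤ 1 := by rw [div_le_one hp0]; linarith
      linarith
    · have : 0 < 1 / p := by positivity
      linarith
    intro A W _ y L hL c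
    have hL0 : 0 < L := by linarith
    set t : ℝ := p ^ 2 / 2 * (5 * L) ^ (p - 2) with ht
    have ht0 : 0 < t := by positivity
    refine ⟨fun b w => mz (p / 2) (y b w - y c w) / Real.sqrt t, ?_, ?_⟩
    · intro a a' ha ha' haa
      rw [sc2_ds_div _ _ ht0, div_le_one ht0]
      have h := mazur_upper_ge (R := 5 * L) h2 (fun w => y a w - y c w) (fun w => y a' w - y c w)
        ha ha'
      have e : (fun w => y a w - y c w - (y a' w - y c w)) = fun w => y a w - y a' w := by
        funext w; ring
      simp only [e] at h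
      refine h.trans ?_
      have h3 : dd p y a a' ^ 2 ≤ 1 := by
        have := dd_nonneg p y a a'
        nlinarith
      have h4 : nrm p (fun w => y a w - y a' w) = dd p y a a' := rfl
      rw [h4]
      nlinarith
    · intro a b ha
      rw [sc2_ds_div _ _ ht0]
      set S : ℝ := ∑ w, (mz (p / 2) (y a w - y c w) - mz (p / 2) (y b w - y c w)) ^ 2 with hS
      have hS0 : 0 ≤ S := sum_nonneg fun _ _ => sq_nonneg _
      have h := mazur_lower_ge h2 (fun w => y a w - y c w) (fun w => y b w - y c w)
      have e : (fun w => y a w - y c w - (y b w - y c w)) = fun w => y a w - y b w := by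
        funext w; ring
      simp only [e] at h
      have h4 : nrm p (fun w => y a w - y b w) = dd p y a b := rfl
      rw [h4, ← hS] at h
      have hd0 := dd_nonneg p y a b
      have h5 : 2 ^ (p - 2) * S = K * (L ^ (p - 2) * (S / t)) := by
        have e5 : t = p ^ 2 / 2 * 5 ^ (p - 2) * L ^ (p - 2) := by
          rw [ht, Real.mul_rpow (by norm_num) hL0.le, mul_assoc]
        have hLp : L ^ (p - 2) ≠ 0 := by positivity
        have h5p : (5 : ℝ) ^ (p - 2) ≠ 0 := by positivity
        rw [e5, hK]
        field_simp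
      rw [h5] at h
      have h6 : dd p y a b ≤ (K * (L ^ (p - 2) * (S / t))) ^ (1 / p) := by
        have h7 := Real.rpow_le_rpow (Real.rpow_nonneg hd0 p) h (by positivity : 0 ≤ 1 / p)
        rwa [← Real.rpow_mul hd0, mul_one_div_cancel hp0.ne', Real.rpow_one] at h7
      refine h6.trans ?_
      have hSt : 0 ≤ S / t := by positivity
      rw [Real.mul_rpow hK0.le (by positivity), Real.mul_rpow (by positivity) hSt,
        ← Real.rpow_mul hL0.le]
      have h8 := sc2_pow (e := 1 / p) hL hSt (by positivity) (by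
        rw [div_le_one hp0]; linarith)
      have h9 : L ^ ((p - 2) * (1 / p)) * (S / t) ^ (1 / p) ≤
          L ^ ((p - 2) * (1 / p)) * (L ^ (1 / p) * (1 + S / t / L)) :=
        mul_le_mul_of_nonneg_left h8 (by positivity)
      have h10 : L ^ ((p - 2) * (1 / p)) * (L ^ (1 / p) * (1 + S / t / L)) =
          L ^ (1 - 1 / p) * (1 + S / t / L) := by
        rw [← mul_assoc, ← Real.rpow_add hL0]
        congr 2
        field_simp
        ring
      rw [h10] at h9
      calc K ^ (1 / p) * (L ^ ((p - 2) * (1 / p)) * (S / t) ^ (1 / p)) ≤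
            K ^ (1 / p) * (L ^ (1 - 1 / p) * (1 + S / t / L)) :=
          mul_le_mul_of_nonneg_left h9 (by positivity)
        _ = K ^ (1 / p) * L ^ (1 - 1 / p) * (1 + S / t / L) := by ring
  · -- p ≤ 2
    refine ⟨124, max ((3 - p) / 2) (1 / p), by norm_num, ?_, ?_, ?_⟩
    · exact le_max_of_le_right (by positivity)
    · refine max_lt (by linarith) ?_
      rw [div_lt_one hp0]
      exact hp
    intro A W _ y L hL c
    have hL0 : 0 < L := by linarith
    refine ⟨fun b w => mz (p / 2) (y b w - y c w) / Real.sqrt 4, ?_, ?_⟩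
    · intro a a' ha ha' haa
      rw [sc2_ds_div _ _ (by norm_num), div_le_one (by norm_num)]
      have h := mazur_upper_le hp0 h2 (fun w => y a w - y c w) (fun w => y a' w - y c w)
      have e : (fun w => y a w - y c w - (y a' w - y c w)) = fun w => y a w - y a' w := by
        funext w; ring
      simp only [e] at h
      refine h.trans ?_
      have h4 : nrm p (fun w => y a w - y a' w) = dd p y a a' := rfl
      rw [h4]
      have h5 : dd p y a a' ^ p ≤ 1 := Real.rpow_le_one (dd_nonneg _ _ _ _) haa hp0.le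
      have h6 : (2 : ℝ) ^ (2 - p) ≤ 4 := by
        have : (2 : ℝ) ^ (2 - p) ≤ 2 ^ (2 : ℝ) :=
          Real.rpow_le_rpow_of_exponent_le (by norm_num) (by linarith)
        have e2 : (2 : ℝ) ^ (2 : ℝ) = 4 := by norm_num
        linarith
      have h7 : 0 ≤ dd p y a a' ^ p := Real.rpow_nonneg (dd_nonneg _ _ _ _) _
      nlinarith
    · intro a b ha
      rw [sc2_ds_div _ _ (by norm_num)]
      set S : ℝ := ∑ w, (mz (p / 2) (y a w - y c w) - mz (p / 2) (y b w - y c w)) ^ 2 with hS
      have hS0 : 0 ≤ S := sum_nonneg fun _ _ => sq_nonneg _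
      set d : ℝ := dd p y a b with hd
      have hd0 : 0 ≤ d := dd_nonneg p y a b
      have hbc : dd p y b c ≤ 5 * L + d := by
        have := dd_tri hp.le y b a c
        rw [dd_comm p y b a] at this
        linarith
      have h := mazur_lower_le (R := 5 * L + d) hp.le h2 (fun w => y a w - y c w)
        (fun w => y b w - y c w) (by
          have : dd p y a c ≤ 5 * L + d := by linarith
          exact this) hbc
      have e : (fun w => y a w - y c w - (y b w - y c w)) = fun w => y a w - y b w := by
        funext w; ring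
      simp only [e] at h
      have h4 : nrm p (fun w => y a w - y b w) = d := rfl
      rw [h4, ← hS] at h
      have hR0 : 0 ≤ 5 * L + d := by positivity
      have h5 : d ^ 2 ≤ 8 * (5 * L + d) ^ (2 - p) * S := by
        refine h.trans ?_
        have h6 : 8 / p ^ 2 ≤ 8 := by
          rw [div_le_iff₀ (by positivity)]
          nlinarith
        have h7 : 0 ≤ (5 * L + d) ^ (2 - p) * S := mul_nonneg (Real.rpow_nonneg hR0 _) hS0
        nlinarith
      set th : ℝ := max ((3 - p) / 2) (1 / p) with hth
      have hLth : 1 ≤ L ^ th := Real.one_le_rpow hL (le_max_of_le_right (by positivity))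
      have hS4 : 0 ≤ S / 4 := by positivity
      rcases le_total d (5 * L) with hdL | hdL
      · -- d ≤ 5 L
        have h6 : (5 * L + d) ^ (2 - p) ≤ (10 * L) ^ (2 - p) :=
          Real.rpow_le_rpow hR0 (by linarith) (by linarith)
        have h7 : (10 * L) ^ (2 - p) ≤ 10 * L ^ (2 - p) := by
          rw [Real.mul_rpow (by norm_num) hL0.le]
          have : (10 : ℝ) ^ (2 - p) ≤ 10 ^ (1 : ℝ) :=
            Real.rpow_le_rpow_of_exponent_le (by norm_num) (by linarith)
          rw [Real.rpow_one] at this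
          exact mul_le_mul_of_nonneg_right this (by positivity)
        have h8 : d ^ 2 ≤ 80 * L ^ (2 - p) * S := by
          have h9 := mul_le_mul_of_nonneg_right (h6.trans h7) hS0
          nlinarith
        -- S ≤ 4 L (1 + S/4/L)^2
        have h10 : S ≤ 4 * L * (1 + S / 4 / L) ^ 2 := by
          have e10 : S = 4 * L * (S / 4 / L) := by field_simp
          have h11 : 0 ≤ S / 4 / L := by positivity
          have h12 : S / 4 / L ≤ (1 + S / 4 / L) ^ 2 := by nlinarith
          calc S = 4 * L * (S / 4 / L) := e10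
            _ ≤ _ := mul_le_mul_of_nonneg_left h12 (by positivity)
        have h13 : d ^ 2 ≤ (124 * L ^ th * (1 + S / 4 / L)) ^ 2 := by
          have h14 : L ^ (2 - p) * L ≤ (L ^ th) ^ 2 := by
            have e14 : L ^ (2 - p) * L = L ^ (3 - p) := by
              rw [← Real.rpow_add_one hL0.ne']
              congr 1
              ring
            rw [e14, ← Real.rpow_natCast, ← Real.rpow_mul hL0.le]
            refine Real.rpow_le_rpow_of_exponent_le hL ?_
            have := le_max_left ((3 - p) / 2) (1 / p)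
            push_cast
            linarith
          have h15 : 0 ≤ 80 * L ^ (2 - p) := by positivity
          have h16 := mul_le_mul_of_nonneg_left h10 h15
          have h17 : 0 ≤ (1 + S / 4 / L) ^ 2 := sq_nonneg _
          have h18 := mul_le_mul_of_nonneg_right h14 h17
          have h19 : 0 ≤ (L ^ th) ^ 2 * (1 + S / 4 / L) ^ 2 := by positivity
          calc d ^ 2 ≤ 80 * L ^ (2 - p) * S := h8
            _ ≤ 80 * L ^ (2 - p) * (4 * L * (1 + S / 4 / L) ^ 2) := h16
            _ = 320 * (L ^ (2 - p) * L * (1 + S / 4 / L) ^ 2) := by ring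
            _ ≤ 320 * ((L ^ th) ^ 2 * (1 + S / 4 / L) ^ 2) :=
                mul_le_mul_of_nonneg_left h18 (by norm_num)
            _ ≤ (124 * L ^ th * (1 + S / 4 / L)) ^ 2 := by nlinarith
        exact (pow_le_pow_iff_left₀ hd0 (by positivity) two_ne_zero).mp h13
      · -- d ≥ 5 L
        have hdpos : 0 < d := by linarith
        have h6 : (5 * L + d) ^ (2 - p) ≤ (2 * d) ^ (2 - p) :=
          Real.rpow_le_rpow hR0 (by linarith) (by linarith)
        have h7 : (2 * d) ^ (2 - p) ≤ 2 * d ^ (2 - p) := by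
          rw [Real.mul_rpow (by norm_num) hd0]
          have : (2 : ℝ) ^ (2 - p) ≤ 2 ^ (1 : ℝ) :=
            Real.rpow_le_rpow_of_exponent_le (by norm_num) (by linarith)
          rw [Real.rpow_one] at this
          exact mul_le_mul_of_nonneg_right this (by positivity)
        have h8 : d ^ 2 ≤ 16 * d ^ (2 - p) * S := by
          have h9 := mul_le_mul_of_nonneg_right (h6.trans h7) hS0
          nlinarith
        have h9 : d ^ p ≤ 16 * S := by
          have e9 : d ^ 2 = d ^ (2 - p) * d ^ p := by
            rw [← Real.rpow_add hdpos, sub_add_cancel]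
            norm_cast
          have h10 : 0 < d ^ (2 - p) := Real.rpow_pos_of_pos hdpos _
          rw [e9] at h8
          have h11 : d ^ (2 - p) * d ^ p ≤ d ^ (2 - p) * (16 * S) := by linarith
          exact le_of_mul_le_mul_left h11 h10
        have h10 : d ≤ (64 * (S / 4)) ^ (1 / p) := by
          have e10 : 64 * (S / 4) = 16 * S := by ring
          rw [e10]
          have h7 := Real.rpow_le_rpow (Real.rpow_nonneg hd0 p) h9 (by positivity : 0 ≤ 1 / p)
          rwa [← Real.rpow_mul hd0, mul_one_div_cancel hp0.ne', Real.rpow_one] at h7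
        have hp1 : 1 / p ≤ 1 := by rw [div_le_one hp0]; linarith
        rw [Real.mul_rpow (by norm_num) hS4] at h10
        have h11 : (64 : ℝ) ^ (1 / p) ≤ 64 := by
          have : (64 : ℝ) ^ (1 / p) ≤ 64 ^ (1 : ℝ) :=
            Real.rpow_le_rpow_of_exponent_le (by norm_num) hp1
          rwa [Real.rpow_one] at this
        have h12 := sc2_pow (e := 1 / p) hL hS4 (by positivity) hp1
        have h13 : L ^ (1 / p) ≤ L ^ th := Real.rpow_le_rpow_of_exponent_le hL (le_max_right _ _)
        have h14 : 0 ≤ 1 + S / 4 / L := by positivity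
        calc d ≤ 64 ^ (1 / p) * (S / 4) ^ (1 / p) := h10
          _ ≤ 64 * (L ^ (1 / p) * (1 + S / 4 / L)) :=
              mul_le_mul h11 h12 (by positivity) (by norm_num)
          _ ≤ 64 * (L ^ th * (1 + S / 4 / L)) := by gcongr
          _ ≤ 124 * L ^ th * (1 + S / 4 / L) := by
              have : 0 ≤ L ^ th * (1 + S / 4 / L) := by positivity
              nlinarith

/-- mass of the far centres -/
theorem sc2_mass {A W : Type*} [Fintype A] [Nonempty A] [Fintype W] {p : ℝ} (hp : 1 < p)
    (y : A → W → ℝ) (a : A) :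
    1 / 2 ≤ ∑ c ∈ univ.filter (fun c => dd p y a c ≤ 4 * (1 + Real.log (Fintype.card A))),
      mu (dd p y a) 1 c := by
  classical
  have hp0 : 0 < p := by linarith
  set L : ℝ := 1 + Real.log (Fintype.card A) with hL
  have hn1 : (1 : ℝ) ≤ Fintype.card A := by exact_mod_cast (Fintype.card_pos : 0 < Fintype.card A)
  have hl : 0 ≤ Real.log (Fintype.card A) := Real.log_nonneg hn1
  have hL0 : 0 < L := by positivity
  have h1 : sc (dd p y a) 1 ≤ 2 * Real.log (Fintype.card A) := by
    have h := sc_sum_le (dd p y a) (dd_nonneg p y a) a (dd_self hp0 y a) (s := 1) zero_le_one 1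
    simpa using h
  unfold sc at h1
  rw [one_mul] at h1
  have h2 := sum_filter_add_sum_filter_not univ (fun c => dd p y a c ≤ 4 * L)
    (fun c => mu (dd p y a) 1 c)
  rw [mu_sum] at h2
  have h3 : (4 * L) * ∑ c ∈ univ.filter (fun c => ¬ dd p y a c ≤ 4 * L), mu (dd p y a) 1 c ≤
      ∑ c, mu (dd p y a) 1 c * dd p y a c := by
    rw [mul_sum]
    refine (sum_le_sum fun c hc => ?_).trans (sum_le_sum_of_subset_of_nonneg (filter_subset _ _)
      fun c _ _ => mul_nonneg (mu_pos _ _ _).le (dd_nonneg _ _ _ _))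
    rw [mem_filter] at hc
    have h4 := (not_le.mp hc.2).le
    rw [mul_comm]
    exact mul_le_mul_of_nonneg_left h4 (mu_pos _ _ _).le
  have h5 : (4 * L) * ∑ c ∈ univ.filter (fun c => ¬ dd p y a c ≤ 4 * L), mu (dd p y a) 1 c ≤
      (4 * L) * (1 / 2) := by linarith
  have h6 := le_of_mul_le_mul_left h5 (by positivity)
  linarith

/-- one scale, normalized -/
theorem sc2_one {p : ℝ} (hp : 1 < p) : ∃ C th : ℝ, 0 < C ∧ 0 ≤ th ∧ th < 1 ∧
    ∀ {A W : Type*} [Fintype A] [Nonempty A] [Fintype W] (y : A → W → ℝ),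
      ∃ h : A → W → ℝ, (∀ a w, 0 ≤ h a w) ∧
        (∀ a b w, dd p y a b ≤ 1 → |y a w - y b w| ≤ h a w + h b w) ∧
        ∀ a, nrm p (h a) ≤ C * (1 + Real.log (Fintype.card A)) ^ th := by
  obtain ⟨C0, th, hC0, hth0, hth1, hloc⟩ := sc2_local hp
  refine ⟨8 * Real.exp 2 * (17 * C0), th, by positivity, hth0, hth1, ?_⟩
  intro A W _ _ _ y
  classical
  have hp0 : 0 < p := by linarith
  set L : ℝ := 1 + Real.log (Fintype.card A) with hL
  have hn1 : (1 : ℝ) ≤ Fintype.card A := by exact_mod_cast (Fintype.card_pos : 0 < Fintype.card A)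
  have hl : 0 ≤ Real.log (Fintype.card A) := Real.log_nonneg hn1
  have hL1 : 1 ≤ L := by linarith
  have hL0 : 0 < L := by linarith
  choose u hu1 hu2 using hloc y L hL1
  choose κ hκ0 hκ1 _ hκ3 hκ4 using fun c => gauss_kernel (u c)
  set k : A → A → A → ℝ := fun c a b =>
    if dd p y a c ≤ 5 * L then κ c a b else (if a = b then 1 else 0) with hk
  have hk0 : ∀ c a b, 0 ≤ k c a b := by
    intro c a b
    simp only [hk]
    split_ifs
    · exact hκ0 c a b
    · exact zero_le_one
    · exact le_refl _
  set ν : A → A → ℝ := fun a b => ∑ c, mu (dd p y a) 1 c * k c a b with hν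
  have hν0 : ∀ a b, 0 ≤ ν a b := fun a b =>
    sum_nonneg fun c _ => mul_nonneg (mu_pos _ _ _).le (hk0 c a b)
  set K : ℝ := 8 * Real.exp 2 with hK
  have hK0 : 0 < K := by positivity
  refine ⟨fun a w => K * ∑ b, ν a b * |y a w - y b w|, ?_, ?_, ?_⟩
  · intro a w
    exact mul_nonneg hK0.le (sum_nonneg fun b _ => mul_nonneg (hν0 a b) (abs_nonneg _))
  · intro a a' w haa
    set G : Finset A := univ.filter (fun c => dd p y a c ≤ 4 * L) with hG
    have hGa : ∀ c ∈ G, dd p y a c ≤ 5 * L := by
      intro c hc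
      have := (mem_filter.mp hc).2
      linarith
    have hGa' : ∀ c ∈ G, dd p y a' c ≤ 5 * L := by
      intro c hc
      have h1 := (mem_filter.mp hc).2
      have h2 := dd_tri hp.le y a' a c
      rw [dd_comm p y a' a] at h2
      linarith
    have hmu : ∀ c, Real.exp (-2) * mu (dd p y a) 1 c ≤ mu (dd p y a') 1 c := by
      intro c
      have h1 := mu_compare (dd p y a) (dd p y a') (s := 1) zero_le_one (by
        intro c
        rw [mul_one]
        refine le_trans ?_ haa
        rw [abs_le]
        have h2 := dd_tri hp.le y a' a c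
        have h3 := dd_tri hp.le y a a' c
        rw [dd_comm p y a' a] at h2
        constructor <;> linarith) c
      have h2 := mul_le_mul_of_nonneg_left h1 (Real.exp_pos (-2)).le
      rw [← mul_assoc, ← Real.exp_add] at h2
      simpa using h2
    set mm : A → ℝ := fun b => ∑ c ∈ G, Real.exp (-2) * mu (dd p y a) 1 c *
      min (κ c a b) (κ c a' b) with hmm
    have hmin0 : ∀ c b, 0 ≤ min (κ c a b) (κ c a' b) := fun c b => le_min (hκ0 c a b) (hκ0 c a' b)
    have hmm0 : ∀ b, 0 ≤ mm b := fun b => sum_nonneg fun c _ =>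
      mul_nonneg (mul_nonneg (Real.exp_pos _).le (mu_pos _ _ _).le) (hmin0 c b)
    have hm1 : ∀ b, mm b ≤ ν a b := by
      intro b
      refine (sum_le_sum fun c hc => ?_).trans (sum_le_sum_of_subset_of_nonneg (subset_univ G)
        fun c _ _ => mul_nonneg (mu_pos _ _ _).le (hk0 c a b))
      have h1 : k c a b = κ c a b := by
        simp only [hk]
        rw [if_pos (hGa c hc)]
      rw [h1]
      have h2 : Real.exp (-2) ≤ 1 := Real.exp_le_one_iff.mpr (by norm_num)
      have h3 := mu_pos (dd p y a) 1 c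
      have h4 : Real.exp (-2) * mu (dd p y a) 1 c ≤ mu (dd p y a) 1 c := by nlinarith
      exact mul_le_mul h4 (min_le_left _ _) (hmin0 c b) h3.le
    have hm2 : ∀ b, mm b ≤ ν a' b := by
      intro b
      refine (sum_le_sum fun c hc => ?_).trans (sum_le_sum_of_subset_of_nonneg (subset_univ G)
        fun c _ _ => mul_nonneg (mu_pos _ _ _).le (hk0 c a' b))
      have h1 : k c a' b = κ c a' b := by
        simp only [hk]
        rw [if_pos (hGa' c hc)]
      rw [h1]
      exact mul_le_mul (hmu c) (min_le_right _ _) (hmin0 c b) (mu_pos _ _ _).le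
    have hov : ∀ c ∈ G, 1 / 4 ≤ ∑ b, min (κ c a b) (κ c a' b) := by
      intro c hc
      refine le_trans ?_ (hκ4 c a a')
      have h1 := hu1 c a a' (hGa c hc) (hGa' c hc) haa
      have h2 : 1 + -ds (u c a) (u c a') / 4 ≤ Real.exp (-ds (u c a) (u c a') / 4) := by
        have := Real.add_one_le_exp (-ds (u c a) (u c a') / 4)
        linarith
      linarith
    have hmass := sc2_mass hp y a
    rw [← hL, ← hG] at hmass
    have hsum : 1 / K ≤ ∑ b, mm b := by
      have h1 : ∑ b, mm b = ∑ c ∈ G, Real.exp (-2) * mu (dd p y a) 1 c *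
          ∑ b, min (κ c a b) (κ c a' b) := by
        simp only [hmm]
        rw [sum_comm]
        exact sum_congr rfl fun c _ => by rw [mul_sum]
      rw [h1]
      have h2 : ∑ c ∈ G, Real.exp (-2) * mu (dd p y a) 1 c * (1 / 4) ≤
          ∑ c ∈ G, Real.exp (-2) * mu (dd p y a) 1 c * ∑ b, min (κ c a b) (κ c a' b) :=
        sum_le_sum fun c hc => mul_le_mul_of_nonneg_left (hov c hc)
          (mul_nonneg (Real.exp_pos _).le (mu_pos _ _ _).le)
      refine le_trans ?_ h2
      rw [← sum_mul, ← mul_sum]
      have h3 : 1 / K = Real.exp (-2) * (1 / 8) := by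
        rw [hK, Real.exp_neg]
        field_simp
      rw [h3]
      have h4 := mul_le_mul_of_nonneg_left hmass (Real.exp_pos (-2)).le
      linarith
    have h1 : |y a w - y a' w| ≤ K * ∑ b, mm b * |y a w - y a' w| := by
      rw [← sum_mul, ← mul_assoc]
      have h2 : 1 ≤ K * ∑ b, mm b := by
        rw [div_le_iff₀' hK0] at hsum
        exact hsum
      nlinarith [abs_nonneg (y a w - y a' w)]
    have h3 : ∑ b, mm b * |y a w - y a' w| ≤
        ∑ b, ν a b * |y a w - y b w| + ∑ b, ν a' b * |y a' w - y b w| := by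
      rw [← sum_add_distrib]
      refine sum_le_sum fun b _ => ?_
      have h4 : |y a w - y a' w| ≤ |y a w - y b w| + |y a' w - y b w| := by
        have := abs_sub_le (y a w) (y b w) (y a' w)
        rwa [abs_sub_comm (y b w) (y a' w)] at this
      have h5 := mul_le_mul_of_nonneg_left h4 (hmm0 b)
      have h6 := mul_le_mul_of_nonneg_right (hm1 b) (abs_nonneg (y a w - y b w))
      have h7 := mul_le_mul_of_nonneg_right (hm2 b) (abs_nonneg (y a' w - y b w))
      linarith
    have h8 := mul_le_mul_of_nonneg_left h3 hK0.le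
    rw [mul_add] at h8
    exact h1.trans h8
  · intro a
    have eK : K * (17 * C0) * L ^ th = K * (17 * C0 * L ^ th) := by ring
    rw [nrm_smul hp0 K (fun w => ∑ b, ν a b * |y a w - y b w|), abs_of_pos hK0, eK]
    refine mul_le_mul_of_nonneg_left ?_ hK0.le
    refine (nrm_sum_le hp.le univ (fun b w => ν a b * |y a w - y b w|)).trans ?_
    have h1 : ∀ b, nrm p (fun w => ν a b * |y a w - y b w|) = ν a b * dd p y a b := by
      intro b
      rw [nrm_smul hp0 (ν a b) (fun w => |y a w - y b w|), abs_of_nonneg (hν0 a b)]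
      congr 1
      exact nrm_congr_abs _ _ fun w => abs_abs _
    rw [sum_congr rfl fun b _ => h1 b]
    simp only [hν, sum_mul]
    rw [sum_comm]
    have h2 : ∀ c, ∑ b, mu (dd p y a) 1 c * k c a b * dd p y a b ≤
        mu (dd p y a) 1 c * (17 * C0 * L ^ th) := by
      intro c
      simp only [mul_assoc]
      rw [← mul_sum]
      refine mul_le_mul_of_nonneg_left ?_ (mu_pos _ _ _).le
      have hb0 : 0 ≤ 17 * (C0 * L ^ th) := by positivity
      by_cases hc : dd p y a c ≤ 5 * L
      · have h3 : ∀ b, k c a b = κ c a b := by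
          intro b
          simp only [hk]
          rw [if_pos hc]
        simp only [h3]
        have h4 : ∀ b, κ c a b * dd p y a b ≤
            C0 * L ^ th * κ c a b + C0 * L ^ th / L * (κ c a b * ds (u c a) (u c b)) := by
          intro b
          refine (mul_le_mul_of_nonneg_left (hu2 c a b hc) (hκ0 c a b)).trans (le_of_eq ?_)
          ring
        refine (sum_le_sum fun b _ => h4 b).trans ?_
        rw [sum_add_distrib, ← mul_sum, ← mul_sum, hκ1 c a, mul_one]
        have h5 := gauss_sq (u c) a (κ c a) (hκ0 c a) (hκ1 c a) (hκ3 c a)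
        rw [← hL] at h5
        have h6 := mul_le_mul_of_nonneg_left h5 (by positivity : 0 ≤ C0 * L ^ th / L)
        have h7 : C0 * L ^ th / L * (16 * L) = 16 * (C0 * L ^ th) := by
          field_simp
        linarith
      · have h3 : ∀ b, k c a b * dd p y a b = 0 := by
          intro b
          simp only [hk]
          rw [if_neg hc]
          split_ifs with hab
          · rw [← hab, dd_self hp0, mul_zero]
          · rw [zero_mul]
        simp only [h3, sum_const_zero]
        exact hb0
    refine (sum_le_sum fun c _ => h2 c).trans (le_of_eq ?_)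
    rw [← sum_mul, mu_sum, one_mul]

/-- **T2SCALE.** One bad scale. -/
theorem scale2 {p : ℝ} (hp : 1 < p) : ∃ C th : ℝ, 0 < C ∧ 0 ≤ th ∧ th < 1 ∧
    ∀ {A W : Type*} [Fintype A] [Nonempty A] [Fintype W] (x : A → W → ℝ) (s : ℝ), 0 < s →
      ∃ h : A → W → ℝ, (∀ a w, 0 ≤ h a w) ∧
        (∀ a b w, dd p x a b * s ≤ 1 → s * |x a w - x b w| ≤ h a w + h b w) ∧
        ∀ a, nrm p (h a) ≤ C * (1 + Real.log (Fintype.card A)) ^ th := by
  obtain ⟨C, th, hC, hth0, hth1, H⟩ := sc2_one hp
  refine ⟨C, th, hC, hth0, hth1, ?_⟩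
  intro A W _ _ _ x s hs
  have hp0 : 0 < p := by linarith
  obtain ⟨h, h0, h1, h2⟩ := H (fun a w => s * x a w)
  refine ⟨h, h0, ?_, h2⟩
  intro a b w hab
  have e : dd p (fun a w => s * x a w) a b = dd p x a b * s := by
    unfold dd
    have e2 : (fun w => s * x a w - s * x b w) = fun w => s * (x a w - x b w) := by
      funext w; ring
    rw [e2, nrm_smul hp0 s (fun w => x a w - x b w), abs_of_pos hs, mul_comm]
  have h3 := h1 a b w (by rw [e]; exact hab)
  have e3 : s * x a w - s * x b w = s * (x a w - x b w) := by ring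
  rw [e3, abs_mul, abs_of_pos hs] at h3
  exact h3

end Vale.Agent.Lib.P249
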