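import Vale.Agent.Lib.P249.HG
import Vale.Agent.Lib.P249.Asm1

/-! P249 MODULE T1FIN: choice of the parameters for `p ≥ 1` (some distortion `D = D(ε)`, dimension `n^ε`). -/

namespace Vale.Agent.Lib.P249

open Finset

/-- the constants -/
theorem t1_consts {p δ : ℝ} (hp : 1 ≤ p) (hδ0 : 0 < δ) :
    ∃ (q J2 : ℕ) (ν B g k R0 : ℝ), 5 ≤ (q : ℝ) * δ ∧ 1 ≤ q ∧ 0 < ν ∧
      ν * (2 * p * Real.log 2) = δ ∧ 0 < B ∧ 64 * Real.exp 2 = B * ν ∧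
      9 ≤ (J2 : ℝ) * (ν * Real.log 2) ∧ 0 < g ∧ g ≤ 1 ∧
      (1 / 2 : ℝ) ^ p / ((J2 + 2 : ℕ) : ℝ) ^ (p - 1) = 2 * g ∧ 0 < k ∧ k ≤ 1 ∧
      ((J2 + 2 : ℕ) : ℝ) * (k * (1 + B) ^ p + k) ≤ g ∧ 1 ≤ R0 ∧
      2 * ((2 * (q : ℝ)) ^ p * 2 + 2) ≤ k * R0 ∧ 2 ≤ k * R0 := by
  have hp0 : 0 < p := by linarith
  have hl2 : 0 < Real.log 2 := Real.log_pos (by norm_num)
  obtain ⟨q, hq⟩ := exists_nat_gt (5 / δ)
  have hq5 : 5 ≤ (q : ℝ) * δ := by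
    have := (div_lt_iff₀ hδ0).mp hq
    linarith
  have hq1 : 1 ≤ q := by
    rcases Nat.eq_zero_or_pos q with h | h
    · rw [h] at hq5; norm_num at hq5
    · exact h
  obtain ⟨ν, hν⟩ : ∃ ν : ℝ, ν = δ / (2 * p * Real.log 2) := ⟨_, rfl⟩
  have hν0 : 0 < ν := by rw [hν]; positivity
  obtain ⟨B, hB⟩ : ∃ B : ℝ, B = 64 * Real.exp 2 / ν := ⟨_, rfl⟩
  have hB0 : 0 < B := by rw [hB]; positivity
  obtain ⟨J2, hJ2⟩ := exists_nat_gt (9 / (ν * Real.log 2))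
  have hJ9 : 9 ≤ (J2 : ℝ) * (ν * Real.log 2) := by
    have := (div_lt_iff₀ (by positivity)).mp hJ2
    linarith
  obtain ⟨J, hJ⟩ : ∃ J : ℝ, J = ((J2 + 2 : ℕ) : ℝ) := ⟨_, rfl⟩
  have hJr1 : (1 : ℝ) ≤ J := by rw [hJ]; push_cast; linarith [(Nat.cast_nonneg J2 : (0 : ℝ) ≤ J2)]
  have hJr : (0 : ℝ) < J := by linarith
  obtain ⟨g, hg⟩ : ∃ g : ℝ, g = (1 / 2) ^ p / J ^ (p - 1) / 2 := ⟨_, rfl⟩
  have hJp : (1 : ℝ) ≤ J ^ (p - 1) := Real.one_le_rpow hJr1 (by linarith)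
  have hhalf0 : (0 : ℝ) < (1 / 2) ^ p := Real.rpow_pos_of_pos (by norm_num) _
  have hhalf1 : ((1 : ℝ) / 2) ^ p ≤ 1 := Real.rpow_le_one (by norm_num) (by norm_num) hp0.le
  have hg0 : 0 < g := by rw [hg]; positivity
  have hg1 : g ≤ 1 := by
    have h1 : (1 / 2 : ℝ) ^ p / J ^ (p - 1) ≤ 1 := by
      rw [div_le_one (by linarith)]; linarith
    rw [hg]; linarith
  have hBp : (1 : ℝ) ≤ (1 + B) ^ p := Real.one_le_rpow (by linarith) hp0.le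
  obtain ⟨k, hk⟩ : ∃ k : ℝ, k = g / (2 * J * (1 + B) ^ p) := ⟨_, rfl⟩
  have hk0 : 0 < k := by rw [hk]; positivity
  have hk1 : k ≤ 1 := by
    rw [hk, div_le_one (by positivity)]
    nlinarith
  have hkJ : J * (k * (1 + B) ^ p + k) ≤ g := by
    have e1 : J * (k * (1 + B) ^ p) = g / 2 := by
      rw [hk]; field_simp
    have e2 : J * k ≤ J * (k * (1 + B) ^ p) := by
      refine mul_le_mul_of_nonneg_left ?_ hJr.le
      nlinarith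
    nlinarith
  obtain ⟨R0, hR0⟩ : ∃ R0 : ℝ, R0 = 1 + 2 * ((2 * (q : ℝ)) ^ p * 2 + 2) / k + 2 / k := ⟨_, rfl⟩
  have hq2p : (0 : ℝ) ≤ (2 * (q : ℝ)) ^ p := Real.rpow_nonneg (by positivity) _
  have h1 : 0 ≤ 2 * ((2 * (q : ℝ)) ^ p * 2 + 2) / k := by positivity
  have h2 : 0 ≤ 2 / k := by positivity
  have h3 : k * (2 * ((2 * (q : ℝ)) ^ p * 2 + 2) / k) = 2 * ((2 * (q : ℝ)) ^ p * 2 + 2) := by
    field_simp
  have h4 : k * (2 / k) = 2 := by field_simp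
  refine ⟨q, J2, ν, B, g, k, R0, hq5, hq1, hν0, ?_, hB0, ?_, hJ9, hg0, hg1, ?_, hk0, hk1, ?_,
    ?_, ?_, ?_⟩
  · rw [hν]; field_simp
  · rw [hB]; field_simp
  · rw [← hJ, hg]; ring
  · rw [← hJ]; exact hkJ
  · rw [hR0]; linarith
  · have h5 : k * R0 = k + k * (2 * ((2 * (q : ℝ)) ^ p * 2 + 2) / k) + k * (2 / k) := by
      rw [hR0]; ring
    rw [h5, h3, h4]; linarith
  · have h5 : k * R0 = k + k * (2 * ((2 * (q : ℝ)) ^ p * 2 + 2) / k) + k * (2 / k) := by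
      rw [hR0]; ring
    rw [h5, h3, h4]; linarith

theorem t1_pow {p ν δ L : ℝ} (hp : 1 ≤ p) (hν : ν * (2 * p * Real.log 2) = δ) (N : ℕ)
    (hNle : (N : ℝ) ≤ ν * (L + 1) + 1) :
    ((2 : ℝ) ^ ((1 + 1) * N)) ^ p ≤ 4 ^ p * (Real.exp δ * Real.exp (δ * L)) := by
  have hl2 : 0 < Real.log 2 := Real.log_pos (by norm_num)
  have e1 : ((2 : ℝ) ^ ((1 + 1) * N)) = Real.exp (2 * N * Real.log 2) := by
    rw [← Real.rpow_natCast, Real.rpow_def_of_pos (by norm_num)]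
    push_cast
    ring_nf
  have h4 : (4 : ℝ) = Real.exp (2 * Real.log 2) := by
    rw [show 2 * Real.log 2 = Real.log 2 + Real.log 2 by ring, Real.exp_add,
      Real.exp_log (by norm_num)]
    norm_num
  rw [e1, ← Real.exp_mul, h4, ← Real.exp_mul, ← Real.exp_add, ← Real.exp_add]
  refine Real.exp_le_exp.mpr ?_
  have h5 : (N : ℝ) * (2 * p * Real.log 2) ≤ (ν * (L + 1) + 1) * (2 * p * Real.log 2) :=
    mul_le_mul_of_nonneg_right hNle (by positivity)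
  have h6 : ν * (L + 1) * (2 * p * Real.log 2) = δ * (L + 1) := by
    rw [← hν]; ring
  nlinarith

theorem t1_L {p δ L : ℝ} (hp : 1 ≤ p) (hδ : 0 < δ) (hL : 0 ≤ L) :
    (L + 1) ^ (p + 1) ≤ Real.exp (δ * L) / (min 1 (δ / (p + 1))) ^ (p + 1) := by
  obtain ⟨δ', hδ'⟩ : ∃ δ' : ℝ, δ' = min 1 (δ / (p + 1)) := ⟨_, rfl⟩
  rw [← hδ']
  have hδ'0 : 0 < δ' := by
    rw [hδ']; exact lt_min one_pos (by positivity)
  have h1 : δ' * (L + 1) ≤ Real.exp (δ' * L) := by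
    have h2 := Real.add_one_le_exp (δ' * L)
    have h3 : δ' ≤ 1 := by rw [hδ']; exact min_le_left _ _
    nlinarith
  have h2 : (δ' * (L + 1)) ^ (p + 1) ≤ Real.exp (δ' * L) ^ (p + 1) :=
    Real.rpow_le_rpow (by positivity) h1 (by linarith)
  rw [Real.mul_rpow hδ'0.le (by positivity), ← Real.exp_mul] at h2
  have h3 : δ' * L * (p + 1) ≤ δ * L := by
    have h4 : δ' ≤ δ / (p + 1) := by rw [hδ']; exact min_le_right _ _
    rw [le_div_iff₀ (by linarith)] at h4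
    nlinarith
  rw [le_div_iff₀ (Real.rpow_pos_of_pos hδ'0 _)]
  calc (L + 1) ^ (p + 1) * δ' ^ (p + 1) = δ' ^ (p + 1) * (L + 1) ^ (p + 1) := by ring
    _ ≤ Real.exp (δ' * L * (p + 1)) := h2
    _ ≤ Real.exp (δ * L) := Real.exp_le_exp.mpr h3

theorem t1_X {p δ L R0 Q H T lg a a' c : ℝ} (hp : 1 ≤ p) (hL0 : 0 ≤ L) (hQ : 0 ≤ Q)
    (hH0 : 0 ≤ H) (hHle : H ≤ 4 * Real.exp 2 * (L + 1)) (hT0 : 0 ≤ T)
    (hT : T ^ p ≤ 4 ^ p * (Real.exp δ * Real.exp (δ * L))) (ha0 : 0 ≤ a) (ha : a ≤ a')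
    (hlg0 : 0 ≤ lg) (hlg : lg ≤ 2 * (L + 1)) (hR0 : 0 ≤ R0)
    (hL1 : (L + 1) ^ (p + 1) ≤ Real.exp (δ * L) / c) :
    8 * a * (2 * (R0 * Real.exp (δ * L)) * (Q * H * T) ^ p) * lg ≤
      8 * a' * (2 * R0 * ((Q * (4 * Real.exp 2) * 4) ^ p * Real.exp δ)) * 2 / c *
        Real.exp (3 * δ * L) := by
  have hp0 : 0 < p := by linarith
  have h1 : (Q * H * T) ^ p ≤ (Q * (4 * Real.exp 2)) ^ p * (L + 1) ^ p *
        (4 ^ p * (Real.exp δ * Real.exp (δ * L))) := by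
    have h2 : Q * H * T ≤ (Q * (4 * Real.exp 2)) * (L + 1) * T := by
      refine mul_le_mul_of_nonneg_right ?_ hT0
      calc Q * H ≤ Q * (4 * Real.exp 2 * (L + 1)) := mul_le_mul_of_nonneg_left hHle hQ
        _ = _ := by ring
    refine (Real.rpow_le_rpow (by positivity) h2 hp0.le).trans ?_
    rw [Real.mul_rpow (by positivity) hT0, Real.mul_rpow (by positivity) (by positivity)]
    exact mul_le_mul_of_nonneg_left hT (by positivity)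
  have hc : (Q * (4 * Real.exp 2) * 4) ^ p = (Q * (4 * Real.exp 2)) ^ p * 4 ^ p :=
    Real.mul_rpow (by positivity) (by norm_num)
  have hLL : (L + 1) ^ p * (L + 1) = (L + 1) ^ (p + 1) := by
    rw [Real.rpow_add_one (by linarith)]
  have hn3 : Real.exp (δ * L) * Real.exp (δ * L) * Real.exp (δ * L) = Real.exp (3 * δ * L) := by
    rw [← Real.exp_add, ← Real.exp_add]
    congr 1; ring
  have hY0 : (0 : ℝ) ≤ (Q * (4 * Real.exp 2)) ^ p := Real.rpow_nonneg (by positivity) _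
  have h40 : (0 : ℝ) ≤ (4 : ℝ) ^ p := Real.rpow_nonneg (by norm_num) _
  have hLp0 : (0 : ℝ) ≤ (L + 1) ^ p := Real.rpow_nonneg (by linarith) _
  have hZ0 : (0 : ℝ) ≤ (Q * H * T) ^ p := Real.rpow_nonneg (by positivity) _
  have ha' : 0 ≤ a' := ha0.trans ha
  calc 8 * a * (2 * (R0 * Real.exp (δ * L)) * (Q * H * T) ^ p) * lg
      ≤ 8 * a' * (2 * (R0 * Real.exp (δ * L)) * ((Q * (4 * Real.exp 2)) ^ p *
        (L + 1) ^ p * (4 ^ p * (Real.exp δ * Real.exp (δ * L))))) * (2 * (L + 1)) := by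
        refine mul_le_mul ?_ hlg hlg0 (by positivity)
        refine mul_le_mul ?_ ?_ (by positivity) (by positivity)
        · exact mul_le_mul_of_nonneg_left ha (by norm_num)
        · exact mul_le_mul_of_nonneg_left h1 (by positivity)
    _ = 8 * a' * (2 * R0 * ((Q * (4 * Real.exp 2)) ^ p * 4 ^ p *
        Real.exp δ)) * 2 * (Real.exp (δ * L) * Real.exp (δ * L)) * ((L + 1) ^ p * (L + 1)) := by
        ring
    _ ≤ 8 * a' * (2 * R0 * ((Q * (4 * Real.exp 2)) ^ p * 4 ^ p *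
        Real.exp δ)) * 2 * (Real.exp (δ * L) * Real.exp (δ * L)) * (Real.exp (δ * L) / c) := by
        rw [hLL]
        exact mul_le_mul_of_nonneg_left hL1 (by positivity)
    _ = _ := by
        rw [hc, ← hn3]; ring

theorem t1_low {ν L H Wp : ℝ} (hL0 : 0 ≤ L) (hH0 : 0 ≤ H)
    (hHle : H ≤ 4 * Real.exp 2 * (L + 1)) (J2 N : ℕ) (hJ9 : 9 ≤ (J2 : ℝ) * (ν * Real.log 2))
    (hNν : ν * (L + 1) ≤ N) (hW0 : 0 ≤ Wp) (hW : Wp ≤ Real.exp (3 * L)) :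
    2 * (H * 2 ^ ((1 + 1) * N) / 2 ^ ((J2 + 2) * 1 * N)) * Wp ≤ 1 / 2 := by
  have hl2 : 0 < Real.log 2 := Real.log_pos (by norm_num)
  have e1 : H * 2 ^ ((1 + 1) * N) / 2 ^ ((J2 + 2) * 1 * N) = H / 2 ^ (J2 * N) := by
    rw [show (J2 + 2) * 1 * N = J2 * N + (1 + 1) * N by ring, pow_add]
    field_simp
  have h9 : Real.exp (9 * (L + 1)) ≤ 2 ^ (J2 * N) := by
    rw [← Real.rpow_natCast, Real.rpow_def_of_pos (by norm_num)]
    refine Real.exp_le_exp.mpr ?_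
    push_cast
    have h1 : (J2 : ℝ) * (ν * Real.log 2) * (L + 1) ≤ Real.log 2 * (J2 * N) := by
      have h2 : (0 : ℝ) ≤ Real.log 2 * J2 := by positivity
      have := mul_le_mul_of_nonneg_left hNν h2
      nlinarith
    have h3 : 9 * (L + 1) ≤ (J2 : ℝ) * (ν * Real.log 2) * (L + 1) :=
      mul_le_mul_of_nonneg_right hJ9 (by linarith)
    linarith
  have hpos : (0 : ℝ) < Real.exp (9 * (L + 1)) := Real.exp_pos _
  have h5 : H / 2 ^ (J2 * N) ≤ H / Real.exp (9 * (L + 1)) :=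
    div_le_div_of_nonneg_left hH0 hpos h9
  have h6 : 4 * (H * Real.exp (3 * L)) ≤ Real.exp (9 * (L + 1)) := by
    have h16 : (16 : ℝ) ≤ Real.exp 3 := by
      have h2 : Real.exp 3 = Real.exp 1 ^ 3 := by
        rw [← Real.exp_nat_mul]; norm_num
      have h3 : (2.7 : ℝ) ≤ Real.exp 1 := by
        have := Real.exp_one_gt_d9; linarith
      rw [h2]
      calc (16 : ℝ) ≤ 2.7 ^ 3 := by norm_num
        _ ≤ _ := pow_le_pow_left₀ (by norm_num) h3 3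
    have hL1e : L + 1 ≤ Real.exp L := Real.add_one_le_exp L
    calc 4 * (H * Real.exp (3 * L)) ≤ 4 * ((4 * Real.exp 2 * (L + 1)) * Real.exp (3 * L)) := by
          refine mul_le_mul_of_nonneg_left ?_ (by norm_num)
          exact mul_le_mul_of_nonneg_right hHle (Real.exp_pos _).le
      _ = 16 * (Real.exp 2 * ((L + 1) * Real.exp (3 * L))) := by ring
      _ ≤ Real.exp 3 * (Real.exp 2 * (Real.exp L * Real.exp (3 * L))) := by
          refine mul_le_mul h16 ?_ (by positivity) (Real.exp_pos _).le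
          refine mul_le_mul_of_nonneg_left ?_ (Real.exp_pos _).le
          exact mul_le_mul_of_nonneg_right hL1e (Real.exp_pos _).le
      _ = Real.exp (5 + 4 * L) := by
          rw [← Real.exp_add, ← Real.exp_add, ← Real.exp_add]
          congr 1; ring
      _ ≤ Real.exp (9 * (L + 1)) := Real.exp_le_exp.mpr (by linarith)
  rw [e1]
  calc 2 * (H / 2 ^ (J2 * N)) * Wp ≤ 2 * (H / Real.exp (9 * (L + 1))) * Real.exp (3 * L) := by
        refine mul_le_mul ?_ hW hW0 (by positivity)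
        linarith
    _ = 4 * (H * Real.exp (3 * L)) / Real.exp (9 * (L + 1)) / 2 := by ring
    _ ≤ 1 / 2 := by
        have := (div_le_one hpos).mpr h6
        linarith

theorem t1_cond {p δ k R0 : ℝ} (hδ : 0 ≤ δ) (q n w : ℕ) (hn1 : 1 ≤ n) (hw : w ≤ n ^ 3)
    (hq1 : 1 ≤ q) (hq5 : 5 ≤ (q : ℝ) * δ) (hk0 : 0 < k) (hR01 : 1 ≤ R0)
    (hR1 : 2 * ((2 * (q : ℝ)) ^ p * 2 + 2) ≤ k * R0) (hR2 : 2 ≤ k * R0) :
    (2 * (q : ℝ)) ^ p * (2 / (R0 * (n : ℝ) ^ δ)) + 2 / (R0 * (n : ℝ) ^ δ) +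
      (w : ℝ) * n / (R0 * (n : ℝ) ^ δ) ^ q ≤ k := by
  have hE1 : (1 : ℝ) ≤ n := by exact_mod_cast hn1
  have hE0 : (0 : ℝ) < n := by linarith
  have hnδ : 1 ≤ (n : ℝ) ^ δ := Real.one_le_rpow hE1 hδ
  obtain ⟨Rf, hRf⟩ : ∃ Rf : ℝ, Rf = R0 * (n : ℝ) ^ δ := ⟨_, rfl⟩
  rw [← hRf]
  have hRf0 : R0 ≤ Rf := by
    rw [hRf]; nlinarith
  have hRfpos : 0 < Rf := by linarith
  have hkR : k * R0 ≤ k * Rf := mul_le_mul_of_nonneg_left hRf0 hk0.le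
  have h1 : (2 * (q : ℝ)) ^ p * (2 / Rf) + 2 / Rf ≤ k / 2 := by
    have e1 : (2 * (q : ℝ)) ^ p * (2 / Rf) + 2 / Rf = ((2 * (q : ℝ)) ^ p * 2 + 2) / Rf := by
      field_simp
    rw [e1, div_le_iff₀ hRfpos]
    linarith
  have h2 : (w : ℝ) * n / Rf ^ q ≤ k / 2 := by
    have hWr : (w : ℝ) ≤ (n : ℝ) ^ 3 := by exact_mod_cast hw
    have hRfq : R0 * (n : ℝ) ^ 4 ≤ Rf ^ q := by
      rw [hRf, mul_pow]
      refine mul_le_mul ?_ ?_ (by positivity) (by positivity)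
      · exact le_self_pow₀ hR01 (by omega)
      · rw [← Real.rpow_natCast ((n : ℝ) ^ δ) q, ← Real.rpow_mul hE0.le,
          ← Real.rpow_natCast (n : ℝ) 4]
        refine Real.rpow_le_rpow_of_exponent_le hE1 ?_
        push_cast
        nlinarith
    rw [div_le_iff₀ (by positivity)]
    calc (w : ℝ) * n ≤ (n : ℝ) ^ 3 * n := mul_le_mul_of_nonneg_right hWr hE0.le
      _ = (n : ℝ) ^ 4 := by ring
      _ ≤ k / 2 * (R0 * (n : ℝ) ^ 4) := by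
          have : (1 : ℝ) ≤ k / 2 * R0 := by linarith
          have h5 : (0 : ℝ) ≤ (n : ℝ) ^ 4 := by positivity
          nlinarith
      _ ≤ k / 2 * Rf ^ q := mul_le_mul_of_nonneg_left hRfq (by positivity)
  linarith

theorem t1_log (n : ℕ) (hn1 : 1 ≤ n) :
    Real.log (2 * (n : ℝ) ^ 2 + 1) ≤ 2 * (Real.log n + 1) := by
  have hE1 : (1 : ℝ) ≤ n := by exact_mod_cast hn1
  have hE0 : (0 : ℝ) < n := by linarith
  have h1 : 2 * (n : ℝ) ^ 2 + 1 ≤ Real.exp (2 * (Real.log n + 1)) := by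
    have e1 : Real.exp (2 * (Real.log n + 1)) = (n : ℝ) ^ 2 * Real.exp 2 := by
      rw [show 2 * (Real.log n + 1) = Real.log n + Real.log n + 2 by ring, Real.exp_add,
        Real.exp_add, Real.exp_log hE0]; ring
    rw [e1]
    have h2 := Real.add_one_le_exp (2 : ℝ)
    have h3 : (1 : ℝ) ≤ (n : ℝ) ^ 2 := one_le_pow₀ hE1
    nlinarith
  calc Real.log (2 * (n : ℝ) ^ 2 + 1) ≤ Real.log (Real.exp (2 * (Real.log n + 1))) :=
        Real.log_le_log (by positivity) h1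
    _ = _ := Real.log_exp _

theorem t1_M {X K c E : ℝ} (hX0 : 0 ≤ X) (hK : 0 < K) (hE : 1 ≤ E) (hX : X ≤ c * E) (M : ℕ)
    (hM : M = ⌈X / K⌉₊ + 1) : X ≤ K * M ∧ (M : ℝ) ≤ (c / K + 2) * E := by
  have h1 : X / K ≤ M := by
    rw [hM]; push_cast
    have := Nat.le_ceil (X / K)
    linarith
  have h2 : (M : ℝ) ≤ X / K + 2 := by
    rw [hM]; push_cast
    have := (Nat.ceil_lt_add_one (div_nonneg hX0 hK.le)).le
    linarith
  have h3 : X / K ≤ c / K * E := by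
    rw [div_mul_eq_mul_div]
    exact div_le_div_of_nonneg_right hX hK.le
  constructor
  · rw [div_le_iff₀ hK] at h1
    linarith
  · linarith

theorem t1_HN {B ν L H N : ℝ} (hB0 : 0 < B) (hB : 64 * Real.exp 2 = B * ν) (hN0 : 0 < N)
    (hNν : ν * (L + 1) ≤ N) (hHle : H ≤ 4 * Real.exp 2 * (L + 1)) : 16 * H / N ≤ B := by
  rw [div_le_iff₀ hN0]
  have h1 : 16 * H ≤ B * (ν * (L + 1)) := by
    have h3 : 16 * H ≤ 64 * Real.exp 2 * (L + 1) := by linarith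
    rw [hB] at h3
    linarith
  have h2 : B * (ν * (L + 1)) ≤ B * N := mul_le_mul_of_nonneg_left hNν hB0.le
  linarith

/-- the statement of the assembly that is used (windows without offsets) -/
def Asm1 (p : ℝ) : Prop :=
  ∀ (A W : Type) [Fintype A] [Nonempty A] [Fintype W] (x h : A → W → ℝ),
    (∀ a w, 0 ≤ h a w) → (∀ a b w, |x a w - x b w| ≤ dd p x a b * (h a w + h b w)) →
    ∀ (H : ℝ), 0 < H → (∀ a, nrm p (h a) ≤ H) → ∀ (N P J q M : ℕ), 0 < N → 0 < P → 0 < J →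
    0 < M → ∀ (Rf k e : ℝ), 1 ≤ Rf →
    (2 * (q : ℝ)) ^ p * (2 / Rf) + 2 / Rf + (Fintype.card W : ℝ) * Fintype.card A / Rf ^ q ≤ k →
    k ≤ 1 → 0 < e → e ≤ 1 →
    8 * (1 + 16 * H / N) ^ p * (2 * Rf * (8 * ((q : ℝ) + 1) * H * 2 ^ ((P + 1) * N)) ^ p) *
      Real.log (2 * (Fintype.card A : ℝ) ^ 2 + 1) ≤ e ^ 2 * M →
    ∃ F : A → (Fin P × Fin J × Fin M) → ℝ, ∀ a b,
      ∑ i, |F a i - F b i| ^ p ≤
        ((1 + 16 * H / N) ^ p + J * (k * (1 + 16 * H / N) ^ p + e)) * dd p x a b ^ p ∧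
      ∀ z : ℝ, 0 ≤ z → z ≤ 1 - 2 * (H * 2 ^ ((P + 1) * N) / 2 ^ (J * P * N)) *
          (Fintype.card W : ℝ) ^ (1 / p) →
        (z ^ p / (J : ℝ) ^ (p - 1) - J * (k * (1 + 16 * H / N) ^ p + e)) * dd p x a b ^ p ≤
          ∑ i, |F a i - F b i| ^ p

/-- one family -/
theorem t1_one {p δ ν B g k R0 : ℝ} (hp : 1 ≤ p) (hδ0 : 0 < δ) (hasm : Asm1 p) (q J2 : ℕ)
    (hq5 : 5 ≤ (q : ℝ) * δ) (hq1 : 1 ≤ q) (hν0 : 0 < ν) (hν : ν * (2 * p * Real.log 2) = δ)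
    (hB0 : 0 < B) (hB : 64 * Real.exp 2 = B * ν) (hJ9 : 9 ≤ (J2 : ℝ) * (ν * Real.log 2))
    (hg : (1 / 2 : ℝ) ^ p / ((J2 + 2 : ℕ) : ℝ) ^ (p - 1) = 2 * g)
    (hk0 : 0 < k) (hk1 : k ≤ 1) (hkJ : ((J2 + 2 : ℕ) : ℝ) * (k * (1 + B) ^ p + k) ≤ g)
    (hR01 : 1 ≤ R0) (hR1 : 2 * ((2 * (q : ℝ)) ^ p * 2 + 2) ≤ k * R0) (hR2 : 2 ≤ k * R0)
    (hg1 : g ≤ 1) (A W : Type) [Fintype A] [Nonempty A] [Fintype W]
    (hW : Fintype.card W ≤ Fintype.card A ^ 3) (x : A → W → ℝ) :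
    ∃ (M : ℕ) (F : A → (Fin 1 × Fin (J2 + 2) × Fin M) → ℝ),
      (M : ℝ) ≤ (8 * (1 + B) ^ p * (2 * R0 * ((8 * ((q : ℝ) + 1) * (4 * Real.exp 2) * 4) ^ p *
        Real.exp δ)) * 2 / (min 1 (δ / (p + 1))) ^ (p + 1) / k ^ 2 + 2) *
          (Fintype.card A : ℝ) ^ (3 * δ) ∧
      ∀ a b, g * dd p x a b ^ p ≤ ∑ i, |F a i - F b i| ^ p ∧
        ∑ i, |F a i - F b i| ^ p ≤ ((1 + B) ^ p + 1) * dd p x a b ^ p := by
  classical
  have hp0 : 0 < p := by linarith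
  obtain ⟨h, hh0, hhx, hhn⟩ := exists_hajlasz (p := p) hp x
  obtain ⟨n, hn⟩ : ∃ n : ℕ, n = Fintype.card A := ⟨_, rfl⟩
  rw [← hn] at hhn hW ⊢
  have hn1 : 1 ≤ n := by rw [hn]; exact Fintype.card_pos
  have hE1 : (1 : ℝ) ≤ n := by exact_mod_cast hn1
  have hE0 : (0 : ℝ) < n := by linarith
  obtain ⟨L, hL⟩ : ∃ L : ℝ, L = Real.log n := ⟨_, rfl⟩
  rw [← hL] at hhn
  have hL0 : 0 ≤ L := by rw [hL]; exact Real.log_nonneg hE1
  have hexpL : Real.exp L = n := by rw [hL]; exact Real.exp_log hE0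
  have hrp : ∀ t : ℝ, (n : ℝ) ^ t = Real.exp (t * L) := by
    intro t
    rw [Real.rpow_def_of_pos hE0, ← hL, mul_comm]
  have he2 : 1 ≤ 4 * Real.exp 2 := by
    have := Real.add_one_le_exp (2 : ℝ); linarith
  obtain ⟨H, hH⟩ : ∃ H : ℝ, H = 4 * Real.exp 2 * L + 1 := ⟨_, rfl⟩
  have hH0 : 0 < H := by rw [hH]; positivity
  have hHle : H ≤ 4 * Real.exp 2 * (L + 1) := by rw [hH]; linarith
  obtain ⟨N, hN⟩ : ∃ N : ℕ, N = ⌈ν * (L + 1)⌉₊ := ⟨_, rfl⟩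
  have hNν : ν * (L + 1) ≤ N := by rw [hN]; exact Nat.le_ceil _
  have hN0' : (0 : ℝ) < N := lt_of_lt_of_le (by positivity) hNν
  have hN0 : 0 < N := by exact_mod_cast hN0'
  have hNle : (N : ℝ) ≤ ν * (L + 1) + 1 := by
    rw [hN]; exact (Nat.ceil_lt_add_one (by positivity)).le
  have hHN : 16 * H / N ≤ B := t1_HN hB0 hB hN0' hNν hHle
  have hHN0 : 0 ≤ 16 * H / N := by positivity
  have hBpow : (1 + 16 * H / N) ^ p ≤ (1 + B) ^ p :=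
    Real.rpow_le_rpow (by linarith) (by linarith) hp0.le
  have hBpow0 : 0 ≤ (1 + 16 * H / N) ^ p := Real.rpow_nonneg (by linarith) _
  have hnδ : 1 ≤ (n : ℝ) ^ δ := Real.one_le_rpow hE1 hδ0.le
  have hRf1 : 1 ≤ R0 * (n : ℝ) ^ δ := one_le_mul_of_one_le_of_one_le hR01 hnδ
  have hcond := t1_cond (p := p) hδ0.le q n (Fintype.card W) hn1 hW hq1 hq5 hk0 hR01 hR1 hR2
  obtain ⟨X, hX⟩ : ∃ X : ℝ, X = 8 * (1 + 16 * H / N) ^ p *
    (2 * (R0 * (n : ℝ) ^ δ) * (8 * ((q : ℝ) + 1) * H * 2 ^ ((1 + 1) * N)) ^ p) *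
    Real.log (2 * (n : ℝ) ^ 2 + 1) := ⟨_, rfl⟩
  have hlog0 : 0 ≤ Real.log (2 * (n : ℝ) ^ 2 + 1) :=
    Real.log_nonneg (by have := sq_nonneg (n : ℝ); linarith)
  have hX0 : 0 ≤ X := by
    have h2 : (0 : ℝ) ≤ (8 * ((q : ℝ) + 1) * H * 2 ^ ((1 + 1) * N)) ^ p :=
      Real.rpow_nonneg (by positivity) _
    rw [hX]
    positivity
  have hk2 : 0 < k ^ 2 := by positivity
  have hlog : Real.log (2 * (n : ℝ) ^ 2 + 1) ≤ 2 * (L + 1) := by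
    rw [hL]; exact t1_log n hn1
  have hXle := t1_X (p := p) (δ := δ) (L := L) (R0 := R0) (Q := 8 * ((q : ℝ) + 1)) (H := H)
    (T := 2 ^ ((1 + 1) * N)) (lg := Real.log (2 * (n : ℝ) ^ 2 + 1))
    (a := (1 + 16 * H / N) ^ p) (a' := (1 + B) ^ p)
    (c := (min 1 (δ / (p + 1))) ^ (p + 1)) hp hL0 (by positivity) hH0.le hHle (by positivity)
    (t1_pow hp hν N hNle) hBpow0 hBpow hlog0 hlog (by linarith) (t1_L hp hδ0 hL0)
  rw [← hrp δ, ← hX, ← hrp (3 * δ)] at hXle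
  obtain ⟨c1, hc1⟩ : ∃ c1 : ℝ, c1 = 8 * (1 + B) ^ p * (2 * R0 * ((8 * ((q : ℝ) + 1) *
    (4 * Real.exp 2) * 4) ^ p * Real.exp δ)) * 2 / (min 1 (δ / (p + 1))) ^ (p + 1) := ⟨_, rfl⟩
  rw [← hc1] at hXle ⊢
  have hnε : 1 ≤ (n : ℝ) ^ (3 * δ) := Real.one_le_rpow hE1 (by positivity)
  obtain ⟨M, hM⟩ : ∃ M : ℕ, M = ⌈X / k ^ 2⌉₊ + 1 := ⟨_, rfl⟩
  obtain ⟨hXM, hMle⟩ := t1_M hX0 hk2 hnε hXle M hM
  have hM0 : 0 < M := by rw [hM]; exact Nat.succ_pos _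
  have hhH : ∀ a, nrm p (h a) ≤ H := by
    intro a
    refine (hhn a).trans ?_
    rw [hH]; linarith
  obtain ⟨F, hF⟩ := hasm A W x h hh0 hhx H hH0 hhH
    N 1 (J2 + 2) q M hN0 one_pos (Nat.succ_pos _) hM0 (R0 * (n : ℝ) ^ δ) k k hRf1
    (by rw [← hn]; exact hcond) hk1 hk0 hk1 (by rw [← hn, ← hX]; exact hXM)
  refine ⟨M, F, hMle, ?_⟩
  intro a b
  have hdd : 0 ≤ dd p x a b ^ p := Real.rpow_nonneg (nrm_nonneg p _) _
  have herr : ((J2 + 2 : ℕ) : ℝ) * (k * (1 + 16 * H / N) ^ p + k) ≤ g := by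
    refine le_trans ?_ hkJ
    refine mul_le_mul_of_nonneg_left ?_ (by positivity)
    have := mul_le_mul_of_nonneg_left hBpow hk0.le
    linarith
  constructor
  · have hWp : (Fintype.card W : ℝ) ^ (1 / p) ≤ Real.exp (3 * L) := by
      have hWr : (Fintype.card W : ℝ) ≤ (n : ℝ) ^ 3 := by exact_mod_cast hW
      have h1 : (1 : ℝ) ≤ (n : ℝ) ^ 3 := one_le_pow₀ hE1
      calc (Fintype.card W : ℝ) ^ (1 / p) ≤ ((n : ℝ) ^ 3) ^ (1 / p) :=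
            Real.rpow_le_rpow (by positivity) hWr (by positivity)
        _ ≤ ((n : ℝ) ^ 3) ^ (1 : ℝ) := by
            refine Real.rpow_le_rpow_of_exponent_le h1 ?_
            rw [div_le_one hp0]; exact hp
        _ = (n : ℝ) ^ 3 := Real.rpow_one _
        _ = Real.exp (3 * L) := by
            rw [← hexpL, ← Real.exp_nat_mul]; norm_num
    have hlow := t1_low hL0 hH0.le hHle J2 N hJ9 hNν
      (Real.rpow_nonneg (Nat.cast_nonneg (Fintype.card W)) (1 / p)) hWp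
    have hz := (hF a b).2 (1 / 2) (by norm_num) (by linarith)
    refine le_trans ?_ hz
    refine mul_le_mul_of_nonneg_right ?_ hdd
    rw [hg]
    linarith
  · refine (hF a b).1.trans ?_
    refine mul_le_mul_of_nonneg_right ?_ hdd
    linarith

/-- T1: for every `p ≥ 1` and `ε > 0` some distortion with dimension `C n^ε` -/
theorem t1fin_of {p ε : ℝ} (hp : 1 ≤ p) (hε : 0 < ε) (hasm : Asm1 p) :
    ∃ C D : ℝ, 0 < C ∧ 1 ≤ D ∧ ∀ (A W : Type) [Fintype A] [Nonempty A] [Fintype W],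
      Fintype.card W ≤ Fintype.card A ^ 3 → ∀ x : A → W → ℝ,
      ∃ m : ℕ, (m : ℝ) ≤ C * (Fintype.card A : ℝ) ^ ε ∧ ∃ F : A → Fin m → ℝ, ∃ s : ℝ, 0 < s ∧
        ∀ a b, s ^ p * dd p x a b ^ p ≤ ∑ i, |F a i - F b i| ^ p ∧
          ∑ i, |F a i - F b i| ^ p ≤ (D * s) ^ p * dd p x a b ^ p := by
  classical
  have hp0 : 0 < p := by linarith
  have hδ0 : 0 < ε / 3 := by positivity
  obtain ⟨q, J2, ν, B, g, k, R0, hq5, hq1, hν0, hν, hB0, hB, hJ9, hg0, hg1, hg, hk0, hk1, hkJ,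
    hR01, hR1, hR2⟩ := t1_consts hp hδ0
  obtain ⟨c2, hc2⟩ : ∃ c2 : ℝ, c2 = 8 * (1 + B) ^ p * (2 * R0 * ((8 * ((q : ℝ) + 1) *
    (4 * Real.exp 2) * 4) ^ p * Real.exp (ε / 3))) * 2 /
      (min 1 (ε / 3 / (p + 1))) ^ (p + 1) / k ^ 2 + 2 := ⟨_, rfl⟩
  have hc20 : 0 < c2 := by
    have h1 : (0 : ℝ) < (8 * ((q : ℝ) + 1) * (4 * Real.exp 2) * 4) ^ p :=
      Real.rpow_pos_of_pos (by positivity) _
    have h2 : (0 : ℝ) < (min 1 (ε / 3 / (p + 1))) ^ (p + 1) :=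
      Real.rpow_pos_of_pos (lt_min one_pos (by positivity)) _
    have h3 : (0 : ℝ) < (1 + B) ^ p := Real.rpow_pos_of_pos (by linarith) _
    have h4 : 0 < R0 := by linarith
    rw [hc2]
    positivity
  have hBp : (1 : ℝ) ≤ (1 + B) ^ p := Real.one_le_rpow (by linarith) hp0.le
  have hUg : 1 ≤ ((1 + B) ^ p + 1) / g := by
    rw [le_div_iff₀ hg0]; linarith
  refine ⟨((J2 + 2 : ℕ) : ℝ) * c2, (((1 + B) ^ p + 1) / g) ^ (1 / p), by positivity,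
    Real.one_le_rpow hUg (by positivity), ?_⟩
  intro A W _ _ _ hW x
  obtain ⟨M, F, hM, hF⟩ := t1_one hp hδ0 hasm q J2 hq5 hq1 hν0 hν hB0 hB hJ9 hg hk0 hk1 hkJ hR01
    hR1 hR2 hg1 A W hW x
  rw [← hc2, show 3 * (ε / 3) = ε by ring] at hM
  refine ⟨Fintype.card (Fin 1 × Fin (J2 + 2) × Fin M), ?_,
    fun a i => F a ((Fintype.equivFin (Fin 1 × Fin (J2 + 2) × Fin M)).symm i), g ^ (1 / p),
    Real.rpow_pos_of_pos hg0 _, ?_⟩
  · rw [Fintype.card_prod, Fintype.card_prod, Fintype.card_fin, Fintype.card_fin,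
      Fintype.card_fin, one_mul, Nat.cast_mul]
    calc ((J2 + 2 : ℕ) : ℝ) * M ≤ ((J2 + 2 : ℕ) : ℝ) * (c2 * (Fintype.card A : ℝ) ^ ε) :=
          mul_le_mul_of_nonneg_left hM (by positivity)
      _ = _ := by ring
  intro a b
  have hsum : ∑ i, |F a ((Fintype.equivFin (Fin 1 × Fin (J2 + 2) × Fin M)).symm i) -
      F b ((Fintype.equivFin (Fin 1 × Fin (J2 + 2) × Fin M)).symm i)| ^ p =
      ∑ i, |F a i - F b i| ^ p :=
    Equiv.sum_comp (Fintype.equivFin (Fin 1 × Fin (J2 + 2) × Fin M)).symm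
      (fun i => |F a i - F b i| ^ p)
  rw [hsum]
  have hgp : (g ^ (1 / p)) ^ p = g := by
    rw [← Real.rpow_mul hg0.le, one_div_mul_cancel hp0.ne', Real.rpow_one]
  have hUp : ((((1 + B) ^ p + 1) / g) ^ (1 / p) * g ^ (1 / p)) ^ p = (1 + B) ^ p + 1 := by
    rw [← Real.mul_rpow (by positivity) hg0.le, div_mul_cancel₀ _ hg0.ne',
      ← Real.rpow_mul (by positivity), one_div_mul_cancel hp0.ne', Real.rpow_one]
  rw [hgp, hUp]
  exact hF a b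

theorem asm1_holds {p : ℝ} (hp : 1 ≤ p) : Asm1 p := by
  intro A W _ _ _ x h h0 hH H hH0 hn N P J q M hN hP hJ hM0 Rf k e hRf hk hk1 he he1 hM
  obtain ⟨F, hF⟩ := asm1_full hp x h h0 hH H hH0 hn N P J q M hN hP hJ hM0 Rf k e hRf hk hk1 he
    he1 hM
  exact ⟨F, fun a b => ⟨(hF a b).1, (hF a b).2.2⟩⟩

/-- **T1**: for every `p ≥ 1` and `ε > 0`, some distortion `D = D(p, ε)` suffices to embed every
`n` points in dimension `C n ^ ε`. -/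
theorem t1fin {p ε : ℝ} (hp : 1 ≤ p) (hε : 0 < ε) :
    ∃ C D : ℝ, 0 < C ∧ 1 ≤ D ∧ ∀ (A W : Type) [Fintype A] [Nonempty A] [Fintype W],
      Fintype.card W ≤ Fintype.card A ^ 3 → ∀ x : A → W → ℝ,
      ∃ m : ℕ, (m : ℝ) ≤ C * (Fintype.card A : ℝ) ^ ε ∧ ∃ F : A → Fin m → ℝ, ∃ s : ℝ, 0 < s ∧
        ∀ a b, s ^ p * dd p x a b ^ p ≤ ∑ i, |F a i - F b i| ^ p ∧
          ∑ i, |F a i - F b i| ^ p ≤ (D * s) ^ p * dd p x a b ^ p :=
  t1fin_of hp hε (asm1_holds hp)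

end Vale.Agent.Lib.P249
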