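import Vale.Agent.Lib.P249.Final
import Vale.Agent.Lib.P249.T1Fin

/-!
# P249, T1 for `L_p` spaces, `1 ≤ p < ∞`: dimension `C n ^ ε` at distortion `D(p, ε)`
-/

namespace Vale.Agent.Lib.P249

open Finset MeasureTheory
open scoped ENNReal

theorem t1_final (p : ℝ≥0∞) [Fact (1 ≤ p)] (hp : p ≠ ∞) {ε : ℝ} (hε : 0 < ε) :
    ∃ C D : ℝ, 0 < C ∧ 1 ≤ D ∧ ∀ n : ℕ, 2 ≤ n → ∀ d : ℕ, C * (n : ℝ) ^ ε ≤ d →
      ∀ {Ω : Type*} [MeasurableSpace Ω] (μ : Measure Ω) (X : Finset (Lp ℝ p μ)), X.card = n →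
        ∃ f : Lp ℝ p μ → PiLp p (fun _ : Fin d => ℝ), ∃ s : ℝ, 0 < s ∧
          ∀ x ∈ X, ∀ y ∈ X, s * ‖x - y‖ ≤ ‖f x - f y‖ ∧ ‖f x - f y‖ ≤ D * s * ‖x - y‖ := by
  classical
  have hp1 : (1:ℝ≥0∞) ≤ p := Fact.out
  set q : ℝ := p.toReal with hq
  have hq1 : 1 ≤ q := by
    rw [hq, ← ENNReal.toReal_one]
    exact (ENNReal.toReal_le_toReal ENNReal.one_ne_top hp).mpr hp1
  have hq0 : 0 < q := by linarith
  have hS : 0 < Vale.Agent.Lib.H20.Sst q := Vale.Agent.Lib.H20.Sst_pos hq1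
  set B := 108 * Vale.Agent.Lib.H20.Sst q with hB
  have hB0 : 0 < B := by rw [hB]; positivity
  set k0 : ℕ := ⌈B + 1⌉₊ with hk0
  have hk0' : B + 1 ≤ k0 := Nat.le_ceil _
  have hk1 : (1:ℝ) ≤ k0 := by linarith
  obtain ⟨C, D, hC, hD, hA⟩ := t1fin hq1 hε
  refine ⟨C * (k0 : ℝ) ^ ε, D * 2, by positivity, by linarith, ?_⟩
  intro n hn d hd Ω _ μ X hX
  have hn2 : (2:ℝ) ≤ n := by exact_mod_cast hn
  -- first embedding
  set d₀ := ⌈B * (n * Real.log n)⌉₊ with hd₀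
  obtain ⟨f1, s1, hs1, hf1⟩ := Vale.Agent.Lib.H20.embed_main p hp μ X (by omega) one_pos le_rfl d₀
    (by
      rw [hX, ← hq]
      have h1 : B * (n * Real.log n) ≤ d₀ := Nat.le_ceil _
      rw [hB] at h1
      linarith)
  have hlogn : Real.log n ≤ n := (Real.log_le_sub_one_of_pos (by linarith)).trans (by linarith)
  have hlogn0 : 0 ≤ Real.log n := Real.log_nonneg (by linarith)
  -- index type
  have hne : Nonempty (Fin n) := ⟨⟨0, by omega⟩⟩
  have hk0pos : 0 < k0 := by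
    have : (0:ℝ) < k0 := by linarith
    exact_mod_cast this
  have hne2 : Nonempty (Fin k0) := ⟨⟨0, hk0pos⟩⟩
  let e : X ≃ Fin n := X.equivFinOfCardEq hX
  let xx : Fin n × Fin k0 → Fin d₀ → ℝ := fun a w => f1 ((e.symm a.1 : X) : Lp ℝ p μ) w
  have hcard : (Fintype.card (Fin n × Fin k0) : ℝ) = n * k0 := by simp
  obtain ⟨m, hm, F, s, hs, hF⟩ := hA (Fin n × Fin k0) (Fin d₀) (by
      have : (Fintype.card (Fin d₀) : ℝ) ≤ (Fintype.card (Fin n × Fin k0) : ℝ) ^ 3 := by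
        rw [hcard, Fintype.card_fin]
        have h1 : (d₀ : ℝ) ≤ B * (n * Real.log n) + 1 :=
          (Nat.ceil_lt_add_one (by positivity)).le
        have h2 : B * (n * Real.log n) ≤ B * (n * n) := by gcongr
        have h3 : (B + 1) * (n * n * n) ≤ k0 * (n * n * n) := by gcongr
        have h4 : (k0:ℝ) * (n * n * n) ≤ (n * k0) ^ 3 := by
          have h5 : (k0:ℝ) ≤ k0 ^ 3 := by
            have : (k0:ℝ) ^ 1 ≤ k0 ^ 3 := pow_le_pow_right₀ hk1 (by norm_num)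
            simpa using this
          calc (k0:ℝ) * (n * n * n) ≤ k0 ^ 3 * (n * n * n) := by gcongr
            _ = _ := by ring
        have h6 : B * (n * n) + 1 ≤ (B + 1) * (n * n * n) := by
          have h7 : (n:ℝ) * n ≤ n * n * n := by
            nlinarith [mul_pos (by linarith : (0:ℝ) < n) (by linarith : (0:ℝ) < n)]
          have h8 : (1:ℝ) ≤ n * n * n := by
            nlinarith [mul_pos (by linarith : (0:ℝ) < n) (by linarith : (0:ℝ) < n)]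
          nlinarith
        linarith
      exact_mod_cast this) xx
  rw [hcard, Real.mul_rpow (by positivity) (by positivity)] at hm
  have hmd : m ≤ d := by
    have : (m:ℝ) ≤ d := by
      refine hm.trans (le_trans (le_of_eq ?_) hd)
      ring
    exact_mod_cast this
  obtain ⟨F', hF'⟩ := pad_fin hmd hq0 F
  let z : Fin k0 := ⟨0, hk0pos⟩
  let f : Lp ℝ p μ → PiLp p (fun _ : Fin d => ℝ) := fun v =>
    if hv : v ∈ X then WithLp.toLp p (F' (e ⟨v, hv⟩, z)) else 0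
  refine ⟨f, s * s1, by positivity, ?_⟩
  intro u hu v hv
  -- norms
  have hn1 : ‖f u - f v‖ = (∑ i, |F' (e ⟨u, hu⟩, z) i - F' (e ⟨v, hv⟩, z) i| ^ q) ^ (1 / q) := by
    have : f u - f v = WithLp.toLp p (F' (e ⟨u, hu⟩, z) - F' (e ⟨v, hv⟩, z)) := by
      simp [f, hu, hv]
    rw [this, PiLp.norm_eq_sum hq0]
    simp [Real.norm_eq_abs, hq]
  have hn2' : ‖f1 u - f1 v‖ = dd q xx (e ⟨u, hu⟩, z) (e ⟨v, hv⟩, z) := by
    rw [PiLp.norm_eq_sum hq0]
    simp [dd, nrm, xx, Real.norm_eq_abs, hq]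
  set δ := ‖f1 u - f1 v‖ with hδ
  have hδ0 : 0 ≤ δ := norm_nonneg _
  obtain ⟨g1, g2⟩ := hF (e ⟨u, hu⟩, z) (e ⟨v, hv⟩, z)
  rw [← hF', ← hn2'] at g1 g2
  rw [hn1]
  set S := ∑ i, |F' (e ⟨u, hu⟩, z) i - F' (e ⟨v, hv⟩, z) i| ^ q with hSS
  have hS0 : 0 ≤ S := Finset.sum_nonneg fun i _ => Real.rpow_nonneg (abs_nonneg _) _
  have hqq : q * (1 / q) = 1 := mul_one_div_cancel hq0.ne'
  have k1 : s * δ ≤ S ^ (1 / q) := by
    have : (s ^ q * δ ^ q) ^ (1 / q) ≤ S ^ (1 / q) :=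
      Real.rpow_le_rpow (by positivity) g1 (by positivity)
    rwa [Real.mul_rpow (by positivity) (by positivity), ← Real.rpow_mul hδ0, ← Real.rpow_mul hs.le,
      hqq, Real.rpow_one, Real.rpow_one] at this
  have hDs : 0 ≤ D * s := by positivity
  have k2 : S ^ (1 / q) ≤ D * s * δ := by
    have : S ^ (1 / q) ≤ ((D * s) ^ q * δ ^ q) ^ (1 / q) :=
      Real.rpow_le_rpow hS0 g2 (by positivity)
    rwa [Real.mul_rpow (by positivity) (by positivity),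
      ← Real.rpow_mul hδ0, ← Real.rpow_mul hDs, hqq, Real.rpow_one,
      Real.rpow_one] at this
  obtain ⟨l1, l2⟩ := hf1 u hu v hv
  rw [← hδ] at l1 l2
  constructor
  · calc s * s1 * ‖u - v‖ = s * (s1 * ‖u - v‖) := by ring
      _ ≤ s * δ := by gcongr
      _ ≤ _ := k1
  · calc S ^ (1 / q) ≤ D * s * δ := k2
      _ ≤ D * s * ((1 + 1) * (s1 * ‖u - v‖)) := by gcongr
      _ = _ := by ring

end Vale.Agent.Lib.P249
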